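import Vale.Agent.P073Z.SURF.Sk
import Vale.Agent.P073Z.GenBV
import Vale.Agent.P073Z.Gauge
import Vale.Agent.P073Z.A1
import Vale.Agent.P073Z.A3
import Vale.Agent.P073Z.ARR
import Vale.Agent.P073Z.TRI
import Vale.Agent.P073Z.DER.Api

/-!
# A small tent map which makes the edges of a complex generic
-/

open Set Metric Topology Filter MeasureTheory AffineMap
open scoped ENNReal NNReal

namespace P073.SF

namespace Tn

theorem segVar_eq {T : Type} [PseudoEMetricSpace T] (f : E3 → T) (a b : E3) {s t : ℝ}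
    (h : s ≤ t) : segVar f (lineMap a b s) (lineMap a b t) =
      eVariationOn (fun u : ℝ => f (lineMap a b u)) (Icc s t) := by
  have e : (fun u : ℝ => f (lineMap (lineMap a b s) (lineMap a b t) u))
      = (fun u : ℝ => f (lineMap a b u)) ∘ fun u : ℝ => lineMap s t u := by
    funext u
    simp only [Function.comp, lineMap_apply_module', smul_eq_mul]
    congr 1
    module
  unfold segVar
  rw [e, eVariationOn.comp_eq_of_monotoneOn _ _ (fun u _ v _ huv => by
    simp only [lineMap_apply_module', smul_eq_mul]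
    nlinarith), ← segment_eq_image_lineMap, segment_eq_Icc h]

theorem segVar_split {T : Type} [PseudoEMetricSpace T] (f : E3 → T) {a b c : E3}
    (h : c ∈ segment ℝ a b) : segVar f a b = segVar f a c + segVar f c b := by
  rw [segment_eq_image_lineMap] at h
  obtain ⟨s, hs, rfl⟩ := h
  have h1 := segVar_eq f a b hs.1
  have h2 := segVar_eq f a b hs.2
  rw [lineMap_apply_zero] at h1
  rw [lineMap_apply_one] at h2
  have h3 := eVariationOn.Icc_add_Icc (fun u : ℝ => f (lineMap a b u)) (s := univ) hs.1 hs.2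
    (mem_univ s)
  simp only [univ_inter] at h3
  rw [h1, h2, h3]
  rfl

theorem collinear_segment (a b : E3) : Collinear ℝ (segment ℝ a b) := by
  refine (collinear_iff_of_mem (left_mem_segment ℝ a b)).2 ⟨b - a, fun p hp => ?_⟩
  rw [segment_eq_image'] at hp
  obtain ⟨s, -, rfl⟩ := hp
  exact ⟨s, add_comm _ _⟩

theorem segVar_three {T : Type} [PseudoEMetricSpace T] (f : E3 → T) {a b x y c : E3}
    (hx : x ∈ segment ℝ a b) (hy : y ∈ segment ℝ a b) (hc : c ∈ segment ℝ a b) :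
    segVar f x y ≤ segVar f c x + segVar f c y := by
  have h : Collinear ℝ ({x, y, c} : Set E3) := (collinear_segment a b).subset (by
    rintro _ (rfl | rfl | rfl) <;> assumption)
  rcases h.wbtw_or_wbtw_or_wbtw with h | h | h
  · exact (segVar_mono f (right_mem_segment _ _ _) h.symm.mem_segment).trans le_self_add
  · rw [segVar_split f h.symm.mem_segment, segVar_symm f x c]
  · exact (segVar_mono f h.mem_segment (right_mem_segment _ _ _)).trans le_add_self

theorem mem_or {p q z c : E3} (hz : z ∈ segment ℝ p q) (hc : c ∈ segment ℝ p q) :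
    z ∈ segment ℝ c p ∨ z ∈ segment ℝ c q := by
  rw [segment_eq_image_lineMap] at hz hc
  obtain ⟨s, hs, rfl⟩ := hz
  obtain ⟨t, ht, rfl⟩ := hc
  have h1 := image_segment ℝ (lineMap p q : ℝ →ᵃ[ℝ] E3) t 0
  have h2 := image_segment ℝ (lineMap p q : ℝ →ᵃ[ℝ] E3) t 1
  rw [lineMap_apply_zero, segment_symm, segment_eq_Icc ht.1] at h1
  rw [lineMap_apply_one, segment_eq_Icc ht.2] at h2
  rcases le_total s t with h | h
  · exact Or.inl (h1 ▸ mem_image_of_mem _ ⟨hs.1, h⟩)
  · exact Or.inr (h2 ▸ mem_image_of_mem _ ⟨h, hs.2⟩)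

/-- a near identity map which vanishes outside an open set -/
theorem exists_homeo {V : Set E3} {φ : E3 → E3} (hc : ConicalOn φ V)
    (hl : LipschitzWith (1 / 2) φ) (h0 : ∀ x, x ∉ V → φ x = 0) :
    ∃ Φ : ConHomeo V V, ∀ x, Φ.toFun x = x + φ x := by
  have ha : ApproximatesLinearOn (fun x => x + φ x)
      ((ContinuousLinearEquiv.refl ℝ E3 : E3 ≃L[ℝ] E3) : E3 →L[ℝ] E3) univ (1 / 2) := by
    intro x _ y _
    have h1 := hl.dist_le_mul x y
    rw [dist_eq_norm, dist_eq_norm] at h1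
    have h2 : x + φ x - (y + φ y) - (x - y) = φ x - φ y := by abel
    simpa [h2] using h1
  have hc' : Subsingleton E3 ∨ (1 / 2 : ℝ≥0) <
      ‖(((ContinuousLinearEquiv.refl ℝ E3 : E3 ≃L[ℝ] E3).symm : E3 ≃L[ℝ] E3) : E3 →L[ℝ] E3)‖₊⁻¹ := by
    right
    have : (((ContinuousLinearEquiv.refl ℝ E3 : E3 ≃L[ℝ] E3).symm : E3 ≃L[ℝ] E3) : E3 →L[ℝ] E3)
      = ContinuousLinearMap.id ℝ E3 := rfl
    rw [this, ContinuousLinearMap.nnnorm_id]
    norm_num
  let e := ha.toHomeomorph _ hc'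
  have he : ∀ x, e x = x + φ x := fun _ => rfl
  have hf : ∀ x, x ∉ V → e x = x := fun x hx => by rw [he, h0 x hx, add_zero]
  refine ⟨⟨e, e.symm, fun x hx => ?_, fun y hy => ?_, fun x _ => e.symm_apply_apply x,
    fun x _ => e.apply_symm_apply x, e.continuous.continuousOn, e.symm.continuous.continuousOn,
    ?_⟩, he⟩
  · by_contra h
    exact h ((e.injective (hf _ h)).symm ▸ hx)
  · by_contra h
    have h1 := hf _ h
    rw [e.apply_symm_apply] at h1
    exact h (h1 ▸ hy)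
  · exact ((conicalOn_id fun x hx => (hc x hx).conicalSetAt).add hc).congr fun x _ => he x

/-- the property of the segments which the genericity gives -/
def Gen (ψ : E3 → ℝ) (V : Set E3) (x y : E3) : Prop :=
  ∀ a ∈ segment ℝ x y, ∀ b ∈ segment ℝ x y, x ∉ segment ℝ a b → segment ℝ a b ⊆ V →
    segVar ψ a b < ⊤

theorem exists_gen {ψ : E3 → ℝ} {V : Set E3} (h : GenBV ψ V) (p q b : E3) {ε : ℝ} (hε : 0 < ε) :
    ∃ D : E3, ‖D‖ ≤ ε ∧ Gen ψ V p (b + D) ∧ Gen ψ V q (b + D) := by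
  have h1 : ∀ᵐ y : E3, Gen ψ V p y ∧ Gen ψ V q y := (h p).and (h q)
  obtain ⟨y, h2, h3⟩ := ((frequently_ae_mem_iff.2 (measure_ball_pos volume b hε).ne').and_eventually
    h1).exists
  refine ⟨y - b, ?_, by rwa [add_sub_cancel]⟩
  rw [← dist_eq_norm]
  exact (mem_ball.1 h2).le

variable {T : RCx E3} (d : Derived T)

/-- one half of a tilted edge -/
theorem half {ψ : E3 → ℝ} {V : Set E3} (hT : T.carrier = V) (Φ : ConHomeo V V) {e : T.ι}
    {D p x : E3} (hc : Convex ℝ (T.cell e)) (hΦ : ∀ z ∈ T.cell e, Φ.toFun z = z + d.t e z • D)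
    (hp : p ∈ T.bd e) (hg : Gen ψ V p (d.b e + D)) (hx : x ∈ segment ℝ (d.b e) p) (hxp : x ≠ p) :
    segVar (ψ ∘ Φ.toFun) (d.b e) x < ⊤ := by
  have hpc := T.bd_subset e hp
  have hsub : segment ℝ (d.b e) p ⊆ T.cell e := hc.segment_subset (d.b_mem_cell e) hpc
  have hV : T.cell e ⊆ V := hT ▸ T.cell_subset_carrier e
  have key : ∀ s ∈ Icc (0:ℝ) 1,
      Φ.toFun (lineMap (d.b e) p s) = lineMap (d.b e + D) p s := by
    intro s hs
    have h1 := (d.mem_bd_iff hpc).1 hp
    have h2 := (d.t_ray (i := e) (T.cell_subset_carrier e hpc)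
      (fun j hj => Or.inr (d.below hpc hj)) hs.1 (by rw [h1]; linarith [hs.2])).2.1
    rw [hΦ _ (hsub (lineMap_mem_seg _ _ hs)), lineMap_apply_module', lineMap_apply_module',
      add_comm (s • (p - d.b e)), h2, h1]
    module
  rw [segment_eq_image_lineMap] at hx
  obtain ⟨s, hs, rfl⟩ := hx
  have key2 : ∀ u ∈ Icc (0:ℝ) 1, Φ.toFun (lineMap (d.b e) (lineMap (d.b e) p s) u) =
      lineMap (d.b e + D) (lineMap (d.b e + D) p s) u := by
    intro u hu
    rw [lineMap_lineMap_right, lineMap_lineMap_right,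
      key _ ⟨mul_nonneg hu.1 hs.1, mul_le_one₀ hu.2 hs.1 hs.2⟩]
  have hm : ∀ u ∈ Icc (0:ℝ) 1, lineMap (d.b e) (lineMap (d.b e) p s) u ∈ segment ℝ (d.b e) p :=
    fun u hu => (convex_segment _ _).segment_subset (left_mem_segment _ _ _)
      (lineMap_mem_seg _ _ hs) (lineMap_mem_seg _ _ hu)
  have h3 : segVar (ψ ∘ Φ.toFun) (d.b e) (lineMap (d.b e) p s) =
      segVar ψ (d.b e + D) (lineMap (d.b e + D) p s) :=
    eVariationOn.eq_of_eqOn fun u hu => congrArg ψ (key2 u hu)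
  rw [h3]
  refine hg _ (right_mem_segment _ _ _) _ (by
    rw [segment_symm]; exact lineMap_mem_seg _ _ hs) ?_ ?_
  · rw [segment_eq_image_lineMap]
    rintro ⟨u, hu, h4⟩
    have h5 := key 1 ⟨zero_le_one, le_rfl⟩
    rw [lineMap_apply_one, lineMap_apply_one] at h5
    have h6 := Φ.injOn (hV (hsub (hm u hu))) (hV hpc) ((key2 u hu).trans (h4.trans h5.symm))
    rw [lineMap_lineMap_right] at h6
    have h7 : d.b e ≠ p := fun h => (d.b_mem e).2 (h ▸ hp)
    have h8 : u * s = 1 := (lineMap_eq_right_iff.1 h6).resolve_left h7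
    have h9 : s = 1 := by nlinarith [hu.1, hu.2, hs.1, hs.2]
    exact hxp (by rw [h9, lineMap_apply_one])
  · rw [segment_eq_image_lineMap]
    rintro _ ⟨u, hu, rfl⟩
    rw [← key2 u hu]
    exact Φ.mapsTo (hV (hsub (hm u hu)))

end Tn

open Tn in
theorem tent_of (hT : TRI) (hD : DER) : TENT := by
  intro V ψ ι a b ρ hV hψ hlf hw hρ
  classical
  obtain ⟨r, hr, hr1, -, hr2⟩ := hρ.exists_fine (N := 3) (by norm_num)
  obtain ⟨T, hc, hT, hs, hS⟩ := hT (U := V) (fun i => segment ℝ (a i) (b i) ∩ V)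
    (fun _ _ => (0:ℝ)) hV hr
    (fun x hx => let ⟨U, h1, h2⟩ := hlf x hx
      ⟨U, h1, h2.subset fun i ⟨y, h3, h4⟩ => ⟨y, h3.1, h4⟩⟩)
    fun i => by
      have h1 : LocCone (segment ℝ (a i) (b i)) := by
        have h := poly ({a i, b i} : Finset E3)
        rwa [Finset.coe_pair, convexHull_pair] at h
      have h2 : IsClosed (segment ℝ (a i) (b i)) := by
        rw [segment_eq_image_lineMap]
        exact (isCompact_Icc.image lineMap_continuous).isClosed
      exact ⟨inter_subset_right, fun x hx h => ⟨h2.closure_subset (closure_mono inter_subset_left h),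
        hx⟩, fun x hx => (h1 x).inter (locConeAt_of_mem_nhds (hV.mem_nhds hx)),
        continuousOn_const, conicalOn_const _ (h1.conicalSet.inter (IsOpen.conicalSet hV))⟩
  have hb : ∀ i, ∃ b, b ∈ T.ocell i := T.ocell_nonempty
  choose c hb using hb
  obtain ⟨d, -⟩ := hD T hc c hb
  have hO : IsOpen T.carrier := hT ▸ hV
  choose L hL using d.exists_lipschitz hO
  have hex : ∀ e, ∃ D : E3, (D ≠ 0 → T.dim e = 1 ∧ ∀ i, ¬ T.cell e ⊆ segment ℝ (a i) (b i)) ∧
      ‖D‖ * L e ≤ 1 / 4 ∧ (∀ x ∈ T.cst e, ‖D‖ ≤ r x) ∧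
      (T.dim e = 1 → (∀ i, ¬ T.cell e ⊆ segment ℝ (a i) (b i)) →
        ∀ p ∈ T.bd e, Gen ψ V p (d.b e + D)) := by
    intro e
    obtain ⟨ε, hε, h1⟩ := hr.exists_lower (T.isCompact_cst e) (hT ▸ T.cst_subset_carrier e)
    by_cases he : T.dim e = 1 ∧ ∀ i, ¬ T.cell e ⊆ segment ℝ (a i) (b i)
    · obtain ⟨p, q, -, -, -, -, h2, -⟩ := hc.exists_segment he.1
      have hL0 : (0:ℝ) < L e + 1 := by positivity
      obtain ⟨D, h3, h4, h5⟩ := exists_gen hψ p q (d.b e) (ε := min ε (1 / (4 * (L e + 1))))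
        (lt_min hε (by positivity))
      refine ⟨D, fun _ => he, ?_, fun x hx => (h3.trans (min_le_left _ _)).trans (h1 x hx),
        fun _ _ z hz => ?_⟩
      · have h6 := h3.trans (min_le_right _ _)
        rw [le_div_iff₀ (by positivity)] at h6
        nlinarith [norm_nonneg D]
      · rw [h2] at hz
        rcases hz with rfl | rfl
        exacts [h4, h5]
    · exact ⟨0, fun h => absurd rfl h, by simp, fun x hx => norm_zero.trans_le
        (hε.le.trans (h1 x hx)), fun h2 h3 => absurd ⟨h2, h3⟩ he⟩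
  choose D hD1 hD2 hD3 hD4 using hex
  let φ : E3 → E3 := fun x => ∑ᶠ e, d.t e x • D e
  have hφ : ∀ x (s : Finset T.ι), (∀ e, d.t e x ≠ 0 → D e ≠ 0 → e ∈ s) →
      φ x = ∑ e ∈ s, d.t e x • D e := fun x s h =>
    finsum_eq_sum_of_support_subset _ fun e he =>
      h e (left_ne_zero_of_smul he) (right_ne_zero_of_smul he)
  have hone : ∀ x, ∃ s : Finset T.ι, s.card ≤ 1 ∧ ∀ e, e ∈ s ↔ d.t e x ≠ 0 ∧ D e ≠ 0 := by
    intro x
    have h1 : {e | d.t e x ≠ 0 ∧ D e ≠ 0}.Finite := (d.finite_support x).subset fun e he => he.1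
    refine ⟨h1.toFinset, Finset.card_le_one.2 fun e he e' he' => ?_, fun e => h1.mem_toFinset⟩
    rw [h1.mem_toFinset] at he he'
    exact d.eq_of_dim he.1 he'.1 ((hD1 e he.2).1.trans (hD1 e' he'.2).1.symm)
  have hlip : LipschitzWith (1 / 2) φ := by
    refine LipschitzWith.of_dist_le_mul fun x y => ?_
    obtain ⟨s, h1, h2⟩ := hone x
    obtain ⟨s', h1', h2'⟩ := hone y
    rw [hφ x (s ∪ s') fun e h h' => Finset.mem_union_left _ ((h2 e).2 ⟨h, h'⟩),
      hφ y (s ∪ s') fun e h h' => Finset.mem_union_right _ ((h2' e).2 ⟨h, h'⟩)]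
    refine (dist_sum_sum_le_of_le _ (d := fun _ => 1 / 4 * dist x y) fun e _ => ?_).trans ?_
    · rw [dist_eq_norm, ← sub_smul, norm_smul, ← dist_eq_norm]
      have h3 := (hL e).dist_le_mul x y
      have h4 := hD2 e
      nlinarith [norm_nonneg (D e), dist_nonneg (x := x) (y := y),
        mul_le_mul_of_nonneg_right h3 (norm_nonneg (D e)),
        mul_le_mul_of_nonneg_right h4 (dist_nonneg (x := x) (y := y))]
    · rw [Finset.sum_const, nsmul_eq_mul]
      have h3 : ((s ∪ s').card : ℝ) ≤ 2 := by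
        exact_mod_cast (Finset.card_union_le s s').trans (add_le_add h1 h1')
      have h4 := mul_le_mul_of_nonneg_right h3 (dist_nonneg (x := x) (y := y))
      push_cast
      linarith
  have hcon : ConicalOn φ V := by
    intro x hx
    obtain ⟨s, h1⟩ := d.exists_finset (hT.symm ▸ hx : x ∈ T.carrier)
    have h2 : ConicalOn (∑ e ∈ s, fun y => d.t e y • D e) T.carrier :=
      Finset.sum_induction (p := fun g : E3 → E3 => ConicalOn g T.carrier)
        (fun e y => d.t e y • D e) (fun _ _ => ConicalOn.add)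
        (conicalOn_const 0 (IsOpen.conicalSet hO)) (s := s)
        fun e _ => (d.pl e).2.linear_comp (LinearMap.toSpanSingleton ℝ E3 (D e))
    have h3 : ∀ᶠ y in 𝓝 x, φ y = (∑ e ∈ s, fun y => d.t e y • D e) y := by
      filter_upwards [h1] with y hy
      rw [hφ y s fun e h _ => hy e h, Finset.sum_apply]
    exact (h2 x (hT.symm ▸ hx)).congr_nhds (Eventually.of_forall fun y => by rw [hT])
      (h3.mono fun y hy _ => hy) h3.self_of_nhds
  obtain ⟨Φ, hΦ⟩ := exists_homeo hcon hlip fun x hx => by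
    rw [hφ x ∅ fun e h _ => absurd (hT ▸ d.mem_carrier h) hx, Finset.sum_empty]
  have hcV : ∀ i, T.cell i ⊆ V := fun i => hT ▸ T.cell_subset_carrier i
  have hsm : ∀ x ∈ V, ‖φ x‖ ≤ r x := by
    intro x hx
    obtain ⟨s, h1, h2⟩ := hone x
    rw [hφ x s fun e h h' => (h2 e).2 ⟨h, h'⟩]
    refine (norm_sum_le_of_le _ (n := fun _ => r x) fun e he => ?_).trans ?_
    · rw [norm_smul, Real.norm_of_nonneg (d.nonneg e x)]
      exact (mul_le_of_le_one_left (norm_nonneg _) (d.le_one e x)).trans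
        (hD3 e x (d.mem_cst ((h2 e).1 he).1))
    · rw [Finset.sum_const, nsmul_eq_mul]
      exact mul_le_of_le_one_left (hr.2 x hx).le (by exact_mod_cast h1)
  have hfix : ∀ i, ∀ x ∈ V, x ∈ segment ℝ (a i) (b i) → Φ.toFun x = x ∧ x ∈ T.skel 1 := by
    intro i x hx hxi
    obtain ⟨m, h1, h2⟩ := (hS i).1 x ⟨hxi, hx⟩
    have h3 : T.cell m ⊆ segment ℝ (a i) (b i) := h2.trans inter_subset_left
    refine ⟨?_, T.mem_skel.2 ⟨m, ?_, h1⟩⟩
    · rw [hΦ, hφ x ∅ fun e h h' => absurd ((d.below h1 h).trans h3) ((hD1 e h').2 i),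
        Finset.sum_empty, add_zero]
    · rw [(hc m).2.2]
      exact ((collinear_segment _ _).subset h3).finrank_le_one
  refine ⟨T, Φ, hc, hT, fun i => ?_, hfix, fun e he x hx y hy => ?_⟩
  · obtain ⟨x, hx⟩ := T.cell_nonempty i
    refine (hr1 x (hcV i hx)).mono ?_
    rintro _ ⟨y, hy, rfl⟩
    refine ⟨Φ.mapsTo (hcV i hy), ?_⟩
    have h1 := hs i x hx y hy
    have h2 := (hr2 x (hcV i hx) y (by linarith [hr.2 x (hcV i hx)])).1
    have h3 := hsm y (hcV i hy)
    have h4 : dist (y + φ y) x ≤ dist (y + φ y) y + dist y x := dist_triangle _ _ _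
    rw [dist_self_add_left, dist_comm y x] at h4
    rw [mem_closedBall, hΦ]
    linarith
  by_cases hi : ∃ i, T.cell e ⊆ segment ℝ (a i) (b i)
  · obtain ⟨i, hi⟩ := hi
    have h1 : segment ℝ x y ⊆ T.cell e := (hc e).1.segment_subset hx.1 hy.1
    rw [segVar_congr (f := ψ ∘ Φ.toFun) (g := ψ) fun z hz => congrArg ψ (hfix i z (hcV e (h1 hz)) (hi (h1 hz))).1]
    exact hw i x (hi hx.1) y (hi hy.1) (h1.trans (hcV e))
  push Not at hi
  obtain ⟨p, q, -, -, -, h1, h2, -⟩ := hc.exists_segment he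
  have h3 : ∀ z ∈ T.cell e, Φ.toFun z = z + d.t e z • D e := fun z hz => by
    rw [hΦ, hφ z {e} fun j h h' => Finset.mem_singleton.2
      (T.eq_of_subset_of_dim_le (d.below hz h) (he.trans (hD1 j h').1.symm).le),
      Finset.sum_singleton]
  have h4 : ∀ z ∈ T.ocell e, segVar (ψ ∘ Φ.toFun) (d.b e) z < ⊤ := by
    intro z hz
    have h5 : z ∈ segment ℝ p q := h1 ▸ hz.1
    have h6 : d.b e ∈ segment ℝ p q := h1 ▸ d.b_mem_cell e
    have hp : p ∈ T.bd e := h2 ▸ Or.inl rfl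
    have hq : q ∈ T.bd e := h2 ▸ Or.inr rfl
    rcases mem_or h5 h6 with h | h
    · exact half d hT Φ (hc e).1 h3 hp (hD4 e he hi p hp) h fun e' => hz.2 (e' ▸ hp)
    · exact half d hT Φ (hc e).1 h3 hq (hD4 e he hi q hq) h fun e' => hz.2 (e' ▸ hq)
  exact (segVar_three _ (h1 ▸ hx.1) (h1 ▸ hy.1) (h1 ▸ d.b_mem_cell e)).trans_lt
    (ENNReal.add_lt_top.2 ⟨h4 x hx, h4 y hy⟩)

theorem tent : TENT := tent_of (tri_of (arr_of cvx) stm) der

end P073.SF
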