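import Vale.Agent.P073Z.Sk2

/-!
# The essential normal surface: definitions and statements
-/

open Set Metric Topology Filter MeasureTheory
open scoped ENNReal NNReal

namespace P073.SF

/-! ### side functions -/

/-- `w` is locally constant at all points of `X` -/
def LocC (w : E3 → ZMod 2) (X : Set E3) : Prop := ∀ y ∈ X, ∀ᶠ y' in 𝓝 y, w y' = w y

/-- `w` takes both values off `X` near `x` -/
def Jumps (w : E3 → ZMod 2) (X : Set E3) (x : E3) : Prop :=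
  ∀ b, ∃ᶠ y in 𝓝 x, y ∉ X ∧ w y = b

/-- a closed surface in an open set homeomorphic to a convex set has a side function -/
def SEP2 : Prop := ∀ {E : Type} [NormedAddCommGroup E] [NormedSpace ℝ E] {Y X : Set E3}
  {K : Set E} {f : E3 → E} {g : E → E3}, Convex ℝ K → HomeoOn f g Y K → IsOpen Y → X ⊆ Y →
  ClosedIn X Y → PLMan 2 X → ∃ w : E3 → ZMod 2, LocC w (Y \ X) ∧ ∀ x ∈ X, Jumps w X x

/-- two side functions differ locally by a constant -/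
def TWO : Prop := ∀ {X U : Set E3} {w₁ w₂ : E3 → ZMod 2} {x : E3}, PLMan 2 X → x ∈ X →
  U ∈ 𝓝 x → LocC w₁ (U \ X) → LocC w₂ (U \ X) → Jumps w₁ X x → Jumps w₂ X x →
  ∃ b, ∀ᶠ y in 𝓝 x, y ∉ X → w₁ y + w₂ y = b

/-- product structure on `V` -/
structure Box {E : Type} [NormedAddCommGroup E] [NormedSpace ℝ E] (G : Set E) (V : Set E3)
    (π : E3 → E) (ψ : E3 → ℝ) (σ : E × ℝ → E3) : Prop where
  man : PLMan 2 G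
  op : IsOpen V
  hom : HomeoOn (fun x => (π x, ψ x)) σ V (G ×ˢ Ioo (-1) 1)

/-- half width of a slab around the level `c` -/
def Thin {E : Type} [TopologicalSpace E] (G : Set E) (c : ℝ) (η : E → ℝ) : Prop :=
  Gauge η G ∧ ∀ u ∈ G, |c| + η u < 1

/-- the open slab around the level `c` -/
def slab {E : Type} (V : Set E3) (π : E3 → E) (ψ : E3 → ℝ) (c : ℝ) (η : E → ℝ) : Set E3 :=
  {x ∈ V | |ψ x - c| < η (π x)}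

def BOX : Prop := ∀ {E : Type} [NormedAddCommGroup E] [NormedSpace ℝ E] {G : Set E} {V : Set E3}
  {π : E3 → E} {ψ : E3 → ℝ} {σ : E × ℝ → E3} {c : ℝ} {η : E → ℝ}, Box G V π ψ σ → Thin G c η →
  IsOpen (slab V π ψ c η) ∧
  (∀ D B, ConBall 2 D B → D ⊆ G → IsOpen {x ∈ V | π x ∈ D \ B} ∧
    IsPreconnected {x ∈ slab V π ψ c η | π x ∈ D \ B} ∧
    IsCompact {x ∈ V | π x ∈ D ∧ |ψ x - c| ≤ η (π x)}) ∧
  (∀ u ∈ G, ∀ s₁ s₂ : ℝ, -1 < s₁ → s₁ ≤ s₂ → s₂ < 1 →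
    IsCompact {x ∈ V | π x = u ∧ ψ x ∈ Icc s₁ s₂} ∧
    IsPreconnected {x ∈ V | π x = u ∧ ψ x ∈ Icc s₁ s₂}) ∧
  ∀ A, A ⊆ V → ClosedIn A V → (∀ x ∈ A, ψ x ≠ c) → ∃ η', Thin G c η' ∧ (∀ u, η' u ≤ η u) ∧
    Disjoint A (slab V π ψ c η')

/-- side function of a surface in the slab that lies over a disc -/
def WJ : Prop := ∀ {E : Type} [NormedAddCommGroup E] [NormedSpace ℝ E] {G D B L : Set E}
  {V X : Set E3} {π : E3 → E} {ψ : E3 → ℝ} {σ : E × ℝ → E3} {c : ℝ} {η : E → ℝ},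
  Box G V π ψ σ → Thin G c η → X ⊆ slab V π ψ c η → ClosedIn X (slab V π ψ c η) → PLMan 2 X →
  ConBall 2 D B → D ⊆ G → IsCompact L → L ⊆ D \ B → (∀ x ∈ X, π x ∈ L) →
  ∃ w : E3 → ZMod 2, LocC w (slab V π ψ c η \ X) ∧ (∀ x ∈ X, Jumps w X x) ∧
    ∀ x ∈ slab V π ψ c η, π x ∉ D \ B → w x = 0

/-- side function of a closed surface inside the slab, zero above the slab -/
def SIDE : Prop := ∀ {E : Type} [NormedAddCommGroup E] [NormedSpace ℝ E] {G : Set E}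
  {V X : Set E3} {π : E3 → E} {ψ : E3 → ℝ} {σ : E × ℝ → E3} {c : ℝ} {η : E → ℝ},
  Box G V π ψ σ → Thin G c η → X ⊆ slab V π ψ c η → ClosedIn X V → PLMan 2 X →
  ∃ ζ : E3 → ZMod 2, LocC ζ (V \ X) ∧ (∀ x ∈ X, Jumps ζ X x) ∧
    ∀ x ∈ V, c + η (π x) ≤ ψ x → ζ x = 0

/-- compact pieces over discs do not change the value below the slab -/
def PAR : Prop := ∀ {E : Type} [NormedAddCommGroup E] [NormedSpace ℝ E] {G : Set E}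
  {V S : Set E3} {π : E3 → E} {ψ : E3 → ℝ} {σ : E × ℝ → E3} {c : ℝ} {η : E → ℝ}
  (𝒞 : Set (Set E3)) {ζ₀ ζ : E3 → ZMod 2},
  Box G V π ψ σ → Thin G c η → S ⊆ slab V π ψ c η → ClosedIn S V → PLMan 2 S →
  (∀ C ∈ 𝒞, C ⊆ slab V π ψ c η ∧ IsCompact C ∧ PLMan 2 C ∧ Disjoint C S ∧
    ∃ D B, ConBall 2 D B ∧ D ⊆ G ∧ ∀ x ∈ C, π x ∈ D \ B) →
  (∀ C ∈ 𝒞, ∀ C' ∈ 𝒞, C ≠ C' → Disjoint C C') → LFIn (fun C : 𝒞 => (C : Set E3)) V →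
  LocC ζ₀ (V \ (S ∪ ⋃₀ 𝒞)) → (∀ x ∈ S ∪ ⋃₀ 𝒞, Jumps ζ₀ (S ∪ ⋃₀ 𝒞) x) →
  (∀ x ∈ V, c + η (π x) ≤ ψ x → ζ₀ x = 0) →
  LocC ζ (V \ S) → (∀ x ∈ S, Jumps ζ S x) → (∀ x ∈ V, c + η (π x) ≤ ψ x → ζ x = 0) →
  ∀ x ∈ V, ψ x ≤ c - η (π x) → ζ x = ζ₀ x

/-! ### the complex and the level -/

/-- a fine convex complex whose edges become generic after a small tent map -/
def TENT : Prop := ∀ {V : Set E3} {ψ : E3 → ℝ} {ι : Type} (a b : ι → E3) {ρ : E3 → ℝ},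
  IsOpen V → GenBV ψ V → LFIn (fun i => segment ℝ (a i) (b i)) V →
  (∀ i, ∀ x ∈ segment ℝ (a i) (b i), ∀ y ∈ segment ℝ (a i) (b i), segment ℝ x y ⊆ V →
    segVar ψ x y < ⊤) → Gauge ρ V →
  ∃ (T : RCx E3) (Φ : ConHomeo V V), T.Cvx ∧ T.carrier = V ∧
    (∀ i, Small ρ (Φ.toFun '' T.cell i)) ∧
    (∀ i, ∀ x ∈ V, x ∈ segment ℝ (a i) (b i) → Φ.toFun x = x ∧ x ∈ T.skel 1) ∧
    ∀ e, T.dim e = 1 → ∀ x ∈ T.ocell e, ∀ y ∈ T.ocell e, segVar (ψ ∘ Φ.toFun) x y < ⊤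

/-- a good level, with the small arcs around the zeros on the edges -/
structure Lev (T : RCx E3) (ψ : E3 → ℝ) (c : ℝ) (I : E3 → Set E3) (zp zm : E3 → E3) : Prop where
  fin : ∀ i, {x ∈ T.cell i | x ∈ T.skel 1 ∧ ψ x = c}.Finite
  arc : ∀ z ∈ T.skel 1, ψ z = c → ∃ e, T.dim e = 1 ∧ I z ⊆ T.ocell e ∧
    IsArc (I z) (zm z) (zp z) ∧ z ∈ I z ∧ ψ (zm z) < c ∧ c < ψ (zp z)
  disj : ∀ z ∈ T.skel 1, ∀ z' ∈ T.skel 1, ψ z = c → ψ z' = c → z ≠ z' → Disjoint (I z) (I z')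
  pass : ∀ F, T.dim F = 2 → NoPass (T.cell F) (T.bd F) ψ c

def LEVEL : Prop := ∀ (T : RCx E3) {ψ : E3 → ℝ} {𝓛 : Set ℝ}, T.Cvx → ContinuousOn ψ T.carrier →
  (∀ e, T.dim e = 1 → ∀ x ∈ T.ocell e, ∀ y ∈ T.ocell e, segVar ψ x y < ⊤) → volume 𝓛 ≠ 0 →
  ∃ c ∈ 𝓛, ∃ (I : E3 → Set E3) (zp zm : E3 → E3), Lev T ψ c I zp zm

/-- the one-skeleta of the cells meeting a connected compact set form a connected set -/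
def SKC : Prop := ∀ {E : Type} [NormedAddCommGroup E] [NormedSpace ℝ E] (T : RCx E) {A : Set E},
  IsCompact A → IsPreconnected A → A ⊆ T.carrier →
  IsPreconnected (⋃ i, ⋃ (_ : (T.cell i ∩ A).Nonempty), T.cell i ∩ T.skel 1)

/-- disjoint caps over disjoint circles in the boundary of a ball -/
def CAPS : Prop := ∀ {E : Type} [NormedAddCommGroup E] [NormedSpace ℝ E] [FiniteDimensional ℝ E]
  {Q B : Set E} (𝒥 : Finset (Set E)) {v : E}, ConBall 3 Q B → v ∈ B →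
  (∀ J ∈ 𝒥, IsCircle J ∧ J ⊆ B ∧ v ∉ J) → (∀ J ∈ 𝒥, ∀ J' ∈ 𝒥, J ≠ J' → Disjoint J J') →
  ∃ D : Set E → Set E, (∀ J ∈ 𝒥, ConBall 2 (D J) J ∧ D J ⊆ Q ∧ D J ∩ B = J) ∧
    (∀ J ∈ 𝒥, ∀ J' ∈ 𝒥, J ≠ J' → Disjoint (D J) (D J')) ∧
    ∀ J ∈ 𝒥, ∀ p ∈ J, ∀ U ∈ 𝓝 p, ∀ᶠ y in 𝓝 p, y ∈ Q → y ∉ D J →
      ∃ K ⊆ (U ∩ Q) \ D J, IsPreconnected K ∧ y ∈ K ∧ (K ∩ B).Nonempty

/-! ### surface complexes -/

/-- two discs that meet along their boundaries form a surface at inner points of a common arc -/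
def GLUE2 : Prop := ∀ {E : Type} [NormedAddCommGroup E] [NormedSpace ℝ E]
  {D₁ B₁ D₂ B₂ β : Set E} {p q x : E}, ConBall 2 D₁ B₁ → ConBall 2 D₂ B₂ → IsArc β p q →
  β ⊆ B₁ → β ⊆ B₂ → D₁ ∩ D₂ ⊆ B₁ → D₁ ∩ D₂ ⊆ B₂ → x ∈ β → x ≠ p → x ≠ q →
  ∃ C B, ConBall 2 C B ∧ x ∈ C \ B ∧ C ⊆ D₁ ∪ D₂ ∧ C ∈ 𝓝[D₁ ∪ D₂] x

/-- a complex in which arcs have two sides and links are connected is a surface -/
def SCX : Prop := ∀ {E : Type} [NormedAddCommGroup E] [NormedSpace ℝ E] [FiniteDimensional ℝ E]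
  (X : RCx E), (∀ i, ∃ d, X.dim d = 2 ∧ X.cell i ⊆ X.cell d) →
  (∀ a, X.dim a = 1 → ∃ d₁ d₂, d₁ ≠ d₂ ∧ ∀ d,
    (X.dim d = 2 ∧ X.cell a ⊆ X.cell d) ↔ (d = d₁ ∨ d = d₂)) →
  (∀ v, X.dim v = 0 → ∀ c : X.ι → Prop,
    (∀ a d d', X.dim a = 1 → X.dim d = 2 → X.dim d' = 2 → X.cell v ⊆ X.cell a →
      X.cell a ⊆ X.cell d → X.cell a ⊆ X.cell d' → c d → c d') →
    ∀ d d', X.dim d = 2 → X.dim d' = 2 → X.cell v ⊆ X.cell d → X.cell v ⊆ X.cell d' →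
      c d → c d') →
  PLMan 2 X.carrier

/-- two-cells with a common arc -/
def Adj {E : Type} [NormedAddCommGroup E] [NormedSpace ℝ E] (X : RCx E) (d d' : X.ι) : Prop :=
  X.dim d = 2 ∧ X.dim d' = 2 ∧ ∃ a, X.dim a = 1 ∧ X.cell a ⊆ X.cell d ∧ X.cell a ⊆ X.cell d'

/-- a set of two-cells closed under adjacency -/
def Sat {E : Type} [NormedAddCommGroup E] [NormedSpace ℝ E] (X : RCx E) (𝓔 : Set X.ι) : Prop :=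
  (∀ d ∈ 𝓔, X.dim d = 2) ∧ ∀ d ∈ 𝓔, ∀ d', Adj X d d' → d' ∈ 𝓔

/-- unions of components -/
def COMP : Prop := ∀ {E : Type} [NormedAddCommGroup E] [NormedSpace ℝ E] [FiniteDimensional ℝ E]
  (X : RCx E) (𝓔 : Set X.ι), PLMan 2 X.carrier → Sat X 𝓔 →
  PLMan 2 (⋃ d ∈ 𝓔, X.cell d) ∧
  (∀ d, X.dim d = 2 → (X.cell d ∩ ⋃ d ∈ 𝓔, X.cell d).Nonempty → d ∈ 𝓔) ∧
  X.carrier = ⋃ d, ⋃ (_ : X.dim d = 2), X.cell d

/-- the arcs in `J` form a circle -/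
def Circ {E : Type} [NormedAddCommGroup E] [NormedSpace ℝ E] (X : RCx E) (J : Finset X.ι) : Prop :=
  (∀ a ∈ J, X.dim a = 1) ∧ IsCircle (⋃ a ∈ J, X.cell a)

/-- a colouring of the two-cells that changes exactly across the arcs of `J` -/
def Col {E : Type} [NormedAddCommGroup E] [NormedSpace ℝ E] (X : RCx E) (J : Finset X.ι)
    (col : X.ι → ZMod 2) : Prop :=
  ∀ a d d', X.dim a = 1 → X.dim d = 2 → X.dim d' = 2 → d ≠ d' → X.cell a ⊆ X.cell d →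
    X.cell a ⊆ X.cell d' → (a ∈ J ↔ col d ≠ col d')

/-- small connected sets lie in discs -/
def BIG : Prop := ∀ {E : Type} [NormedAddCommGroup E] [NormedSpace ℝ E] [FiniteDimensional ℝ E]
  (X : RCx E) (𝓔 : Set X.ι) {R₀ R₁ R₂ K : Set E}, PLMan 2 X.carrier → Sat X 𝓔 →
  R₀ ⊆ R₁ → R₁ ⊆ R₂ → {d | X.dim d = 2 ∧ X.bd d ⊆ R₂}.Finite →
  (∀ d ∈ 𝓔, ∃ d', Relation.ReflTransGen (Adj X) d d' ∧ ¬ X.bd d' ⊆ R₂) →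
  (∀ J, Circ X J → (⋃ a ∈ J, X.cell a) ⊆ R₀ → ∃ col, Col X J col ∧
    ∀ d, X.dim d = 2 → col d ≠ 0 → X.bd d ⊆ R₁) →
  (∀ J, Circ X J → (⋃ a ∈ J, X.cell a) ⊆ R₁ → ∃ col, Col X J col ∧
    ∀ d, X.dim d = 2 → col d ≠ 0 → X.bd d ⊆ R₂) →
  K.Nonempty → IsPreconnected K → K ⊆ (⋃ d ∈ 𝓔, X.cell d) →
  (∀ d, X.dim d = 2 → (X.cell d ∩ K).Nonempty → X.bd d ⊆ R₀) →
  ∃ (𝓘 : Set X.ι) (B : Set E), 𝓘 ⊆ 𝓔 ∧ (∀ d ∈ 𝓘, X.bd d ⊆ R₁) ∧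
    ConBall 2 (⋃ d ∈ 𝓘, X.cell d) B ∧ K ⊆ (⋃ d ∈ 𝓘, X.cell d) \ B

/-! ### the normal surface -/

/-- a normal surface for the level `c`, with its strips; the arcs lie in `W` -/
structure Nrm (T : RCx E3) (ψ : E3 → ℝ) (c : ℝ) (I : E3 → Set E3) (zp zm : E3 → E3)
    (W : Set E3) where
  /-- the surface complex -/
  X : RCx E3
  /-- the cell of `T` that carries a cell -/
  host : X.ι → T.ι
  /-- strips -/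
  strip : X.ι → Set E3
  /-- upper arcs -/
  top : X.ι → Set E3
  /-- lower arcs -/
  bot : X.ι → Set E3
  host_dim : ∀ i, T.dim (host i) = X.dim i + 1
  host_ocell : ∀ i, X.ocell i ⊆ T.ocell (host i)
  host_cell : ∀ i, X.cell i ⊆ T.cell (host i)
  host_fin : ∀ j, {i | host i = j}.Finite
  vert : ∀ x, x ∈ X.skel 0 ↔ (x ∈ T.skel 1 ∧ ψ x = c)
  arc : ∀ a, X.dim a = 1 → ∃ p q, X.bd a = {p, q} ∧ IsArc (X.cell a) p q ∧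
    X.cell a ⊆ W ∩ strip a ∧ ConBall 2 (strip a) (I p ∪ I q ∪ top a ∪ bot a) ∧
    strip a ⊆ T.cell (host a) ∧ strip a ∩ T.bd (host a) = I p ∪ I q ∧
    IsArc (top a) (zp p) (zp q) ∧ IsArc (bot a) (zm p) (zm q) ∧
    top a ∩ T.bd (host a) = {zp p, zp q} ∧ bot a ∩ T.bd (host a) = {zm p, zm q} ∧
    (∀ x ∈ top a, c < ψ x) ∧ (∀ x ∈ bot a, ψ x < c) ∧ Disjoint (top a ∪ bot a) W ∧
    X.cell a ∩ (I p ∪ I q ∪ top a ∪ bot a) = {p, q}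
  strip_disj : ∀ a a', X.dim a = 1 → X.dim a' = 1 → a ≠ a' → host a = host a' →
    Disjoint (strip a) (strip a')
  at_face : ∀ z ∈ T.skel 1, ψ z = c → ∀ F, T.dim F = 2 → z ∈ T.cell F →
    ∃ a, X.dim a = 1 ∧ host a = F ∧ z ∈ X.cell a
  at_room : ∀ a Q, X.dim a = 1 → T.dim Q = 3 → T.cell (host a) ⊆ T.cell Q →
    ∃ d, X.dim d = 2 ∧ host d = Q ∧ X.cell a ⊆ X.cell d
  room_disj : ∀ d d', X.dim d = 2 → X.dim d' = 2 → d ≠ d' → host d = host d' →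
    Disjoint (X.cell d) (X.cell d')
  loc : ∀ d, X.dim d = 2 → ∀ p ∈ X.bd d, ∀ U ∈ 𝓝 p, ∀ᶠ y in 𝓝 p, y ∈ T.cell (host d) →
    y ∉ X.cell d → ∃ K ⊆ (U ∩ T.cell (host d)) \ X.cell d, IsPreconnected K ∧ y ∈ K ∧
      (K ∩ T.bd (host d)).Nonempty

/-- existence of the normal surface -/
def NORM : Prop := ∀ (T : RCx E3) {ψ : E3 → ℝ} {c : ℝ} {I : E3 → Set E3} {zp zm : E3 → E3}
  (𝒲 : Set (Set E3)), T.Cvx → IsOpen T.carrier → ContinuousOn ψ T.carrier → Lev T ψ c I zp zm →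
  (∀ W ∈ 𝒲, IsOpen W ∧ {x ∈ T.carrier | ψ x = c} ⊆ W) →
  (∀ A, A ⊆ T.carrier → ClosedIn A T.carrier → (∀ x ∈ A, ψ x ≠ c) → ∃ W ∈ 𝒲, Disjoint A W) →
  ∃ W ∈ 𝒲, Nonempty (Nrm T ψ c I zp zm W)

/-- first properties of the normal surface -/
def NMAN : Prop := ∀ (T : RCx E3) {ψ : E3 → ℝ} {c : ℝ} {I : E3 → Set E3} {zp zm : E3 → E3}
  {W : Set E3} (N : Nrm T ψ c I zp zm W), T.Cvx → IsOpen T.carrier → Lev T ψ c I zp zm →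
  PLMan 2 N.X.carrier ∧ N.X.carrier ⊆ T.carrier ∧ LFIn N.X.cell T.carrier ∧
  (∀ x ∈ N.X.carrier, x ∈ T.skel 1 → ψ x = c) ∧
  (∀ x ∈ N.X.carrier, ∀ i, x ∈ T.cell i → ∃ z ∈ T.cell i, ψ z = c) ∧
  ∀ d, N.X.dim d = 2 → N.X.bd d ⊆ W

/-- the strips along a circle form a surface inside `W` -/
def ANNU : Prop := ∀ (T : RCx E3) {ψ : E3 → ℝ} {c : ℝ} {I : E3 → Set E3} {zp zm : E3 → E3}
  {W : Set E3} (N : Nrm T ψ c I zp zm W), T.Cvx → IsOpen T.carrier → Lev T ψ c I zp zm →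
  IsOpen W → (∀ J, Circ N.X J → PLMan 2 (W ∩ ⋃ a ∈ J, N.strip a)) ∧
  ∀ a F, N.X.dim a = 1 → T.dim F = 2 → ∀ p ∈ W, p ∈ T.ocell F → p ∈ N.strip a →
    N.host a = F ∧ N.strip a ∈ 𝓝[T.cell F] p ∧
      ∀ a', N.X.dim a' = 1 → p ∈ N.strip a' → a' = a

/-- values of a locally constant function seen from inside a three-cell -/
def HAT : Prop := ∀ (T : RCx E3), T.Cvx → IsOpen T.carrier →
  (∀ Q, T.dim Q = 3 → ∀ p ∈ T.cell Q, (𝓝[T.ocell Q] p).NeBot) ∧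
  (∀ F Q₁ Q₂, T.dim F = 2 → T.dim Q₁ = 3 → T.dim Q₂ = 3 → Q₁ ≠ Q₂ → T.cell F ⊆ T.cell Q₁ →
    T.cell F ⊆ T.cell Q₂ → ∀ p ∈ T.ocell F,
      ∀ᶠ y in 𝓝 p, y ∈ T.ocell Q₁ ∨ y ∈ T.ocell Q₂ ∨ y ∈ T.cell F) ∧
  ∀ {W : Set E3} {w : E3 → ZMod 2}, IsOpen W → LocC w ((W ∩ T.carrier) \ T.skel 2) →
    ∃ m : T.ι → E3 → ZMod 2, ∀ Q, T.dim Q = 3 → ∀ p ∈ T.cell Q ∩ W,
      (∀ᶠ y in 𝓝[T.ocell Q] p, w y = m Q p) ∧ ∀ᶠ p' in 𝓝[T.cell Q] p, m Q p' = m Q p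

/-- colourings from circles over a disc -/
def COLR : Prop := ∀ {E : Type} [NormedAddCommGroup E] [NormedSpace ℝ E] {G D B : Set E}
  {π : E3 → E} {ψ : E3 → ℝ} {σ : E × ℝ → E3} {c : ℝ} {η : E → ℝ} (T : RCx E3)
  {I : E3 → Set E3} {zp zm : E3 → E3} (N : Nrm T ψ c I zp zm (slab T.carrier π ψ c η))
  (J : Finset N.X.ι), Box G T.carrier π ψ σ → Thin G c η → T.Cvx → Lev T ψ c I zp zm →
  ConBall 2 D B → D ⊆ G → Circ N.X J → (∀ a ∈ J, ∀ x ∈ T.cell (N.host a), π x ∈ D \ B) →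
  ∃ col, Col N.X J col ∧ ∀ d, N.X.dim d = 2 → col d ≠ 0 → ∀ x ∈ N.X.bd d, π x ∈ D \ B

/-- local connectivity of the essential part -/
def LC : Prop := ∀ {E : Type} [NormedAddCommGroup E] [NormedSpace ℝ E] {G D₁ B₁ D₂ B₂ : Set E}
  {π : E3 → E} {ψ : E3 → ℝ} {σ : E × ℝ → E3} {c : ℝ} {η : E → ℝ} (T : RCx E3)
  {I : E3 → Set E3} {zp zm : E3 → E3} (N : Nrm T ψ c I zp zm (slab T.carrier π ψ c η))
  (𝓔 : Set N.X.ι) (d₀ d₁ : N.X.ι), Box G T.carrier π ψ σ → Thin G c η → T.Cvx →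
  Lev T ψ c I zp zm → ConBall 2 D₁ B₁ → D₁ ⊆ G → ConBall 2 D₂ B₂ → D₂ ⊆ G →
  (∀ i, (∃ x ∈ T.cell i, π x ∈ D₁) → ∀ x ∈ T.cell i, π x ∈ D₂ \ B₂) → Sat N.X 𝓔 →
  (∀ d ∈ 𝓔, ∃ d', Relation.ReflTransGen (Adj N.X) d d' ∧ ∃ x ∈ N.X.bd d', π x ∉ D₂ \ B₂) →
  d₀ ∈ 𝓔 → d₁ ∈ 𝓔 → (∃ x ∈ N.X.bd d₀, π x ∈ D₁ \ B₁) → (∃ x ∈ N.X.bd d₁, π x ∈ D₁ \ B₁) →
  ∃ K ⊆ (⋃ d ∈ 𝓔, N.X.cell d), IsPreconnected K ∧ N.X.cell d₀ ⊆ K ∧ N.X.cell d₁ ⊆ K ∧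
    ∀ x ∈ K, π x ∈ D₂

/-- the normal surface separates the two ends of the small arcs -/
def ZARC : Prop := ∀ (T : RCx E3) {ψ : E3 → ℝ} {c : ℝ} {I : E3 → Set E3} {zp zm : E3 → E3}
  {W : Set E3} (N : Nrm T ψ c I zp zm W) {ζ : E3 → ZMod 2}, T.Cvx → IsOpen T.carrier →
  Lev T ψ c I zp zm → LocC ζ (T.carrier \ N.X.carrier) →
  (∀ x ∈ N.X.carrier, Jumps ζ N.X.carrier x) →
  ∀ z ∈ T.skel 1, ψ z = c → ζ (zp z) ≠ ζ (zm z)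

/-- the normal surface separates top from bottom -/
def ZETA : Prop := ∀ {E : Type} [NormedAddCommGroup E] [NormedSpace ℝ E] {G : Set E}
  {π : E3 → E} {ψ : E3 → ℝ} {σ : E × ℝ → E3} {c : ℝ} {η : E → ℝ} (T : RCx E3)
  {I : E3 → Set E3} {zp zm : E3 → E3} {W : Set E3} (N : Nrm T ψ c I zp zm W)
  {ζ : E3 → ZMod 2}, Box G T.carrier π ψ σ → Thin G c η → T.Cvx → Lev T ψ c I zp zm →
  (∀ i, (∃ z ∈ T.cell i, ψ z = c) → T.cell i ⊆ slab T.carrier π ψ c η) →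
  LocC ζ (T.carrier \ N.X.carrier) → (∀ x ∈ N.X.carrier, Jumps ζ N.X.carrier x) →
  (∀ x ∈ T.carrier, c + η (π x) ≤ ψ x → ζ x = 0) →
  ∀ x ∈ T.carrier, ψ x ≤ c - η (π x) → ζ x = 1

/-- small sets with their small neighbours lie inside small discs -/
def LAM : Prop := ∀ {E : Type} [NormedAddCommGroup E] [NormedSpace ℝ E] {G : Set E} {r : E → ℝ},
  PLMan 2 G → Gauge r G → ∃ r', Gauge r' G ∧ (∀ u ∈ G, r' u ≤ r u) ∧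
    (∀ u ∈ G, ∀ v ∈ G, dist u v < r' u → Small r {u, v}) ∧
    ∀ A ⊆ G, A.Nonempty → Small r' A → ∃ D B, ConBall 2 D B ∧ D ⊆ G ∧ Small r D ∧ A ⊆ D \ B ∧
      ∀ A' ⊆ G, Small r' A' → (A' ∩ A).Nonempty → A' ⊆ D \ B

/-- the essential normal surface over a nonempty base -/
def SURFN : Prop := ∀ {E : Type} [NormedAddCommGroup E] [NormedSpace ℝ E] [FiniteDimensional ℝ E]
  {G : Set E}, PLMan 2 G → G.Nonempty →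
  ∃ Θ : (E → ℝ) → (E → ℝ), (∀ r, Gauge r G → Gauge (Θ r) G) ∧
  ∀ {V : Set E3} {π : E3 → E} {ψ : E3 → ℝ} {σ : E × ℝ → E3} {ι : Type} (a b : ι → E3)
    {𝓛 : Set ℝ} (𝓡 : Finset (E → ℝ)) {γ : E → ℝ},
  IsOpen V → HomeoOn (fun x => (π x, ψ x)) σ V (G ×ˢ Ioo (-1) 1) → GenBV ψ V →
  LFIn (fun i => segment ℝ (a i) (b i)) V →
  (∀ i, ∀ x ∈ segment ℝ (a i) (b i), ∀ y ∈ segment ℝ (a i) (b i), segment ℝ x y ⊆ V →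
    segVar ψ x y < ⊤) →
  volume (𝓛 ∩ Ioo (-1 / 2) (1 / 2)) ≠ 0 → (∀ r ∈ 𝓡, Gauge r G) → Gauge γ G →
  ∃ c ∈ 𝓛 ∩ Ioo (-1 / 2) (1 / 2), ∃ S P M : Set E3, S ⊆ V ∧ ClosedIn S V ∧ PLMan 2 S ∧
    IsOpen P ∧ IsOpen M ∧ Disjoint P M ∧ P ∪ M = V \ S ∧ S ⊆ closure P ∧ S ⊆ closure M ∧
    (∀ x ∈ V, (c + γ (π x) ≤ ψ x → x ∈ P) ∧ (ψ x ≤ c - γ (π x) → x ∈ M)) ∧
    (∀ r ∈ 𝓡, Approx G S π (Θ r) r) ∧
    ∀ i, ∀ x ∈ S, x ∈ segment ℝ (a i) (b i) → ψ x = c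

end P073.SF
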