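import Vale.Agent.P073Z.SURF.Core
import Vale.Agent.P073Z.MAN.Ex

/-!
# The essential normal surface: transport along the tent map
-/

open Set Metric Topology Filter MeasureTheory
open scoped ENNReal NNReal

namespace P073.SF

variable {E : Type} [NormedAddCommGroup E] [NormedSpace ℝ E]

namespace Aux

theorem plman_conicalSet {F : Type} [NormedAddCommGroup F] [NormedSpace ℝ F] {n : ℕ} {X : Set F}
    (h : PLMan n X) : ConicalSet X := by
  intro x hx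
  obtain ⟨C, B, h1, h2, h3, h4⟩ := h x hx
  obtain ⟨r, hr, H⟩ := h1.conicalSet x h2.1
  obtain ⟨ρ, hρ, H'⟩ := exists_radius_of_nhdsWithin (p := fun y => y ∈ C) h4
  exact ⟨min r ρ, lt_min hr hρ, fun v hv hxv t ht =>
    h3 (H v (hv.trans (min_le_left _ _)) (H' v (hv.trans (min_le_right _ _)) hxv) t ht)⟩

theorem image_open {V P : Set E3} (Φ : ConHomeo V V) (hV : IsOpen V) (hP : IsOpen P)
    (hPV : P ⊆ V) : IsOpen (Φ.toFun '' P) := by
  have h : Φ.toFun '' P = V ∩ Φ.invFun ⁻¹' P := by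
    ext y
    constructor
    · rintro ⟨x, hx, rfl⟩
      refine ⟨Φ.mapsTo (hPV hx), ?_⟩
      rw [mem_preimage, Φ.left_inv (hPV hx)]
      exact hx
    · rintro ⟨hy, hy'⟩
      exact ⟨_, hy', Φ.right_inv hy⟩
  rw [h]
  exact Φ.cont_inv.isOpen_inter_preimage hV hP

theorem image_closure {V S P : Set E3} (Φ : ConHomeo V V) (hSV : S ⊆ V) (hPV : P ⊆ V)
    (h : S ⊆ closure P) : Φ.toFun '' S ⊆ closure (Φ.toFun '' P) := by
  rintro _ ⟨x, hx, rfl⟩
  exact ((Φ.cont x (hSV hx)).mono hPV).mem_closure_image (h hx)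

theorem image_closedIn {V S : Set E3} (Φ : ConHomeo V V) (hSV : S ⊆ V) (h : ClosedIn S V) :
    ClosedIn (Φ.toFun '' S) V := by
  intro y hy hy'
  have h1 : Φ.toFun '' S ⊆ V := by
    rintro _ ⟨x, hx, rfl⟩
    exact Φ.mapsTo (hSV hx)
  have h2 := ((Φ.cont_inv y hy).mono h1).mem_closure_image hy'
  have h3 : Φ.invFun '' (Φ.toFun '' S) ⊆ S := by
    rintro _ ⟨_, ⟨x, hx, rfl⟩, rfl⟩
    rw [Φ.left_inv (hSV hx)]
    exact hx
  exact ⟨_, h _ (Φ.mapsTo_inv hy) (closure_mono h3 h2), Φ.right_inv hy⟩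

theorem approx_image {G : Set E} {V S : Set E3} {π : E3 → E} {θ r : E → ℝ} (Φ : ConHomeo V V)
    (hSV : S ⊆ V) (h : Approx G S (π ∘ Φ.toFun) θ r) : Approx G (Φ.toFun '' S) π θ r := by
  obtain ⟨h1, h2, h3⟩ := h
  refine ⟨fun u hu => ?_, ?_, fun K hK hK1 hK2 => ?_⟩
  · obtain ⟨x, hx, hxu⟩ := h1 u hu
    exact ⟨_, mem_image_of_mem _ hx, hxu⟩
  · rintro _ ⟨x, hx, rfl⟩ _ ⟨y, hy, rfl⟩ hxy
    obtain ⟨K, k1, k2, k3, k4, k5⟩ := h2 x hx y hy hxy
    refine ⟨Φ.toFun '' K, image_mono k1, k2.image _ (Φ.cont.mono (k1.trans hSV)),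
      mem_image_of_mem _ k3, mem_image_of_mem _ k4, ?_⟩
    rwa [← image_comp]
  · have hKV : K ⊆ V := by
      intro y hy
      obtain ⟨x, hx, rfl⟩ := hK hy
      exact Φ.mapsTo (hSV hx)
    have e : Φ.toFun '' (Φ.invFun '' K) = K := by
      ext y
      constructor
      · rintro ⟨_, ⟨z, hz, rfl⟩, rfl⟩
        rw [Φ.right_inv (hKV hz)]
        exact hz
      · exact fun hy => ⟨_, mem_image_of_mem _ hy, Φ.right_inv (hKV hy)⟩
    obtain ⟨D, B, d1, d2, d3, d4⟩ := h3 (Φ.invFun '' K) (by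
      rintro _ ⟨y, hy, rfl⟩
      obtain ⟨x, hx, rfl⟩ := hK hy
      rw [Φ.left_inv (hSV hx)]
      exact hx) (hK1.image _ (Φ.cont_inv.mono hKV)) (by rwa [image_comp, e])
    refine ⟨_, _, d1.image Φ (d2.trans hSV), image_mono d2, fun y hy => ?_, by rwa [← image_comp]⟩
    have h4 := d3 (mem_image_of_mem _ hy)
    refine ⟨⟨_, h4.1, Φ.right_inv (hKV hy)⟩, ?_⟩
    rintro ⟨x, hx, rfl⟩
    rw [Φ.left_inv (hSV (d2 (d1.1 hx)))] at h4
    exact h4.2 hx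

end Aux

open Aux

theorem surfn_of (hBOX : BOX) (hSIDE : SIDE) (hPAR : PAR) (hTENT : TENT) (hLEVEL : LEVEL)
    (hNORM : NORM) (hNMAN : NMAN) (hCOMP : COMP) (hBIG : BIG) (hCOLR : COLR) (hLC : LC)
    (hZETA : ZETA) (hLAM : LAM) : SURFN := by
  intro E _ _ _ G hG hne
  have h0 : ∀ r : E → ℝ, ∃ r', Gauge r G → Lam G r r' := by
    intro r
    by_cases h : Gauge r G
    · obtain ⟨r', h1, h2, h3, h4⟩ := hLAM hG h
      exact ⟨r', fun _ => ⟨h1, h2, h3, h4⟩⟩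
    · exact ⟨r, fun h' => (h h').elim⟩
  choose L hL using h0
  have hgs := hL _ (gauge_const (X := G) one_pos)
  set gs := L (fun _ => 1)
  have l₁ := fun r (h : Gauge r G) => hL _ (h.min hgs.gauge)
  have l₀ := fun r (h : Gauge r G) => hL _ (l₁ r h).gauge
  have lm := fun r (h : Gauge r G) => hL _ (l₀ r h).gauge
  have lθ := fun r (h : Gauge r G) => hL _ (lm r h).gauge
  refine ⟨fun r => L (L (L (L fun u => min (r u) (gs u)))), fun r h => (lθ r h).gauge, ?_⟩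
  intro V π ψ σ ι a b 𝓛 𝓡 γ hV hh hbv hlf hw h𝓛 h𝓡 hγ
  obtain ⟨ρ₁, hρ₁, hρ₁'⟩ := exists_gauge_le_finset (X := G) 𝓡
    (g := fun r => L (L (L fun u => min (r u) (gs u)))) fun r hr => (lm r (h𝓡 r hr)).gauge
  have hρ₂ := hρ₁.min hgs.gauge
  have hη₀ : Gauge (fun u => min (γ u) (1 / 4)) G := hγ.min (gauge_const (by norm_num))
  have hπ : ContinuousOn π V := continuous_fst.comp_continuousOn hh.cont
  have hπm : MapsTo π V G := fun x hx => (hh.mapsTo hx).1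
  obtain ⟨ρa, ga, -, ha⟩ := hρ₂.exists_image hπ hπm
  obtain ⟨ρb, gb, hb, -⟩ := (hη₀.comp (f := Prod.fst) (A := G ×ˢ Ioo (-1:ℝ) 1)
    continuousOn_fst fun q hq => hq.1).exists_image hh.cont hh.mapsTo
  obtain ⟨T, Φ, t1, rfl, t3, t4, t5⟩ := hTENT a b hV hbv hlf hw (ga.min gb)
  have hB : Box G T.carrier (π ∘ Φ.toFun) (ψ ∘ Φ.toFun) (Φ.invFun ∘ σ) := by
    refine ⟨hG, hV, fun x hx => hh.mapsTo (Φ.mapsTo hx),
      fun q hq => Φ.mapsTo_inv (hh.mapsTo_inv hq), fun x hx => ?_, fun q hq => ?_,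
      hh.cont.comp Φ.cont Φ.mapsTo, Φ.cont_inv.comp hh.cont_inv hh.mapsTo_inv⟩
    · have := hh.left_inv (Φ.mapsTo hx)
      simp only [Function.comp_apply] at this ⊢
      rw [this, Φ.left_inv hx]
    · have := hh.right_inv hq
      simp only [Function.comp_apply] at this ⊢
      rw [Φ.right_inv (hh.mapsTo_inv hq), this]
  obtain ⟨c, hc, I, zp, zm, hLev⟩ := hLEVEL T (ψ := ψ ∘ Φ.toFun) t1
    (continuous_snd.comp_continuousOn hB.hom.cont) t5 h𝓛
  have hη : Thin G c fun u => min (γ u) (1 / 4) := by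
    refine ⟨hη₀, fun u _ => ?_⟩
    have h1 : |c| < 1 / 2 := abs_lt.2 ⟨by linarith [hc.2.1], hc.2.2⟩
    linarith [min_le_right (γ u) (1 / 4)]
  have hcV : ∀ i, Φ.toFun '' T.cell i ⊆ T.carrier := by
    rintro i _ ⟨x, hx, rfl⟩
    exact Φ.mapsTo (T.cell_subset_carrier i hx)
  obtain ⟨S, P, M, s1, s2, s3, s4, s5, s6, s7, s8, s9, s10, s11, s12⟩ :=
    core hBOX hSIDE hPAR hNORM hNMAN hCOMP hBIG hCOLR hLC hZETA hB hη t1 hLev hne
      (ρ := fun u => min (ρ₁ u) (gs u)) hgs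
      (fun i => by
        rw [image_comp]
        exact ha _ (hcV i) ((t3 i).of_le fun x _ => min_le_left _ _))
      (fun u _ => min_le_right _ _)
      (by
        rintro i ⟨z, hz, hzc⟩ x hx
        refine ⟨T.cell_subset_carrier i hx, ?_⟩
        have h1 := hb _ (hcV i (mem_image_of_mem _ hx)) _ (hcV i (mem_image_of_mem _ hz))
          ((t3 i _ (mem_image_of_mem _ hx) _ (mem_image_of_mem _ hz)).trans_le (min_le_right _ _))
        rw [← hzc]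
        exact (le_max_right _ _).trans_lt h1)
  have hPV : P ⊆ T.carrier := fun x hx => (s7.subset (Or.inl hx)).1
  have hMV : M ⊆ T.carrier := fun x hx => (s7.subset (Or.inr hx)).1
  refine ⟨c, hc, Φ.toFun '' S, Φ.toFun '' P, Φ.toFun '' M, ?_, image_closedIn Φ s1 s2,
    manex.2.2.2.2.1 s3 (Φ.restr (plman_conicalSet s3) s1), image_open Φ hV s4 hPV,
    image_open Φ hV s5 hMV, s6.image Φ.injOn hPV hMV, ?_,
    image_closure Φ s1 hPV s8, image_closure Φ s1 hMV s9, fun x hx => ⟨fun h => ?_, fun h => ?_⟩,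
    fun r hr => approx_image Φ s1 (s11 r _ _ _ _ (l₁ r (h𝓡 r hr)) (l₀ r (h𝓡 r hr))
      (lm r (h𝓡 r hr)) (lθ r (h𝓡 r hr)) fun u _ => (min_le_left _ _).trans (hρ₁' r hr u)), ?_⟩
  · rintro _ ⟨x, hx, rfl⟩
    exact Φ.mapsTo (s1 hx)
  · rw [← image_union, s7, Φ.injOn.image_sdiff_subset s1, Φ.image_eq]
  · refine ⟨_, (s10 _ (Φ.mapsTo_inv hx)).1 ?_, Φ.right_inv hx⟩
    simp only [Function.comp_apply, Φ.right_inv hx]
    linarith [min_le_left (γ (π x)) (1 / 4)]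
  · refine ⟨_, (s10 _ (Φ.mapsTo_inv hx)).2 ?_, Φ.right_inv hx⟩
    simp only [Function.comp_apply, Φ.right_inv hx]
    linarith [min_le_left (γ (π x)) (1 / 4)]
  · rintro i _ ⟨x, hx, rfl⟩ hi
    obtain ⟨h1, h2⟩ := t4 i _ (Φ.mapsTo (s1 hx)) hi
    have h3 : Φ.toFun x = x := Φ.injOn (Φ.mapsTo (s1 hx)) (s1 hx) h1
    exact s12 x hx (h3 ▸ h2)

end P073.SF
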