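import Vale.Agent.P073Z.SURF.Disc
import Vale.Agent.P073Z.SURF.Sk
import Vale.Agent.P073Z.MAN

/-!
# Components of a surface complex; small connected sets lie in discs
-/

open Set Metric Topology Filter

namespace P073.SF

open RCx

variable {E : Type} [NormedAddCommGroup E] [NormedSpace ℝ E] [FiniteDimensional ℝ E]
  {X : RCx E} {𝓔 : Set X.ι}

theorem exists_two59 (hX : PLMan 2 X.carrier) {x : E} (hx : x ∈ X.carrier) :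
    ∃ d, X.dim d = 2 ∧ x ∈ X.cell d := by
  obtain ⟨i, hi⟩ := X.mem_carrier.1 hx
  obtain ⟨j, h1, -, h2⟩ := (man X (n := 1) X.sub_carrier hX).2.1 i (X.cell_subset_carrier i)
  exact ⟨j, h2, h1 hi⟩

theorem Sat.mem59 (hX : PLMan 2 X.carrier) (h : Sat X 𝓔) {d d' : X.ι} (hd : d ∈ 𝓔)
    (hd' : X.dim d' = 2) {x : E} (hx : x ∈ X.cell d) (hx' : x ∈ X.cell d') : d' ∈ 𝓔 :=
  (man X (n := 1) X.sub_carrier hX).2.2.2.2 x (X.cell_subset_carrier d hx) (· ∈ 𝓔)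
    (fun a j j' _ o2 o3 o4 _ _ o5 o6 o7 => h.2 j o7 j' ⟨o5, o6, a, o2, o3, o4⟩) d d' hx hx'
    (X.cell_subset_carrier _) (X.cell_subset_carrier _) (h.1 d hd) hd' hd

theorem comp59 : COMP := by
  intro E _ _ _ X 𝓔 hX h
  refine ⟨hX.of_nhds (un_subset 𝓔) fun x hx => ?_, fun d hd ⟨x, h1, h2⟩ => ?_, ?_⟩
  · obtain ⟨d, hd, hxd⟩ := mem_un.1 hx
    filter_upwards [mem_nhdsWithin_of_mem_nhds (X.eventually_star (X.cell_subset_carrier d hxd)),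
      self_mem_nhdsWithin] with y h1 h2
    obtain ⟨j, h3, h4⟩ := exists_two59 hX h2
    exact mem_un.2 ⟨j, h.mem59 hX hd h3 hxd (h1 j h4), h4⟩
  · obtain ⟨d', hd', hxd⟩ := mem_un.1 h2
    exact h.mem59 hX hd' hd hxd h1
  · refine Subset.antisymm (fun x hx => ?_)
      (iUnion₂_subset fun d _ => X.cell_subset_carrier d)
    obtain ⟨j, h3, h4⟩ := exists_two59 hX hx
    exact mem_iUnion₂.2 ⟨j, h3, h4⟩

/-- colourings give fillings -/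
theorem fill_of (hX : PLMan 2 X.carrier) (h : Sat X 𝓔) {R R' : Set E} {𝓖 : Set X.ι}
    (hG : ∀ d ∈ 𝓖, d ∈ 𝓔 ∧ X.bd d ⊆ R) (hf : {d | X.dim d = 2 ∧ X.bd d ⊆ R'}.Finite)
    (hc : ∀ J, Circ X J → (⋃ a ∈ J, X.cell a) ⊆ R → ∃ col, Col X J col ∧
      ∀ d, X.dim d = 2 → col d ≠ 0 → X.bd d ⊆ R') :
    X.Fill (X.un 𝓖) {d | d ∈ 𝓔 ∧ X.bd d ⊆ R'} := by
  intro C hC hcirc hsub
  have h0 : ∀ a, X.dim a = 1 → X.cell a ⊆ C → ∃ d ∈ 𝓖, X.cell a ⊆ X.cell d := by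
    intro a ha h1
    obtain ⟨x, hx⟩ := X.ocell_nonempty a
    obtain ⟨d, hd, hxd⟩ := mem_un.1 (hsub (h1 hx.1))
    exact ⟨d, hd, X.cell_subset_of_mem hx hxd⟩
  have h1 : {a | X.cell a ⊆ C ∧ X.dim a = 1}.Finite :=
    (X.finite_subset hcirc.isCompact hC.subset_carrier).subset fun a ha => ha.1
  have h2 : (⋃ a ∈ h1.toFinset, X.cell a) = C := by
    refine Subset.antisymm (iUnion₂_subset fun a ha => (h1.mem_toFinset.1 ha).1) fun x hx => ?_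
    obtain ⟨a, k1, k2, k3⟩ := hC.exists_edge man hcirc hx
    exact mem_iUnion₂.2 ⟨a, h1.mem_toFinset.2 ⟨k2, k1⟩, k3⟩
  obtain ⟨col, k1, k2⟩ := hc h1.toFinset ⟨fun a ha => (h1.mem_toFinset.1 ha).2, h2.symm ▸ hcirc⟩
    (iUnion₂_subset fun a ha => by
      obtain ⟨o1, o2⟩ := h1.mem_toFinset.1 ha
      obtain ⟨d, hd, o3⟩ := h0 a o2 o1
      exact (X.subset_bd_of_dim_lt o3 (by rw [o2, h.1 d (hG d hd).1]; norm_num)).trans (hG d hd).2)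
  refine ⟨{d | d ∈ 𝓔 ∧ col d ≠ 0}, fun d hd => ⟨hd.1, k2 d (h.1 d hd.1) hd.2⟩,
    hf.subset fun d hd => ⟨h.1 d hd.1, k2 d (h.1 d hd.1) hd.2⟩, fun a j₁ j₂ k => ?_⟩
  have e : j₁ ∈ 𝓔 ↔ j₂ ∈ 𝓔 := ⟨fun o => h.2 _ o _ ⟨k.d₁, k.d₂, a, k.d, k.s₁, k.s₂⟩,
    fun o => h.2 _ o _ ⟨k.d₂, k.d₁, a, k.d, k.s₂, k.s₁⟩⟩
  by_cases o : j₁ ∈ 𝓔
  · have o1 := k1 a j₁ j₂ k.d k.d₁ k.d₂ k.ne k.s₁ k.s₂
    rw [h1.mem_toFinset] at o1
    have o2 : X.cell a ⊆ C ↔ col j₁ ≠ col j₂ := ⟨fun o2 => o1.1 ⟨o2, k.d⟩, fun o2 => (o1.2 o2).1⟩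
    rw [o2]
    change _ ↔ Xor (j₁ ∈ 𝓔 ∧ col j₁ ≠ 0) (j₂ ∈ 𝓔 ∧ col j₂ ≠ 0)
    rw [and_iff_right o, and_iff_right (e.1 o)]
    generalize col j₁ = u
    generalize col j₂ = v
    revert u v
    simp only [Xor]
    decide
  · refine iff_of_false (fun o1 => ?_) fun o1 => o1.elim (fun o2 => o o2.1.1)
      fun o2 => o (e.2 o2.1.1)
    obtain ⟨d, hd, o3⟩ := h0 a k.d o1
    rcases k.two man hX o3 (h.1 d (hG d hd).1) with rfl | rfl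
    exacts [o (hG _ hd).1, o (e.2 (hG _ hd).1)]

theorem big : BIG := by
  intro E _ _ _ X 𝓔 R₀ R₁ R₂ K hX h h01 h12 hf hfar c0 c1 hne hK hsub hin
  have hf1 : {d | X.dim d = 2 ∧ X.bd d ⊆ R₁}.Finite := hf.subset fun d hd => ⟨hd.1, hd.2.trans h12⟩
  have hmem : ∀ d, X.dim d = 2 → (X.cell d ∩ K).Nonempty → d ∈ 𝓔 := fun d hd ⟨x, h1, h2⟩ =>
    (comp59 X 𝓔 hX h).2.1 d hd ⟨x, h1, hsub h2⟩
  obtain ⟨I, h1, C, h2, h3⟩ := RCx.big man hX (𝓕 := {d | d ∈ 𝓔 ∧ X.bd d ⊆ R₂})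
    (𝓖 := {d | d ∈ 𝓔 ∧ X.bd d ⊆ R₁}) (fun d hd => h.1 d hd.1) (fun I hI _ hb => by
      refine eq_empty_of_forall_notMem fun d hd => ?_
      obtain ⟨d', k1, k2⟩ := hfar d (hI hd).1
      refine k2 (hI ?_).2
      clear k2
      induction k1 with
      | refl => exact hd
      | @tail j j' _ o ih =>
        obtain ⟨o1, o2, a, o3, o4, o5⟩ := o
        by_contra o6
        have o7 := (hb a j j' ⟨o3, o1, o2, fun e => o6 (e ▸ ih), o4, o5⟩).2 (Or.inl ⟨ih, o6⟩)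
        exact (X.cell_nonempty a).ne_empty (subset_empty_iff.1 o7))
    (fun d hd => ⟨hd.1, hd.2.trans h12⟩) (hf1.subset fun d hd => ⟨h.1 d hd.1, hd.2⟩)
    (fill_of hX h (fun d hd => hd) hf c1) hK hne (hsub.trans (un_subset 𝓔))
    (fun d hd o => ⟨hmem d hd o, (hin d hd o).trans h01⟩)
    (fill_of hX h (fun d hd => ⟨hmem d hd.1 hd.2, hin d hd.1 hd.2⟩) hf1 c0)
  exact ⟨I, C, fun d hd => (h1 hd).1, fun d hd => (h1 hd).2, h2, h3⟩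

end P073.SF
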