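import Vale.Agent.P073Z.SURF.Sk
import Vale.Agent.P073Z.MAN.Ex
import Vale.Agent.P073Z.Gauge
import Vale.Agent.P073Z.RCX

/-!
# Boxes, slabs and small discs
-/

open Set Metric Topology Filter

namespace P073.SF

variable {E : Type} [NormedAddCommGroup E] [NormedSpace ℝ E] {G : Set E} {V : Set E3}
  {π : E3 → E} {ψ : E3 → ℝ} {σ : E × ℝ → E3} {c : ℝ} {η : E → ℝ}

namespace Box

theorem pi_mem (h : Box G V π ψ σ) {x : E3} (hx : x ∈ V) : π x ∈ G := (h.hom.mapsTo hx).1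

theorem psi_mem (h : Box G V π ψ σ) {x : E3} (hx : x ∈ V) : ψ x ∈ Ioo (-1:ℝ) 1 :=
  (h.hom.mapsTo hx).2

theorem sig_mem (h : Box G V π ψ σ) {u : E} {s : ℝ} (hu : u ∈ G) (hs : s ∈ Ioo (-1:ℝ) 1) :
    σ (u, s) ∈ V := h.hom.mapsTo_inv ⟨hu, hs⟩

theorem pi_sig (h : Box G V π ψ σ) {u : E} {s : ℝ} (hu : u ∈ G) (hs : s ∈ Ioo (-1:ℝ) 1) :
    π (σ (u, s)) = u := congrArg Prod.fst (h.hom.right_inv (show (u, s) ∈ _ from ⟨hu, hs⟩))

theorem psi_sig (h : Box G V π ψ σ) {u : E} {s : ℝ} (hu : u ∈ G) (hs : s ∈ Ioo (-1:ℝ) 1) :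
    ψ (σ (u, s)) = s := congrArg Prod.snd (h.hom.right_inv (show (u, s) ∈ _ from ⟨hu, hs⟩))

theorem sig_pp (h : Box G V π ψ σ) {x : E3} (hx : x ∈ V) : σ (π x, ψ x) = x := h.hom.left_inv hx

theorem cont_pi (h : Box G V π ψ σ) : ContinuousOn π V := h.hom.cont.fst

theorem cont_psi (h : Box G V π ψ σ) : ContinuousOn ψ V := h.hom.cont.snd

theorem cont_param (h : Box G V π ψ σ) {Z : Set E} {T : Set ℝ} {a b : E → ℝ} (hZ : Z ⊆ G)
    (ha : ContinuousOn a G) (hb : ContinuousOn b G)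
    (hm : ∀ u ∈ Z, ∀ t ∈ T, a u + t * b u ∈ Ioo (-1:ℝ) 1) :
    ContinuousOn (fun q : E × ℝ => σ (q.1, a q.1 + q.2 * b q.1)) (Z ×ˢ T) :=
  h.hom.cont_inv.comp (continuousOn_fst.prodMk
    ((ha.comp continuousOn_fst fun _ hq => hZ hq.1).add
      (continuousOn_snd.mul (hb.comp continuousOn_fst fun _ hq => hZ hq.1))))
    fun q hq => ⟨hZ hq.1, hm q.1 hq.1 q.2 hq.2⟩

theorem image_param (h : Box G V π ψ σ) {Z : Set E} {T : Set ℝ} {a b : E → ℝ} (hZ : Z ⊆ G)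
    (hb : ∀ u ∈ Z, 0 < b u) (hm : ∀ u ∈ Z, ∀ t ∈ T, a u + t * b u ∈ Ioo (-1:ℝ) 1) :
    (fun q : E × ℝ => σ (q.1, a q.1 + q.2 * b q.1)) '' (Z ×ˢ T) =
      {x ∈ V | π x ∈ Z ∧ (ψ x - a (π x)) / b (π x) ∈ T} := by
  apply Subset.antisymm
  · rintro _ ⟨⟨u, t⟩, ⟨hu, ht⟩, rfl⟩
    have h1 := hm u hu t ht
    refine ⟨h.sig_mem (hZ hu) h1, ?_⟩
    simp only [h.pi_sig (hZ hu) h1, h.psi_sig (hZ hu) h1, add_sub_cancel_left,
      mul_div_cancel_right₀ _ (hb u hu).ne']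
    exact ⟨hu, ht⟩
  · rintro x ⟨hx, hu, ht⟩
    refine ⟨(π x, (ψ x - a (π x)) / b (π x)), ⟨hu, ht⟩, ?_⟩
    simp only [div_mul_cancel₀ _ (hb _ hu).ne', add_sub_cancel]
    exact h.sig_pp hx

theorem nhds_pre (h : Box G V π ψ σ) {x : E3} (hx : x ∈ V) {N : Set E} (hN : N ∈ 𝓝[G] (π x)) :
    ∀ᶠ y in 𝓝 x, y ∈ V ∧ π y ∈ N := by
  have h1 := (h.cont_pi x hx).tendsto_nhdsWithin (t := G) fun y hy => h.pi_mem hy
  rw [nhdsWithin_eq_nhds.2 (h.op.mem_nhds hx)] at h1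
  exact (Eventually.mono (h.op.mem_nhds hx) fun y hy => hy).and (h1 hN)

theorem isOpen_over (h : Box G V π ψ σ) {D B : Set E} (hD : ConBall 2 D B) (hDG : D ⊆ G) :
    IsOpen {x ∈ V | π x ∈ D \ B} := by
  refine isOpen_iff_mem_nhds.2 fun x hx => h.nhds_pre hx.1 ?_
  exact inter_mem ((h.man.ball_nhds_iff hD hDG hx.2.1).2 hx.2.2)
    (mem_nhdsWithin_of_mem_nhds (hD.isCompact_bdry.isClosed.isOpen_compl.mem_nhds hx.2.2))

theorem isOpen_slab (h : Box G V π ψ σ) (ht : Thin G c η) : IsOpen (slab V π ψ c η) := by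
  have h1 : ContinuousOn (fun x => η (π x) - |ψ x - c|) V :=
    (ht.1.1.comp h.cont_pi fun x hx => h.pi_mem hx).sub (h.cont_psi.sub continuousOn_const).abs
  have h2 := h1.isOpen_inter_preimage h.op (isOpen_Ioi (a := (0:ℝ)))
  have h3 : slab V π ψ c η = V ∩ (fun x => η (π x) - |ψ x - c|) ⁻¹' Ioi 0 := by
    ext x
    simp [slab]
  rwa [h3]

omit [NormedSpace ℝ E] in
theorem slab_mem (ht : Thin G c η) {u : E} (hu : u ∈ G) {t : ℝ} (h : |t| ≤ 1) :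
    c + t * η u ∈ Ioo (-1:ℝ) 1 := by
  have h1 := ht.2 u hu
  have h2 := ht.1.2 u hu
  have h3 : |c + t * η u| < 1 := by
    refine (abs_add_le _ _).trans_lt (lt_of_le_of_lt ?_ h1)
    rw [abs_mul, abs_of_pos h2]
    nlinarith
  exact abs_lt.1 h3

/-- the part of the slab over a connected set is connected -/
theorem pre_slab (h : Box G V π ψ σ) (ht : Thin G c η) {Z : Set E} (hZ : IsPreconnected Z)
    (hZG : Z ⊆ G) : IsPreconnected {x ∈ slab V π ψ c η | π x ∈ Z} := by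
  have hm : ∀ u ∈ Z, ∀ t ∈ Ioo (-1:ℝ) 1, c + t * η u ∈ Ioo (-1:ℝ) 1 := fun u hu t h =>
    slab_mem ht (hZG hu) (abs_lt.2 h).le
  have h1 := (hZ.prod isPreconnected_Ioo).image _
    (h.cont_param (a := fun _ => c) hZG continuousOn_const ht.1.1 hm)
  rw [h.image_param (a := fun _ => c) hZG (fun u hu => ht.1.2 u (hZG hu)) hm] at h1
  have h2 : {x ∈ slab V π ψ c η | π x ∈ Z} =
      {x ∈ V | π x ∈ Z ∧ (ψ x - c) / η (π x) ∈ Ioo (-1:ℝ) 1} := by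
    ext x
    have h3 : π x ∈ Z → ((ψ x - c) / η (π x) ∈ Ioo (-1:ℝ) 1 ↔ |ψ x - c| < η (π x)) := fun hx => by
      have h4 := ht.1.2 _ (hZG hx)
      rw [mem_Ioo, ← abs_lt, abs_div, abs_of_pos h4, div_lt_one h4]
    exact ⟨fun hx => ⟨hx.1.1, hx.2, (h3 hx.2).2 hx.1.2⟩,
      fun hx => ⟨⟨hx.1, (h3 hx.2.1).1 hx.2.2⟩, hx.2.1⟩⟩
  rwa [h2]

/-- the part above the slab over a connected set is connected -/
theorem pre_top (h : Box G V π ψ σ) (ht : Thin G c η) {Z : Set E} (hZ : IsPreconnected Z)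
    (hZG : Z ⊆ G) : IsPreconnected {x ∈ V | π x ∈ Z ∧ c + η (π x) ≤ ψ x} := by
  have hb : ∀ u ∈ Z, 0 < 1 - (c + η u) := fun u hu => by
    linarith [ht.2 u (hZG hu), le_abs_self c]
  have hm : ∀ u ∈ Z, ∀ t ∈ Ico (0:ℝ) 1, c + η u + t * (1 - (c + η u)) ∈ Ioo (-1:ℝ) 1 := by
    intro u hu t h
    have h1 := hb u hu
    have h2 := ht.2 u (hZG hu)
    have h3 := ht.1.2 u (hZG hu)
    exact ⟨by nlinarith [h.1, neg_abs_le c], by nlinarith [h.2]⟩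
  have hc : ContinuousOn (fun u => c + η u) G := continuousOn_const.add ht.1.1
  have h1 := (hZ.prod isPreconnected_Ico).image _
    (h.cont_param (a := fun u => c + η u) (b := fun u => 1 - (c + η u)) hZG hc
      (continuousOn_const.sub hc) hm)
  rw [h.image_param (a := fun u => c + η u) hZG hb hm] at h1
  have h2 : {x ∈ V | π x ∈ Z ∧ c + η (π x) ≤ ψ x} = {x ∈ V | π x ∈ Z ∧
      (ψ x - (c + η (π x))) / (1 - (c + η (π x))) ∈ Ico (0:ℝ) 1} := by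
    ext x
    refine and_congr_right fun hx => and_congr_right fun hu => ?_
    rw [mem_Ico, le_div_iff₀ (hb _ hu), div_lt_one (hb _ hu)]
    exact ⟨fun h' => ⟨by linarith, by linarith [(h.psi_mem hx).2]⟩, fun h' => by linarith [h'.1]⟩
  rwa [h2]

/-- the part below the slab over a connected set is connected -/
theorem pre_bot (h : Box G V π ψ σ) (ht : Thin G c η) {Z : Set E} (hZ : IsPreconnected Z)
    (hZG : Z ⊆ G) : IsPreconnected {x ∈ V | π x ∈ Z ∧ ψ x ≤ c - η (π x)} := by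
  have hb : ∀ u ∈ Z, 0 < 1 + (c - η u) := fun u hu => by
    linarith [ht.2 u (hZG hu), neg_abs_le c]
  have hm : ∀ u ∈ Z, ∀ t ∈ Ioc (-1:ℝ) 0, c - η u + t * (1 + (c - η u)) ∈ Ioo (-1:ℝ) 1 := by
    intro u hu t h
    have h1 := hb u hu
    have h2 := ht.2 u (hZG hu)
    have h3 := ht.1.2 u (hZG hu)
    exact ⟨by nlinarith [h.1], by nlinarith [h.2, le_abs_self c]⟩
  have hc : ContinuousOn (fun u => c - η u) G := continuousOn_const.sub ht.1.1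
  have h1 := (hZ.prod isPreconnected_Ioc).image _
    (h.cont_param (a := fun u => c - η u) (b := fun u => 1 + (c - η u)) hZG hc
      (continuousOn_const.add hc) hm)
  rw [h.image_param (a := fun u => c - η u) hZG hb hm] at h1
  have h2 : {x ∈ V | π x ∈ Z ∧ ψ x ≤ c - η (π x)} = {x ∈ V | π x ∈ Z ∧
      (ψ x - (c - η (π x))) / (1 + (c - η (π x))) ∈ Ioc (-1:ℝ) 0} := by
    ext x
    refine and_congr_right fun hx => and_congr_right fun hu => ?_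
    rw [mem_Ioc, lt_div_iff₀ (hb _ hu), div_le_iff₀ (hb _ hu)]
    exact ⟨fun h' => ⟨by linarith [(h.psi_mem hx).1], by linarith⟩, fun h' => by linarith [h'.2]⟩
  rwa [h2]

theorem compact_slab (h : Box G V π ψ σ) (ht : Thin G c η) {Z : Set E} (hZ : IsCompact Z)
    (hZG : Z ⊆ G) : IsCompact {x ∈ V | π x ∈ Z ∧ |ψ x - c| ≤ η (π x)} := by
  have hm : ∀ u ∈ Z, ∀ t ∈ Icc (-1:ℝ) 1, c + t * η u ∈ Ioo (-1:ℝ) 1 := fun u hu t h =>
    slab_mem ht (hZG hu) (abs_le.2 h)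
  have h1 := (hZ.prod isCompact_Icc).image_of_continuousOn
    (h.cont_param (a := fun _ => c) hZG continuousOn_const ht.1.1 hm)
  rw [h.image_param (a := fun _ => c) hZG (fun u hu => ht.1.2 u (hZG hu)) hm] at h1
  have h2 : {x ∈ V | π x ∈ Z ∧ |ψ x - c| ≤ η (π x)} =
      {x ∈ V | π x ∈ Z ∧ (ψ x - c) / η (π x) ∈ Icc (-1:ℝ) 1} := by
    ext x
    refine and_congr_right fun _ => and_congr_right fun hu => ?_
    have h4 := ht.1.2 _ (hZG hu)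
    rw [mem_Icc, ← abs_le, abs_div, abs_of_pos h4, div_le_one h4]
  rwa [h2]

theorem vert_eq (h : Box G V π ψ σ) {u : E} (hu : u ∈ G) {T : Set ℝ} (hT : T ⊆ Ioo (-1) 1) :
    {x ∈ V | π x = u ∧ ψ x ∈ T} = (fun s => σ (u, s)) '' T := by
  apply Subset.antisymm
  · rintro x ⟨hx, rfl, hs⟩
    exact ⟨ψ x, hs, h.sig_pp hx⟩
  · rintro _ ⟨s, hs, rfl⟩
    exact ⟨h.sig_mem hu (hT hs), h.pi_sig hu (hT hs), (h.psi_sig hu (hT hs)).symm ▸ hs⟩

theorem cont_vert (h : Box G V π ψ σ) {u : E} (hu : u ∈ G) {T : Set ℝ} (hT : T ⊆ Ioo (-1) 1) :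
    ContinuousOn (fun s => σ (u, s)) T :=
  h.hom.cont_inv.comp (by fun_prop) fun _ hs => ⟨hu, hT hs⟩

theorem pre_vert (h : Box G V π ψ σ) {u : E} (hu : u ∈ G) {T : Set ℝ} (hT : T ⊆ Ioo (-1) 1)
    (hp : IsPreconnected T) : IsPreconnected {x ∈ V | π x = u ∧ ψ x ∈ T} :=
  h.vert_eq hu hT ▸ hp.image _ (h.cont_vert hu hT)

theorem compact_vert (h : Box G V π ψ σ) {u : E} (hu : u ∈ G) {T : Set ℝ} (hT : T ⊆ Ioo (-1) 1)
    (hp : IsCompact T) : IsCompact {x ∈ V | π x = u ∧ ψ x ∈ T} :=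
  h.vert_eq hu hT ▸ hp.image_of_continuousOn (h.cont_vert hu hT)

theorem exists_thin (h : Box G V π ψ σ) (ht : Thin G c η) {A : Set E3} (hAV : A ⊆ V)
    (hA : ClosedIn A V) (hc : ∀ x ∈ A, ψ x ≠ c) :
    ∃ η', Thin G c η' ∧ (∀ u, η' u ≤ η u) ∧ Disjoint A (slab V π ψ c η') := by
  obtain ⟨r, hr, -, -, hp⟩ := exists_gauge (X := G)
    (p := fun u a => ∀ x ∈ A, π x = u → a ≤ |ψ x - c|)
    (fun u _ a b _ hab hb x hx hu => hab.trans (hb x hx hu)) fun u hu => by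
      have h0 : c ∈ Ioo (-1:ℝ) 1 := abs_lt.1 (by linarith [ht.2 u hu, ht.1.2 u hu])
      have h1 : Aᶜ ∈ 𝓝 (σ (u, c)) := hA.compl_mem_nhds (h.sig_mem hu h0) fun hx =>
        hc _ hx (h.psi_sig hu h0)
      obtain ⟨ε, hε, hb⟩ := Metric.mem_nhdsWithin_iff.1
        (h.hom.cont_inv (u, c) ⟨hu, h0⟩ h1)
      refine ⟨ε, hε, ?_⟩
      filter_upwards [mem_nhdsWithin_of_mem_nhds (ball_mem_nhds u hε)] with v hv x hx hxv
      by_contra hlt
      refine hb (a := (π x, ψ x)) ⟨?_, h.hom.mapsTo (hAV hx)⟩ (by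
        simpa only [h.sig_pp (hAV hx)] using hx)
      rw [← ball_prod_same]
      exact ⟨hxv ▸ hv, mem_ball.2 (not_le.1 hlt)⟩
  refine ⟨fun u => min (r u) (η u), ⟨hr.min ht.1, fun u hu => ?_⟩, fun u => min_le_right _ _,
    disjoint_left.2 fun x hx hs => ?_⟩
  · linarith [ht.2 u hu, min_le_right (r u) (η u)]
  · exact absurd (hs.2.trans_le (min_le_left _ _)) (not_lt.2 (hp _ (h.pi_mem hs.1) x hx rfl))

end Box

theorem box : BOX := by
  intro E _ _ G V π ψ σ c η h ht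
  refine ⟨h.isOpen_slab ht, fun D B hD hDG => ⟨h.isOpen_over hD hDG,
    h.pre_slab ht hD.isConnected_int.isPreconnected (sdiff_subset.trans hDG),
    h.compact_slab ht hD.isCompact hDG⟩, fun u hu s₁ s₂ h1 _ h3 => ?_,
    fun A hAV hA hc => h.exists_thin ht hAV hA hc⟩
  have hT : Icc s₁ s₂ ⊆ Ioo (-1:ℝ) 1 := Icc_subset_Ioo h1 h3
  exact ⟨h.compact_vert hu hT isCompact_Icc, h.pre_vert hu hT isPreconnected_Icc⟩

theorem lam : LAM := by
  intro E _ _ G r hG hr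
  obtain ⟨r₁, hr₁, h1, -, h2⟩ := hr.exists_union
  obtain ⟨ρ, hρ, hρs, -⟩ := hr.exists_fine one_pos
  obtain ⟨r₂, hr₂, h3⟩ := exists_gauge_prop (X := G)
    (P := fun U => ∃ D B, ConBall 2 D B ∧ D ⊆ G ∧ Small r D ∧ U = D \ B) fun x hx => by
      obtain ⟨D, B, hD, hxD, hs, hn⟩ := hG.small hx (U := closedBall x (1 * ρ x))
        (mem_nhdsWithin_of_mem_nhds (closedBall_mem_nhds x (by
          have := hρ.2 x hx
          positivity)))
      exact ⟨D \ B, inter_mem hn (mem_nhdsWithin_of_mem_nhds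
        (hD.isCompact_bdry.isClosed.isOpen_compl.mem_nhds hxD.2)),
        D, B, hD, hs.trans inter_subset_left, (hρs x hx).mono hs, rfl⟩
  obtain ⟨r₃, hr₃, h4, h5, -⟩ := hr₂.exists_union
  refine ⟨fun u => min (r₁ u) (r₃ u), hr₁.min hr₃, fun u hu => (min_le_left _ _).trans (h1 u hu),
    fun u hu v hv huv => h2 u hu v hv (huv.trans_le (min_le_left _ _)), ?_⟩
  rintro A hAG ⟨x, hx⟩ hA
  obtain ⟨_, ⟨D, B, hD, hDG, hs, rfl⟩, hb⟩ := h3 x (hAG hx)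
  have h6 : ∀ A' ⊆ G, Small (fun u => min (r₁ u) (r₃ u)) A' → (A' ∩ A).Nonempty →
      A' ⊆ D \ B := fun A' hA'G hA' hne y hy =>
    hb ⟨hA'G hy, (h5 A' A hA'G hAG (hA'.of_le fun _ _ => min_le_right _ _)
      (hA.of_le fun _ _ => min_le_right _ _) hne).subset_ball (Or.inr hx) (Or.inl hy)⟩
  exact ⟨D, B, hD, hDG, hs, h6 A hAG hA ⟨x, hx, hx⟩, h6⟩

end P073.SF
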