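import Vale.Agent.P073Z.SURF.Big

/-!
# Values of a side function seen from inside the three-cells
-/

open Set Metric Topology Filter

namespace P073.SF

/-- a locally constant function on a connected set is constant -/
theorem const_of_ev {T A : Type} [TopologicalSpace T] {S : Set T} (hS : IsPreconnected S)
    {f : T → A} (h : ∀ x ∈ S, ∀ᶠ y in 𝓝[S] x, f y = f x) {x y : T} (hx : x ∈ S) (hy : y ∈ S) :
    f x = f y :=
  hS.induction₂' (fun x y => f x = f y) (fun x hx => (h x hx).mono fun _ e => ⟨e.symm, e⟩)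
    (fun _ _ _ _ _ _ => Eq.trans) hx hy

theorem two_of59 {ι : Type} {a b i j₁ j₂ : ι} (h : a ≠ b) (ha : a = j₁ ∨ a = j₂)
    (hb : b = j₁ ∨ b = j₂) (hi : i = j₁ ∨ i = j₂) : i = a ∨ i = b := by
  grind

theorem neBot_ocell {E : Type} [NormedAddCommGroup E] [NormedSpace ℝ E] (T : RCx E) {i : T.ι}
    {p : E} (hp : p ∈ T.cell i) : (𝓝[T.ocell i] p).NeBot :=
  mem_closure_iff_nhdsWithin_neBot.1 ((T.ball i).subset_closure_int hp)

theorem ocell_not_skel {E : Type} [NormedAddCommGroup E] [NormedSpace ℝ E] (T : RCx E) {i : T.ι}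
    (hi : T.dim i = 3) {y : E} (hy : y ∈ T.ocell i) : y ∉ T.skel 2 := fun h => by
  have := (T.mem_skel_iff_dim hy).1 h
  omega

theorem hat : HAT := by
  intro T _ hO
  have hM := man T (n := 2) T.sub_carrier (plMan_open hO)
  refine ⟨fun Q _ p hp => neBot_ocell T hp, fun F Q₁ Q₂ hF h1 h2 hne s1 s2 p hp => ?_,
    fun {W w} hW hw => ?_⟩
  · obtain ⟨j₁, j₂, -, k⟩ := hM.2.2.2.1 F (T.cell_subset_carrier F) hF
    filter_upwards [hO.mem_nhds (T.cell_subset_carrier F hp.1), T.eventually_coface hp]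
      with y hy hc
    obtain ⟨i, hi⟩ := T.exists_ocell hy
    have k1 := hc i hi.1
    have k2 := T.dim_le k1
    have k3 := hM.1 i (T.cell_subset_carrier i)
    by_cases k4 : T.dim i = 3
    · rcases two_of59 hne ((k Q₁).1 ⟨s1, T.cell_subset_carrier _, h1⟩)
        ((k Q₂).1 ⟨s2, T.cell_subset_carrier _, h2⟩)
        ((k i).1 ⟨k1, T.cell_subset_carrier _, k4⟩) with rfl | rfl
      exacts [Or.inl hi, Or.inr (Or.inl hi)]
    · exact Or.inr (Or.inr (T.eq_of_subset_of_dim_le k1 (by omega) ▸ hi.1))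
  · have key : ∀ Q, T.dim Q = 3 → ∀ p ∈ T.cell Q ∩ W, ∃ O, IsOpen O ∧ p ∈ O ∧ O ⊆ W ∧
        ∃ b, ∀ y ∈ T.ocell Q ∩ O, w y = b := by
      intro Q hQ p hp
      obtain ⟨O, o1, o2, o3, -, o4, -⟩ := (T.ball Q).local hp.1
        (mem_nhdsWithin_of_mem_nhds (hW.mem_nhds hp.2))
      have o5 : T.ocell Q ∩ (O ∩ W) = (T.cell Q \ T.bd Q) ∩ O :=
        Subset.antisymm (fun y hy => ⟨hy.1, hy.2.1⟩) fun y hy => ⟨hy.1, hy.2, o3 ⟨hy.1.1, hy.2⟩⟩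
      obtain ⟨y₀, hy₀⟩ := (neBot_ocell T hp.1).nonempty_of_mem
        (inter_mem_nhdsWithin (T.ocell Q) (o1.mem_nhds o2))
      refine ⟨O ∩ W, o1.inter hW, ⟨o2, hp.2⟩, inter_subset_right, w y₀, fun y hy => ?_⟩
      refine const_of_ev o4 (fun x hx => mem_nhdsWithin_of_mem_nhds (hw x ⟨⟨o3 ⟨hx.1.1, hx.2⟩,
        T.cell_subset_carrier Q hx.1.1⟩, ocell_not_skel T hQ hx.1⟩)) (o5 ▸ hy) hy₀
    have ex : ∀ (Q : T.ι) (p : E3), ∃ b : ZMod 2, T.dim Q = 3 → p ∈ T.cell Q ∩ W →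
        ∀ᶠ y in 𝓝[T.ocell Q] p, w y = b := by
      intro Q p
      by_cases h : T.dim Q = 3 ∧ p ∈ T.cell Q ∩ W
      · obtain ⟨O, o1, o2, -, b, o3⟩ := key Q h.1 p h.2
        exact ⟨b, fun _ _ => mem_of_superset (inter_mem_nhdsWithin _ (o1.mem_nhds o2)) o3⟩
      · exact ⟨0, fun h1 h2 => absurd ⟨h1, h2⟩ h⟩
    choose m hm using ex
    refine ⟨m, fun Q hQ p hp => ⟨hm Q p hQ hp, ?_⟩⟩
    obtain ⟨O, o1, o2, o3, b, o4⟩ := key Q hQ p hp
    have k : ∀ q ∈ T.cell Q ∩ O, m Q q = b := fun q hq => by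
      obtain ⟨y, k1, k2⟩ := (neBot_ocell T hq.1).nonempty_of_mem (inter_mem
        (hm Q q hQ ⟨hq.1, o3 hq.2⟩) (inter_mem_nhdsWithin _ (o1.mem_nhds hq.2)))
      exact Eq.trans (Eq.symm k1) (o4 y k2)
    filter_upwards [inter_mem_nhdsWithin _ (o1.mem_nhds o2)] with q hq
    rw [k q hq, k p ⟨hp.1, o2⟩]

section Col

variable {T : RCx E3} {ψ : E3 → ℝ} {c : ℝ} {I : E3 → Set E3} {zp zm : E3 → E3} {W : Set E3}
  (N : Nrm T ψ c I zp zm W)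

theorem Nrm.host_mono {i j : N.X.ι} (h : N.X.cell i ⊆ N.X.cell j) :
    T.cell (N.host i) ⊆ T.cell (N.host j) := by
  obtain ⟨x, hx⟩ := N.X.ocell_nonempty i
  exact T.cell_subset_of_mem (N.host_ocell i hx) (N.host_cell j (h hx.1))

theorem Nrm.strip_sub {a : N.X.ι} (ha : N.X.dim a = 1) : N.strip a ⊆ T.cell (N.host a) := by
  obtain ⟨p, q, h⟩ := N.arc a ha
  exact h.2.2.2.2.1

theorem Nrm.strip_cpt {a : N.X.ι} (ha : N.X.dim a = 1) : IsCompact (N.strip a) := by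
  obtain ⟨p, q, h⟩ := N.arc a ha
  exact h.2.2.2.1.isCompact

theorem Nrm.cell_sub {a : N.X.ι} (ha : N.X.dim a = 1) : N.X.cell a ⊆ W ∩ N.strip a := by
  obtain ⟨p, q, h⟩ := N.arc a ha
  exact h.2.2.1

/-- room values `m` that jump exactly across the strips of `J` -/
structure Rm (J : Finset N.X.ι) (m : T.ι → E3 → ZMod 2) : Prop where
  loc : ∀ Q, T.dim Q = 3 → ∀ p ∈ T.cell Q ∩ W, ∀ᶠ p' in 𝓝[T.cell Q] p, m Q p' = m Q p
  jump : ∀ F Q Q', T.dim F = 2 → T.dim Q = 3 → T.dim Q' = 3 → Q ≠ Q' → T.cell F ⊆ T.cell Q →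
    T.cell F ⊆ T.cell Q' → ∀ p ∈ W, p ∈ T.ocell F →
      ((∃ a ∈ J, p ∈ N.strip a) ↔ m Q p ≠ m Q' p)

variable {N}

/-- the colouring given by room values -/
theorem Rm.col (hA : ANNU) (hN : NMAN) (hT : T.Cvx) (hO : IsOpen T.carrier)
    (hL : Lev T ψ c I zp zm) (hW : IsOpen W) {J : Finset N.X.ι} (hJ : ∀ a ∈ J, N.X.dim a = 1)
    {m : T.ι → E3 → ZMod 2} (h : Rm N J m) : ∃ col, Col N.X J col ∧
      ∀ d, N.X.dim d = 2 → ∀ x ∈ N.X.bd d, m (N.host d) x = col d := by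
  have n6 := (hN T N hT hO hL).2.2.2.2.2
  have ex : ∀ d, ∃ b, N.X.dim d = 2 → ∀ x ∈ N.X.bd d, m (N.host d) x = b := by
    intro d
    by_cases hd : N.X.dim d = 2
    · have h1 := ((arcs (E := E3)).2.2.2.2.2.1 (p := 0) (RCx.circle_bd hd)).1
      obtain ⟨x₀, hx₀⟩ := h1.nonempty
      have h2 : N.X.bd d ⊆ T.cell (N.host d) := (N.X.bd_subset d).trans (N.host_cell d)
      exact ⟨m (N.host d) x₀, fun _ x hx => const_of_ev h1.isPreconnected (fun y hy =>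
        nhdsWithin_mono y h2 (h.loc _ (by rw [N.host_dim, hd]) y ⟨h2 hy, n6 d hd hy⟩)) hx hx₀⟩
    · exact ⟨0, fun h => absurd h hd⟩
  choose col hcol using ex
  refine ⟨col, fun a d d' ha hd hd' hne s s' => ?_, hcol⟩
  obtain ⟨p, hp⟩ := N.X.ocell_nonempty a
  have h1 := N.cell_sub ha hp.1
  have hF : T.dim (N.host a) = 2 := by rw [N.host_dim, ha]
  have h2 := h.jump (N.host a) (N.host d) (N.host d') hF (by rw [N.host_dim, hd])
    (by rw [N.host_dim, hd']) (fun e => disjoint_left.1 (N.room_disj d d' hd hd' hne e) (s hp.1)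
      (s' hp.1)) (N.host_mono s) (N.host_mono s') p h1.1 (N.host_ocell a hp)
  rw [hcol d hd p (N.X.subset_bd_of_dim_lt s (by omega) hp.1),
    hcol d' hd' p (N.X.subset_bd_of_dim_lt s' (by omega) hp.1)] at h2
  rw [← h2]
  refine ⟨fun k => ⟨a, k, h1.2⟩, fun ⟨a', k1, k2⟩ => ?_⟩
  exact ((hA T N hT hO hL hW).2 a _ ha hF p h1.1 (N.host_ocell a hp) h1.2).2.2 a' (hJ a' k1) k2 ▸ k1

end Col

/-- room values for a circle over a disc -/
theorem exists_rm (hWJ : WJ) (hB : BOX) (hA : ANNU) {E : Type} [NormedAddCommGroup E]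
    [NormedSpace ℝ E] {G D B : Set E} {π : E3 → E} {ψ : E3 → ℝ} {σ : E × ℝ → E3} {c : ℝ}
    {η : E → ℝ} {T : RCx E3} {I : E3 → Set E3} {zp zm : E3 → E3}
    (N : Nrm T ψ c I zp zm (slab T.carrier π ψ c η)) (J : Finset N.X.ι)
    (hb : Box G T.carrier π ψ σ) (ht : Thin G c η) (hT : T.Cvx) (hL : Lev T ψ c I zp zm)
    (hD : ConBall 2 D B) (hDG : D ⊆ G) (hJ : Circ N.X J)
    (ho : ∀ a ∈ J, ∀ x ∈ T.cell (N.host a), π x ∈ D \ B) :
    ∃ m, Rm N J m ∧ ∀ Q, T.dim Q = 3 → ∀ p ∈ T.cell Q ∩ slab T.carrier π ψ c η,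
      π p ∉ D \ B → m Q p = 0 := by
  have hW := (hB hb ht).1
  obtain ⟨a1, a2⟩ := hA T N hT hb.op hL hW
  obtain ⟨-, t2, t3⟩ := hat T hT hb.op
  have hc : IsCompact (⋃ a ∈ J, N.strip a) :=
    J.isCompact_biUnion fun a ha => N.strip_cpt (hJ.1 a ha)
  have hs : (⋃ a ∈ J, N.strip a) ⊆ T.carrier := iUnion₂_subset fun a ha =>
    (N.strip_sub (hJ.1 a ha)).trans (T.cell_subset_carrier _)
  have hπ : ∀ x ∈ ⋃ a ∈ J, N.strip a, π x ∈ D \ B := fun x hx => by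
    obtain ⟨a, h1, h2⟩ := mem_iUnion₂.1 hx
    exact ho a h1 x (N.strip_sub (hJ.1 a h1) h2)
  obtain ⟨w, w1, w2, w3⟩ := hWJ (X := slab T.carrier π ψ c η ∩ ⋃ a ∈ J, N.strip a)
    (L := π '' ⋃ a ∈ J, N.strip a) hb ht inter_subset_left
    (fun x hx h => ⟨hx, closure_minimal inter_subset_right hc.isClosed h⟩) (a1 J hJ) hD hDG
    (hc.image_of_continuousOn (hb.hom.cont.fst.mono hs)) (forall_mem_image.2 hπ)
    fun x hx => mem_image_of_mem π hx.2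
  obtain ⟨m, hm⟩ := t3 (w := w) hW fun y hy => w1 y ⟨hy.1.1, fun h => by
    obtain ⟨a, h1, h2⟩ := mem_iUnion₂.1 h.2
    exact hy.2 (T.cell_subset_skel (by rw [N.host_dim, hJ.1 a h1]) (N.strip_sub (hJ.1 a h1) h2))⟩
  have off : ∀ Q, T.dim Q = 3 → ∀ p ∈ T.cell Q ∩ slab T.carrier π ψ c η,
      p ∉ ⋃ a ∈ J, N.strip a → m Q p = w p := fun Q hQ p hp hn => by
    obtain ⟨y, k1, k2⟩ := (neBot_ocell T hp.1).nonempty_of_mem (inter_mem (hm Q hQ p hp).1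
      (mem_nhdsWithin_of_mem_nhds (w1 p ⟨hp.2, fun h => hn h.2⟩)))
    exact Eq.trans (Eq.symm k1) k2
  refine ⟨m, ⟨fun Q hQ p hp => (hm Q hQ p hp).2,
    fun F Q Q' hF hQ hQ' hne s s' p hp hpF => ⟨fun ⟨a, h1, h2⟩ e => ?_, fun h => ?_⟩⟩,
    fun Q hQ p hp hn => ?_⟩
  · have k1 := (a2 a F (hJ.1 a h1) hF p hp hpF h2).2.1
    have k2 := (hm Q hQ p ⟨s hpF.1, hp⟩).1
    have k3 := (hm Q' hQ' p ⟨s' hpF.1, hp⟩).1
    rw [← e] at k3
    obtain ⟨y, ⟨k4, k5⟩, ⟨k6, k7⟩, ⟨k8, k9⟩, k10⟩ :=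
      ((w2 p ⟨hp, mem_iUnion₂.2 ⟨a, h1, h2⟩⟩ (m Q p + 1)).and_eventually
        (((eventually_nhdsWithin_iff.1 k2).and (eventually_nhdsWithin_iff.1 k3)).and
          (((t2 F Q Q' hF hQ hQ' hne s s' p hpF).and (hW.mem_nhds hp)).and
            (eventually_nhdsWithin_iff.1 k1)))).exists
    have k11 : w y ≠ m Q p := by rw [k5]; simp
    rcases k8 with o | o | o
    exacts [k11 (k6 o), k11 (k7 o), k4 ⟨k9, mem_iUnion₂.2 ⟨a, h1, k10 o⟩⟩]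
  · by_contra hn
    have k : p ∉ ⋃ a ∈ J, N.strip a := fun o =>
      hn (let ⟨a, o1, o2⟩ := mem_iUnion₂.1 o; ⟨a, o1, o2⟩)
    exact h ((off Q hQ p ⟨s hpF.1, hp⟩ k).trans (off Q' hQ' p ⟨s' hpF.1, hp⟩ k).symm)
  · exact (off Q hQ p hp fun o => hn (hπ p o)).trans (w3 p hp.2 hn)

theorem colr_of (hWJ : WJ) (hB : BOX) (hA : ANNU) (hN : NMAN) : COLR := by
  intro E _ _ G D B π ψ σ c η T I zp zm N J hb ht hT hL hD hDG hJ ho
  obtain ⟨m, h1, h2⟩ := exists_rm hWJ hB hA N J hb ht hT hL hD hDG hJ ho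
  obtain ⟨col, k1, k2⟩ := h1.col hA hN hT hb.op hL (hB hb ht).1 hJ.1
  refine ⟨col, k1, fun d hd hn x hx => by_contra fun o => hn ?_⟩
  rw [← k2 d hd x hx]
  exact h2 _ (by rw [N.host_dim, hd]) x ⟨N.host_cell d (N.X.bd_subset d hx),
    (hN T N hT hb.op hL).2.2.2.2.2 d hd hx⟩ o

end P073.SF
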