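import Vale.Agent.P073Z.SURF.Hat

/-!
# Local connectivity of the essential part of the normal surface
-/

open Set Metric Topology Filter

namespace P073.SF

theorem zmod_sub {a b : ZMod 2} {p : Prop} [Decidable p] (h : p ↔ a ≠ b) :
    a = b + if p then 1 else 0 := by
  rw [if_congr h rfl rfl]
  clear h
  revert a b
  decide

/-- the arcs in the boundary of a two-cell -/
theorem exists_bdJ {E : Type} [NormedAddCommGroup E] [NormedSpace ℝ E] [FiniteDimensional ℝ E]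
    (X : RCx E) (d : X.ι) : ∃ J : Finset X.ι,
      (∀ a, a ∈ J ↔ X.dim a = 1 ∧ X.cell a ⊆ X.cell d) ∧ (X.dim d = 2 → Circ X J) := by
  have h1 : {a | X.dim a = 1 ∧ X.cell a ⊆ X.cell d}.Finite :=
    (X.finite_faces d).subset fun a ha => ha.2
  refine ⟨h1.toFinset, fun a => h1.mem_toFinset, fun hd =>
    ⟨fun a ha => (h1.mem_toFinset.1 ha).1, ?_⟩⟩
  have h2 : (⋃ a ∈ h1.toFinset, X.cell a) = X.bd d := by
    refine Subset.antisymm (iUnion₂_subset fun a ha => ?_) fun x hx => ?_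
    · obtain ⟨o1, o2⟩ := h1.mem_toFinset.1 ha
      exact X.subset_bd_of_dim_lt o2 (by omega)
    · obtain ⟨a, k1, k2, k3⟩ := (X.sub_bd d).exists_edge man (RCx.circle_bd hd) hx
      exact mem_iUnion₂.2 ⟨a, h1.mem_toFinset.2 ⟨k1, k2.trans (X.bd_subset d)⟩, k3⟩
  exact h2.symm ▸ RCx.circle_bd hd

open Classical in
/-- the colouring of the boundary circle of a cell is the indicator of the cell -/
theorem col_ind {E : Type} [NormedAddCommGroup E] [NormedSpace ℝ E] [FiniteDimensional ℝ E]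
    {X : RCx E} (hX : PLMan 2 X.carrier) {d : X.ι} (hd : X.dim d = 2) {J : Finset X.ι}
    (hJ : ∀ a, a ∈ J ↔ X.dim a = 1 ∧ X.cell a ⊆ X.cell d) {col : X.ι → ZMod 2}
    (hc : Col X J col) {e e' : X.ι} (h : Relation.ReflTransGen (Adj X) e e') (h0 : col e' = 0)
    (hne : e' ≠ d) : col e = if e = d then 1 else 0 := by
  induction h using Relation.ReflTransGen.head_induction_on with
  | refl => rw [h0, if_neg hne]
  | @head j j' o _ ih =>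
    obtain ⟨o1, o2, a, o3, o4, o5⟩ := o
    by_cases e : j = j'
    · rw [e, ih]
    have k : X.Adj a j j' := ⟨o3, o1, o2, e, o4, o5⟩
    rw [zmod_sub (hc a j j' o3 o1 o2 e o4 o5), ih]
    by_cases h1 : j = d
    · subst h1
      rw [if_neg (Ne.symm e), if_pos ((hJ a).2 ⟨o3, o4⟩), if_pos rfl, zero_add]
    · by_cases h2 : j' = d
      · subst h2
        rw [if_pos rfl, if_pos ((hJ a).2 ⟨o3, o5⟩), if_neg h1]
        rfl
      · rw [if_neg h2, if_neg h1, if_neg, add_zero]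
        intro h3
        exact (k.two man hX ((hJ a).1 h3).2 hd).elim (fun o => h1 o.symm) fun o => h2 o.symm

theorem lc_of (hWJ : WJ) (hB : BOX) (hA : ANNU) (hN : NMAN) : LC := by
  classical
  intro E _ _ G D₁ B₁ D₂ B₂ π ψ σ c η T I zp zm N 𝓔 d₀ d₁ hb ht hT hL hD₁ hG₁ hD₂ hG₂ ho hS hfar
    e₀ e₁ ⟨x₀, hx₀, hπ₀⟩ ⟨x₁, hx₁, hπ₁⟩
  obtain ⟨hW, b2, -⟩ := hB hb ht
  obtain ⟨n1, -, n3, -, -, n6⟩ := hN T N hT hb.op hL
  have hM := man T (n := 2) T.sub_carrier (plMan_open hb.op)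
  let W := slab T.carrier π ψ c η
  let 𝓕 : Set N.X.ι := {d | N.X.dim d = 2 ∧ ∃ x ∈ T.cell (N.host d), π x ∈ D₁}
  have hF : 𝓕.Finite := by
    refine (n3.finite_meet (b2 D₂ B₂ hD₂ hG₂).2.2 fun x hx => hx.1).subset fun d hd => ?_
    obtain ⟨x, hx⟩ := ((arcs (E := E3)).2.2.2.2.2.1 (p := 0) (RCx.circle_bd hd.1)).1.nonempty
    have h1 := n6 d hd.1 hx
    exact ⟨x, N.X.bd_subset d hx, h1.1,
      (ho _ hd.2 x (N.host_cell d (N.X.bd_subset d hx))).1, h1.2.le⟩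
  let C : Set N.X.ι := {d | Relation.ReflTransGen (fun d d' => Adj N.X d d' ∧ d' ∈ 𝓕) d₀ d}
  have hC : ∀ d ∈ C, d ∈ 𝓕 ∧ d ∈ 𝓔 := fun d hd => by
    induction hd with
    | refl => exact ⟨⟨hS.1 _ e₀, x₀, N.host_cell _ (N.X.bd_subset _ hx₀), hπ₀.1⟩, e₀⟩
    | tail _ o ih => exact ⟨o.2, hS.2 _ ih.2 _ o.1⟩
  have fC : C.Finite := hF.subset fun d hd => (hC d hd).1
  choose J hJ hJc using exists_bdJ N.X
  have ex : ∀ d, ∃ m : T.ι → E3 → ZMod 2, d ∈ C → Rm N (J d) m ∧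
      ∀ e ∈ 𝓔, ∀ x ∈ N.X.bd e, m (N.host e) x = if e = d then 1 else 0 := by
    intro d
    by_cases hd : d ∈ C
    swap
    · exact ⟨0, fun h => absurd h hd⟩
    obtain ⟨⟨h1, h2⟩, -⟩ := hC d hd
    obtain ⟨m, k1, k2⟩ := exists_rm hWJ hB hA N (J d) hb ht hT hL hD₂ hG₂ (hJc d h1)
      fun a ha x hx => ho _ h2 x (N.host_mono ((hJ d a).1 ha).2 hx)
    obtain ⟨col, k3, k4⟩ := k1.col hA hN hT hb.op hL hW (hJc d h1).1
    refine ⟨m, fun _ => ⟨k1, fun e he x hx => ?_⟩⟩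
    obtain ⟨e', o1, y, o2, o3⟩ := hfar e he
    have o4 : N.X.dim e' = 2 := by
      rcases o1.cases_tail with rfl | ⟨_, -, o⟩
      exacts [hS.1 _ he, o.2.1]
    have o5 := N.host_cell e' (N.X.bd_subset e' o2)
    rw [k4 e (hS.1 e he) x hx]
    refine col_ind n1 h1 (hJ d) k3 o1 ?_ fun o => o3 (ho _ h2 y (o ▸ o5))
    rw [← k4 e' o4 y o2]
    exact k2 _ (by rw [N.host_dim, o4]) y ⟨o5, n6 e' o4 o2⟩ o3
  choose m hm using ex
  let n : T.ι → E3 → ZMod 2 := fun Q p => ∑ d ∈ fC.toFinset, m d Q p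
  have loc : ∀ Q, T.dim Q = 3 → ∀ p ∈ T.cell Q ∩ W,
      ∀ᶠ p' in 𝓝[T.cell Q] p, n Q p' = n Q p := fun Q hQ p hp =>
    ((eventually_all_finset fC.toFinset).2 fun d hd =>
      (hm d (fC.mem_toFinset.1 hd)).1.loc Q hQ p hp).mono fun p' h => Finset.sum_congr rfl h
  have face : ∀ F Q Q', T.dim F = 2 → T.dim Q = 3 → T.dim Q' = 3 → Q ≠ Q' →
      T.cell F ⊆ T.cell Q → T.cell F ⊆ T.cell Q' → ∀ p ∈ W, p ∈ T.ocell F → π p ∈ D₁ →
      n Q p = n Q' p := by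
    intro F Q Q' hF2 hQ hQ' hne s s' p hp hpF hπ
    have h1 : n Q p = n Q' p + ∑ d ∈ fC.toFinset,
        (if ∃ a ∈ J d, p ∈ N.strip a then (1 : ZMod 2) else 0) := by
      rw [← Finset.sum_add_distrib]
      exact Finset.sum_congr rfl fun d hd => zmod_sub
        ((hm d (fC.mem_toFinset.1 hd)).1.jump F Q Q' hF2 hQ hQ' hne s s' p hp hpF)
    rw [h1, add_eq_left]
    by_cases h2 : ∃ a, N.X.dim a = 1 ∧ p ∈ N.strip a
    · obtain ⟨a, ha, hpa⟩ := h2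
      obtain ⟨o1, -, o2⟩ := (hA T N hT hb.op hL hW).2 a F ha hF2 p hp hpF hpa
      obtain ⟨j₁, j₂, k, k'⟩ := RCx.exists_adj man n1 ha
      have f : ∀ j, N.X.dim j = 2 → N.X.cell a ⊆ N.X.cell j → j ∈ 𝓕 := fun j h3 h4 =>
        ⟨h3, p, N.host_mono h4 (o1 ▸ hpF.1), hπ⟩
      have e : j₁ ∈ fC.toFinset ↔ j₂ ∈ fC.toFinset := by
        rw [fC.mem_toFinset, fC.mem_toFinset]
        exact ⟨fun o => o.tail ⟨⟨k.d₁, k.d₂, a, ha, k.s₁, k.s₂⟩, f _ k.d₂ k.s₂⟩,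
          fun o => o.tail ⟨⟨k.d₂, k.d₁, a, ha, k.s₂, k.s₁⟩, f _ k.d₁ k.s₁⟩⟩
      have g : ∀ d ∈ fC.toFinset, (∃ a ∈ J d, p ∈ N.strip a) ↔ d = j₁ ∨ d = j₂ := by
        refine fun d hd => ⟨fun ⟨a', o3, o4⟩ => ?_, ?_⟩
        · obtain ⟨o5, o6⟩ := (hJ d a').1 o3
          exact k' d (o2 a' o5 o4 ▸ o6) (hC d (fC.mem_toFinset.1 hd)).1.1
        · rintro (rfl | rfl)
          exacts [⟨a, (hJ _ a).2 ⟨ha, k.s₁⟩, hpa⟩, ⟨a, (hJ _ a).2 ⟨ha, k.s₂⟩, hpa⟩]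
      rw [RCx.sum_pair _ _ k.ne g, if_congr e rfl rfl]
      split_ifs <;> rfl
    · exact Finset.sum_eq_zero fun d _ => if_neg fun ⟨a, o1, o2⟩ => h2 ⟨a, ((hJ d a).1 o1).1, o2⟩
  have indep : ∀ p ∈ W, π p ∈ D₁ \ B₁ → ∀ Q Q', T.dim Q = 3 → T.dim Q' = 3 → p ∈ T.cell Q →
      p ∈ T.cell Q' → n Q' p = n Q p := by
    intro p hp hπ Q Q' hQ hQ' h1 h2
    refine hM.2.2.2.2 p hp.1 (fun j => n j p = n Q p) (fun F j j' o1 o2 o3 o4 _ _ o5 o6 o7 => ?_)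
      Q Q' h1 h2 (T.cell_subset_carrier _) (T.cell_subset_carrier _) hQ hQ' rfl
    by_cases e : j = j'
    · exact e ▸ o7
    have : (𝓝[T.ocell F] p).NeBot := neBot_ocell T o1
    obtain ⟨y, ⟨k1, k2⟩, ⟨k3, k4⟩, k5⟩ := (((
      (loc j o5 p ⟨o3 o1, hp⟩).filter_mono (nhdsWithin_mono p ((T.ocell_subset F).trans o3))).and
      ((loc j' o6 p ⟨o4 o1, hp⟩).filter_mono
        (nhdsWithin_mono p ((T.ocell_subset F).trans o4)))).and
      ((Eventually.and (mem_nhdsWithin_of_mem_nhds (hW.mem_nhds hp)) (mem_nhdsWithin_of_mem_nhds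
        ((b2 D₁ B₁ hD₁ hG₁).1.mem_nhds ⟨hp.1, hπ⟩))).and self_mem_nhdsWithin)).exists
    rw [← o7, ← k1, ← k2]
    exact (face F j j' o2 o5 o6 e o3 o4 y k3 k5 k4.2.1).symm
  have ex : ∀ p : E3, ∃ Q, p ∈ T.carrier → T.dim Q = 3 ∧ p ∈ T.cell Q := fun p => by
    by_cases hp : p ∈ T.carrier
    · obtain ⟨i, hi⟩ := T.mem_carrier.1 hp
      obtain ⟨j, h1, -, h2⟩ := hM.2.1 i (T.cell_subset_carrier i)
      exact ⟨j, fun _ => ⟨h2, h1 hi⟩⟩
    · exact ⟨N.host d₀, fun h => absurd h hp⟩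
  choose Q hQ using ex
  have val : ∀ e ∈ 𝓔, ∀ x ∈ N.X.bd e, π x ∈ D₁ \ B₁ →
      n (Q x) x = if e ∈ fC.toFinset then 1 else 0 := by
    intro e he x hx hπ
    have h1 := n6 e (hS.1 e he) hx
    rw [indep x h1 hπ (N.host e) (Q x) (by rw [N.host_dim, hS.1 e he]) (hQ x h1.1).1
      (N.host_cell e (N.X.bd_subset e hx)) (hQ x h1.1).2, ← Finset.sum_ite_eq fC.toFinset e
        fun _ => (1 : ZMod 2)]
    exact Finset.sum_congr rfl fun d hd => (hm d (fC.mem_toFinset.1 hd)).2 e he x hx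
  have hconst := const_of_ev (b2 D₁ B₁ hD₁ hG₁).2.1 (f := fun p => n (Q p) p) (fun p hp => by
    have h1 : ∀ᶠ y in 𝓝 p, ∀ j ∈ {j | p ∈ T.cell j}, T.dim j = 3 → y ∈ T.cell j →
        n j y = n j p := (eventually_all_finite (T.finite_mem hp.1.1)).2 fun j hj => by
      by_cases h3 : T.dim j = 3
      · exact (eventually_nhdsWithin_iff.1 (loc j h3 p ⟨hj, hp.1⟩)).mono fun y h _ => h
      · exact Eventually.of_forall fun y h => absurd h h3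
    filter_upwards [mem_nhdsWithin_of_mem_nhds h1,
      mem_nhdsWithin_of_mem_nhds (T.eventually_star hp.1.1), self_mem_nhdsWithin] with y k1 k2 k3
    obtain ⟨k4, k5⟩ := hQ y k3.1.1
    exact (k1 _ (k2 _ k5) k4 k5).trans
      (indep p hp.1 hp.2 _ _ (hQ p hp.1.1).1 k4 (hQ p hp.1.1).2 (k2 _ k5)))
    (x := x₀) (y := x₁) ⟨n6 _ (hS.1 _ e₀) hx₀, hπ₀⟩ ⟨n6 _ (hS.1 _ e₁) hx₁, hπ₁⟩
  have c₀ : d₀ ∈ C := Relation.ReflTransGen.refl
  have c₁ : d₁ ∈ C := by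
    by_contra h
    have h1 := val d₀ e₀ x₀ hx₀ hπ₀
    rw [hconst, val d₁ e₁ x₁ hx₁ hπ₁, if_neg (fun o => h (fC.mem_toFinset.1 o)),
      if_pos (fC.mem_toFinset.2 c₀)] at h1
    exact zero_ne_one h1
  refine ⟨⋃ d ∈ C, N.X.cell d, biUnion_subset_biUnion_left fun d hd => (hC d hd).2, ?_,
    subset_biUnion_of_mem (u := N.X.cell) c₀, subset_biUnion_of_mem (u := N.X.cell) c₁,
    fun x hx => ?_⟩
  · refine isPreconnected_of_forall x₀ fun y hy => ?_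
    obtain ⟨d, hd, hyd⟩ := mem_iUnion₂.1 hy
    suffices h : ∃ t ⊆ ⋃ d ∈ C, N.X.cell d, x₀ ∈ t ∧ N.X.cell d ⊆ t ∧ IsPreconnected t from
      let ⟨t, h1, h2, h3, h4⟩ := h; ⟨t, h1, h2, h3 hyd, h4⟩
    clear hyd
    induction hd with
    | refl => exact ⟨_, subset_biUnion_of_mem (u := N.X.cell) c₀, N.X.bd_subset _ hx₀, Subset.rfl,
        (N.X.ball d₀).isConnected.isPreconnected⟩
    | @tail j j' o o' ih =>
      obtain ⟨t, h1, h2, h3, h4⟩ := ih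
      obtain ⟨-, -, a, -, o4, o5⟩ := o'.1
      obtain ⟨z, hz⟩ := N.X.cell_nonempty a
      exact ⟨t ∪ N.X.cell j', union_subset h1
        (subset_biUnion_of_mem (u := N.X.cell) (o.tail o' : j' ∈ C)), Or.inl h2,
        subset_union_right, h4.union z (h3 (o4 hz)) (o5 hz) (N.X.ball j').isConnected.isPreconnected⟩
  · obtain ⟨d, hd, hxd⟩ := mem_iUnion₂.1 hx
    exact (ho _ (hC d hd).1.2 x (N.host_cell d hxd)).1

end P073.SF
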