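import Vale.Agent.P073Z.SURF.Sk
import Vale.Agent.P073Z.RCX
import Vale.Agent.P073Z.Indic
import Vale.Agent.P073Z.MPC

/-!
# A good level, and connected one-skeleta
-/

open Set Metric Topology Filter MeasureTheory
open scoped ENNReal NNReal

namespace P073.SF

namespace LevAux

/-- a chain argument for a connected set covered by finitely many closed sets -/
theorem chain {X ι : Type} [TopologicalSpace X] {S : Set ι} (hS : S.Finite) {C P : ι → Set X}
    {A : Set X} (hA : IsPreconnected A) (hc : ∀ i, IsClosed (C i)) (hAS : A ⊆ ⋃ i ∈ S, C i)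
    (hne : ∀ i ∈ S, (C i ∩ A).Nonempty) (hP : ∀ i ∈ S, IsPreconnected (P i))
    (hm : ∀ i j, (C i ∩ C j).Nonempty → (P i ∩ P j).Nonempty) :
    IsPreconnected (⋃ i ∈ S, P i) := by
  refine IsPreconnected.biUnion_of_reflTransGen hP fun i hi j hj => ?_
  by_contra hij
  set R : Set ι := {k | Relation.ReflTransGen (fun i j => (P i ∩ P j).Nonempty ∧ i ∈ S) i k}
    with hR
  have h1 : IsClosed (⋃ k ∈ S ∩ R, C k) :=
    (hS.subset inter_subset_left).isClosed_biUnion fun k _ => hc k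
  have h2 : IsClosed (⋃ k ∈ S \ R, C k) :=
    (hS.subset sdiff_subset).isClosed_biUnion fun k _ => hc k
  have h3 : A ⊆ (⋃ k ∈ S ∩ R, C k) ∪ ⋃ k ∈ S \ R, C k := by
    intro x hx
    obtain ⟨k, hk, hxk⟩ := mem_iUnion₂.1 (hAS hx)
    by_cases hkR : k ∈ R
    · exact Or.inl (mem_iUnion₂.2 ⟨k, ⟨hk, hkR⟩, hxk⟩)
    · exact Or.inr (mem_iUnion₂.2 ⟨k, ⟨hk, hkR⟩, hxk⟩)
  obtain ⟨x, hx, hxA⟩ := hne i hi
  obtain ⟨y, hy, hyA⟩ := hne j hj
  obtain ⟨z, -, hz1, hz2⟩ := isPreconnected_closed_iff.1 hA _ _ h1 h2 h3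
    ⟨x, hxA, mem_iUnion₂.2 ⟨i, ⟨hi, Relation.ReflTransGen.refl⟩, hx⟩⟩
    ⟨y, hyA, mem_iUnion₂.2 ⟨j, ⟨hj, hij⟩, hy⟩⟩
  obtain ⟨k, hk, hzk⟩ := mem_iUnion₂.1 hz1
  obtain ⟨l, hl, hzl⟩ := mem_iUnion₂.1 hz2
  exact hl.2 (Relation.ReflTransGen.tail hk.2 ⟨hm k l ⟨z, hzk, hzl⟩, hk.1⟩)

variable {E : Type} [NormedAddCommGroup E] [NormedSpace ℝ E]

theorem conn_ball {n : ℕ} {C B : Set E} (h : ConBall n C B) : IsPreconnected C := by
  obtain ⟨-, φ, -⟩ := h
  have e : φ.invFun '' closedBall 0 1 = C :=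
    Subset.antisymm φ.mapsTo_inv.image_subset fun x hx => ⟨_, φ.mapsTo hx, φ.left_inv hx⟩
  rw [← e]
  exact (convex_closedBall _ _).isPreconnected.image _ φ.cont_inv

theorem conn_bd {n : ℕ} {C B : Set E} (h : ConBall n C B) (hn : 2 ≤ n) : IsConnected B := by
  obtain ⟨φ, hφ⟩ := h.eq_preimage
  rw [← hφ]
  refine (isConnected_sphere ?_ _ zero_le_one).image _ (φ.cont_inv.mono sphere_subset_closedBall)
  rw [rank_fin_fun]
  exact_mod_cast hn

theorem skel_nonempty (T : RCx E) (i : T.ι) : (T.cell i ∩ T.skel 1).Nonempty := by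
  induction hn : T.dim i using Nat.strong_induction_on generalizing i with
  | _ n ih =>
    by_cases h : T.dim i ≤ 1
    · obtain ⟨x, hx⟩ := T.cell_nonempty i
      exact ⟨x, hx, T.cell_subset_skel h hx⟩
    · obtain ⟨x, hx⟩ := (conn_bd (T.ball i) (by omega)).nonempty
      obtain ⟨j, -, hs, hd⟩ := T.exists_face_bd hx
      exact (ih _ (hn ▸ hd) j rfl).mono
        (inter_subset_inter_left _ (hs.trans (T.bd_subset i)))

theorem skel_meet (T : RCx E) (i j : T.ι) (h : (T.cell i ∩ T.cell j).Nonempty) :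
    ((T.cell i ∩ T.skel 1) ∩ (T.cell j ∩ T.skel 1)).Nonempty := by
  obtain ⟨x, hi, hj⟩ := h
  obtain ⟨m, -, h1, h2⟩ := T.exists_common_face hi hj
  obtain ⟨y, hy, hy1⟩ := skel_nonempty T m
  exact ⟨y, ⟨h1 hy, hy1⟩, h2 hy, hy1⟩

theorem skel_conn (T : RCx E) (i : T.ι) : IsPreconnected (T.cell i ∩ T.skel 1) := by
  induction hn : T.dim i using Nat.strong_induction_on generalizing i with
  | _ n ih =>
    by_cases h : T.dim i ≤ 1
    · rw [inter_eq_left.2 (T.cell_subset_skel h)]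
      exact conn_ball (T.ball i)
    · have e : T.cell i ∩ T.skel 1 = ⋃ j ∈ {j | T.cell j ⊆ T.bd i}, T.cell j ∩ T.skel 1 := by
        apply Subset.antisymm
        · rintro x ⟨hx, hx1⟩
          have hb : x ∈ T.bd i := by
            by_contra hb
            exact h ((T.mem_skel_iff_dim ⟨hx, hb⟩).1 hx1)
          obtain ⟨j, hj, hs, -⟩ := T.exists_face_bd hb
          exact mem_iUnion₂.2 ⟨j, hs, hj.1, hx1⟩
        · exact iUnion₂_subset fun j hj =>
            inter_subset_inter_left _ (Subset.trans hj (T.bd_subset i))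
      rw [e]
      refine chain (T.finite_bd_faces i) (conn_bd (T.ball i) (by omega)).isPreconnected
        T.isClosed_cell (fun x hx => ?_) (fun j hj => ?_) (fun j hj => ?_) (skel_meet T)
      · obtain ⟨j, hj, hs, -⟩ := T.exists_face_bd hx
        exact mem_iUnion₂.2 ⟨j, hs, hj.1⟩
      · obtain ⟨x, hx⟩ := T.cell_nonempty j
        exact ⟨x, hx, hj hx⟩
      · exact ih _ (hn ▸ T.dim_lt hj) j rfl

theorem ae_seg {ψ : E → ℝ} {x y : E} (hc : ContinuousOn ψ (segment ℝ x y))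
    (hv : segVar ψ x y < ⊤) : ∀ᵐ c : ℝ, {z ∈ segment ℝ x y | ψ z = c}.Finite := by
  have h1 : ContinuousOn (fun s : ℝ => ψ (AffineMap.lineMap x y s)) (Icc 0 1) := by
    refine hc.comp AffineMap.lineMap_continuous.continuousOn fun s hs => ?_
    rw [segment_eq_image_lineMap]
    exact ⟨s, hs, rfl⟩
  filter_upwards [ae_finite_level h1 hv.ne] with c hf
  refine (hf.image (AffineMap.lineMap x y)).subset ?_
  rintro z ⟨hz, hzc⟩
  rw [segment_eq_image_lineMap] at hz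
  obtain ⟨s, hs, rfl⟩ := hz
  exact ⟨s, ⟨hs, hzc⟩, rfl⟩

/-- almost every level meets an edge finitely often -/
theorem ae_edge {ψ : E → ℝ} {p q : E} (hpq : p ≠ q) (hc : ContinuousOn ψ (segment ℝ p q))
    (hv : ∀ x ∈ segment ℝ p q \ {p, q}, ∀ y ∈ segment ℝ p q \ {p, q}, segVar ψ x y < ⊤) :
    ∀ᵐ c : ℝ, {z ∈ segment ℝ p q | ψ z = c}.Finite := by
  set L : ℝ →ᵃ[ℝ] E := AffineMap.lineMap p q with hL
  have hmem : ∀ s ∈ Icc (0:ℝ) 1, L s ∈ segment ℝ p q := fun s hs => by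
    rw [segment_eq_image_lineMap]
    exact ⟨s, hs, rfl⟩
  have hin : ∀ s : ℝ, 0 < s → s < 1 → L s ∈ segment ℝ p q \ {p, q} := by
    intro s h0 h1
    refine ⟨hmem s ⟨h0.le, h1.le⟩, ?_⟩
    rintro (h | h)
    · have : L s = L 0 := by rw [h, hL, AffineMap.lineMap_apply_zero]
      exact h0.ne' (AffineMap.lineMap_injective ℝ hpq this)
    · have : L s = L 1 := by rw [mem_singleton_iff.1 h, hL, AffineMap.lineMap_apply_one]
      exact h1.ne (AffineMap.lineMap_injective ℝ hpq this)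
  have hpos : ∀ n : ℕ, 0 < 1 / ((n:ℝ) + 2) ∧ 1 / ((n:ℝ) + 2) < 1 := fun n =>
    ⟨by positivity, by
      rw [div_lt_one (by positivity)]
      linarith [Nat.cast_nonneg (α := ℝ) n]⟩
  have h1 : ∀ᵐ c : ℝ, ∀ n : ℕ,
      {z ∈ segment ℝ (L (1 / ((n:ℝ) + 2))) (L (1 - 1 / ((n:ℝ) + 2))) | ψ z = c}.Finite := by
    refine ae_all_iff.2 fun n => ?_
    have ha := hin _ (hpos n).1 (hpos n).2
    have hb := hin (1 - 1 / ((n:ℝ) + 2)) (by linarith [(hpos n).2]) (by linarith [(hpos n).1])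
    exact ae_seg (hc.mono ((convex_segment p q).segment_subset ha.1 hb.1)) (hv _ ha _ hb)
  have h2 : ∀ᵐ c : ℝ, c ∉ ({ψ p, ψ q} : Set ℝ) :=
    (toFinite _).countable.ae_notMem _
  have hφ : ContinuousOn (fun s : ℝ => ψ (L s)) (Icc 0 1) :=
    hc.comp AffineMap.lineMap_continuous.continuousOn hmem
  filter_upwards [h1, h2] with c hf hne
  have e0 : ψ (L 0) ≠ c := by
    rw [hL, AffineMap.lineMap_apply_zero]
    exact fun h => hne (Or.inl h.symm)
  have e1 : ψ (L 1) ≠ c := by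
    rw [hL, AffineMap.lineMap_apply_one]
    exact fun h => hne (Or.inr h.symm)
  obtain ⟨ε₀, hε₀, k0⟩ := Metric.eventually_nhds_iff.1 (eventually_nhdsWithin_iff.1
    ((hφ 0 ⟨le_rfl, zero_le_one⟩).eventually_ne e0))
  obtain ⟨ε₁, hε₁, k1⟩ := Metric.eventually_nhds_iff.1 (eventually_nhdsWithin_iff.1
    ((hφ 1 ⟨zero_le_one, le_rfl⟩).eventually_ne e1))
  obtain ⟨n, hn⟩ := exists_nat_one_div_lt (lt_min hε₀ hε₁)
  have hn' : 1 / ((n:ℝ) + 2) ≤ 1 / ((n:ℝ) + 1) :=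
    one_div_le_one_div_of_le (by positivity) (by linarith)
  refine (hf n).subset ?_
  rintro z ⟨hz, hzc⟩
  rw [segment_eq_image_lineMap] at hz
  obtain ⟨s, hs, rfl⟩ := hz
  refine ⟨?_, hzc⟩
  have a0 : ε₀ ≤ s := by
    by_contra hlt
    refine k0 (y := s) ?_ hs hzc
    rw [Real.dist_eq, sub_zero, abs_of_nonneg hs.1]
    exact not_le.1 hlt
  have a1 : ε₁ ≤ 1 - s := by
    by_contra hlt
    refine k1 (y := s) ?_ hs hzc
    rw [Real.dist_eq, abs_sub_comm, abs_of_nonneg (by linarith [hs.2])]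
    exact not_le.1 hlt
  rw [← image_segment ℝ L]
  refine ⟨s, Icc_subset_segment ⟨?_, ?_⟩, rfl⟩
  · linarith [min_le_left ε₀ ε₁]
  · linarith [min_le_right ε₀ ε₁]

/-- a small arc through an isolated zero that is not a local extremum -/
theorem small_arc {ψ : E → ℝ} {A : Set E} {z : E} {r : ℝ} (hA : Convex ℝ A)
    (hc : ContinuousOn ψ A) (hr : 0 < r) (h1 : ¬ IsLocalMaxOn ψ A z) (h2 : ¬ IsLocalMinOn ψ A z)
    (hiso : ∀ x ∈ A, x ∈ ball z r → ψ x = ψ z → x = z) :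
    ∃ zm zp, segment ℝ zm zp ⊆ A ∩ ball z r ∧ z ∈ segment ℝ zm zp ∧ ψ zm < ψ z ∧ ψ z < ψ zp := by
  have hb : ∀ᶠ x in 𝓝[A] z, x ∈ A ∩ ball z r :=
    inter_mem_nhdsWithin A (ball_mem_nhds z hr)
  have f1 : ∃ᶠ x in 𝓝[A] z, ¬ ψ x ≤ ψ z := not_eventually.1 h1
  have f2 : ∃ᶠ x in 𝓝[A] z, ¬ ψ z ≤ ψ x := not_eventually.1 h2
  obtain ⟨zp, hp, hp'⟩ := (f1.and_eventually hb).exists
  obtain ⟨zm, hm, hm'⟩ := (f2.and_eventually hb).exists
  have hs : segment ℝ zm zp ⊆ A ∩ ball z r :=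
    (hA.inter (convex_ball z r)).segment_subset hm' hp'
  refine ⟨zm, zp, hs, ?_, not_le.1 hm, not_le.1 hp⟩
  obtain ⟨u, hu, hu'⟩ := (convex_segment zm zp).isPreconnected.intermediate_value
    (left_mem_segment ℝ zm zp) (right_mem_segment ℝ zm zp) (hc.mono (hs.trans inter_subset_left))
    ⟨(not_le.1 hm).le, (not_le.1 hp).le⟩
  rwa [← hiso u (hs hu).1 (hs hu).2 hu']

end LevAux

open LevAux

theorem skc : SKC := by
  intro E _ _ T A hA hc hAT
  refine chain (S := {i | (T.cell i ∩ A).Nonempty}) (T.finite_meet hA hAT) hc T.isClosed_cell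
    (fun x hx => ?_) (fun i hi => hi) (fun i _ => skel_conn T i) (skel_meet T)
  obtain ⟨i, hi⟩ := T.mem_carrier.1 (hAT hx)
  exact mem_iUnion₂.2 ⟨i, ⟨x, hi, hx⟩, hi⟩

theorem level : LEVEL := by
  intro T ψ 𝓛 hT hψ hv h𝓛
  have := T.countable
  have hψi : ∀ i, ContinuousOn ψ (T.cell i) := fun i => hψ.mono (T.cell_subset_carrier i)
  have g0 : ∀ᵐ c : ℝ, ∀ i, T.dim i = 0 → ∀ x ∈ T.cell i, ψ x ≠ c := by
    refine ae_all_iff.2 fun i => ?_
    by_cases h : T.dim i = 0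
    · obtain ⟨a, ha⟩ := T.exists_vertex h
      filter_upwards [(countable_singleton (ψ a)).ae_notMem volume] with c hc _ x hx
      rw [ha] at hx
      rw [mem_singleton_iff.1 hx]
      exact fun e => hc e.symm
    · exact Eventually.of_forall fun _ h' => absurd h' h
  have g1 : ∀ᵐ c : ℝ, ∀ i, T.dim i = 1 → {x ∈ T.cell i | ψ x = c}.Finite := by
    refine ae_all_iff.2 fun i => ?_
    by_cases h : T.dim i = 1
    · obtain ⟨p, q, -, -, hpq, hs, hb, -⟩ := hT.exists_segment h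
      have ho : T.ocell i = segment ℝ p q \ {p, q} := by rw [← hs, ← hb]; rfl
      have := ae_edge hpq (hs ▸ hψi i) (ho ▸ hv i h)
      rw [← hs] at this
      exact this.mono fun _ hc _ => hc
    · exact Eventually.of_forall fun _ h' => absurd h' h
  have g2 : ∀ᵐ c : ℝ, ∀ i, c ∉ {t | ∃ s ∈ T.cell i, ψ s = t ∧
      (IsLocalMaxOn ψ (T.cell i) s ∨ IsLocalMinOn ψ (T.cell i) s)} :=
    ae_all_iff.2 fun i => (countable_locExtr ψ (T.cell i)).ae_notMem volume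
  have g3 : ∀ᵐ c : ℝ, ∀ i, T.dim i = 2 → NoPass (T.cell i) (T.bd i) ψ c := by
    refine ae_all_iff.2 fun i => ?_
    by_cases h : T.dim i = 2
    · filter_upwards [(mpc (h ▸ T.ball i) (hψi i)).ae_notMem volume] with c hc _
      exact not_not.1 hc
    · exact Eventually.of_forall fun _ h' => absurd h' h
  obtain ⟨c, hc, k0, k1, k2, k3⟩ := ((frequently_ae_mem_iff.2 h𝓛).and_eventually
    (g0.and (g1.and (g2.and g3)))).exists
  have hfin : ∀ i, {x ∈ T.cell i | x ∈ T.skel 1 ∧ ψ x = c}.Finite := by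
    intro i
    have hf : (⋃ j ∈ {j | T.cell j ⊆ T.cell i}, {x ∈ T.cell j | T.dim j = 1 ∧ ψ x = c}).Finite := by
      refine (T.finite_faces i).biUnion fun j _ => ?_
      by_cases h : T.dim j = 1
      · exact (k1 j h).subset fun x hx => ⟨hx.1, hx.2.2⟩
      · exact finite_empty.subset fun x hx => h hx.2.1
    refine hf.subset ?_
    rintro x ⟨hx, hx1, hxc⟩
    obtain ⟨j, hj, hs⟩ := T.exists_face hx
    have hd := (T.mem_skel_iff_dim hj).1 hx1
    have hd0 : T.dim j ≠ 0 := fun h => k0 j h x hj.1 hxc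
    exact mem_iUnion₂.2 ⟨j, hs, hj.1, by omega, hxc⟩
  have key : ∀ z, ∃ r : ℝ, ∃ zm zp : E3, z ∈ T.skel 1 → ψ z = c →
      (∀ x ∈ T.skel 1, ψ x = c → x ≠ z → 2 * r ≤ dist x z) ∧ segment ℝ zm zp ⊆ ball z r ∧
      ∃ e, T.dim e = 1 ∧ segment ℝ zm zp ⊆ T.ocell e ∧ z ∈ segment ℝ zm zp ∧
        ψ zm < c ∧ c < ψ zp := by
    intro z
    by_cases hz : z ∈ T.skel 1 ∧ ψ z = c
    swap
    · exact ⟨0, z, z, fun h1 h2 => absurd ⟨h1, h2⟩ hz⟩
    obtain ⟨hz1, hzc⟩ := hz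
    have hzT := T.skel_subset_carrier 1 hz1
    obtain ⟨e, he⟩ := T.exists_ocell hzT
    have hd := (T.mem_skel_iff_dim he).1 hz1
    have hd0 : T.dim e ≠ 0 := fun h => k0 e h z he.1 hzc
    have hd1 : T.dim e = 1 := by omega
    have hF : ((⋃ i ∈ {i | z ∈ T.cell i}, {x ∈ T.cell i | x ∈ T.skel 1 ∧ ψ x = c}) \ {z}).Finite :=
      ((T.finite_mem hzT).biUnion fun i _ => hfin i).subset sdiff_subset
    have n1 := hF.isClosed.isOpen_compl.mem_nhds (x := z) fun h => h.2 rfl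
    have n2 := (T.isClosed_bd e).isOpen_compl.mem_nhds (x := z) he.2
    obtain ⟨ε, hε, hb⟩ := Metric.eventually_nhds_iff.1
      ((T.eventually_star hzT).and (Eventually.and n1 n2))
    have iso : ∀ x ∈ T.skel 1, ψ x = c → x ≠ z → ε ≤ dist x z := by
      intro x hx hxc hne
      by_contra hlt
      obtain ⟨a, b, -⟩ := hb (not_le.1 hlt)
      obtain ⟨i, hi⟩ := T.mem_carrier.1 (T.skel_subset_carrier 1 hx)
      exact b ⟨mem_iUnion₂.2 ⟨i, a i hi, hi, hx, hxc⟩, hne⟩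
    obtain ⟨zm, zp, hs, hzs, hm, hp⟩ := small_arc (z := z) (hT e).1 (hψi e) (half_pos hε)
      (fun h => k2 e ⟨z, he.1, hzc, Or.inl h⟩) (fun h => k2 e ⟨z, he.1, hzc, Or.inr h⟩)
      (fun x hx hxb hxz => by
        by_contra hne
        have := iso x (T.cell_subset_skel hd hx) (hxz.trans hzc) hne
        rw [mem_ball] at hxb
        linarith)
    refine ⟨ε / 2, zm, zp, fun _ _ => ⟨fun x hx hxc hne => ?_, hs.trans inter_subset_right,
      e, hd1, fun x hx => ⟨(hs hx).1, ?_⟩, hzs, hzc ▸ hm, hzc ▸ hp⟩⟩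
    · linarith [iso x hx hxc hne]
    · have : dist x z < ε := by
        have := (hs hx).2
        rw [mem_ball] at this
        linarith
      exact (hb this).2.2
  choose r zm zp H using key
  refine ⟨c, hc, fun z => segment ℝ (zm z) (zp z), zp, zm, hfin, fun z hz hzc => ?_,
    fun z hz z' hz' hzc hzc' hne => ?_, k3⟩
  · obtain ⟨-, -, e, hd, hs, hzs, hm, hp⟩ := H z hz hzc
    refine ⟨e, hd, hs, isArc_segment fun h => ?_, hzs, hm, hp⟩
    rw [h] at hm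
    exact lt_asymm hm hp
  · obtain ⟨a, b, -⟩ := H z hz hzc
    obtain ⟨a', b', -⟩ := H z' hz' hzc'
    refine (ball_disjoint_ball ?_).mono b b'
    have h1 := a z' hz' hzc' hne.symm
    have h2 := a' z hz hzc hne
    rw [dist_comm] at h1
    linarith

theorem level_of (_ : MPC) : LEVEL := level

end P073.SF
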