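import Vale.Agent.P073Z.SURF.Scx.Fan

/-!
# Two-dimensional complexes that are surfaces
-/

open Set Metric Topology Filter

namespace P073.SF

variable {E : Type} [NormedAddCommGroup E] [NormedSpace ℝ E]

/-- the half of an arc that starts at a vertex -/
theorem half_arc (X : RCx E) {v₀ a : X.ι} {v : E} (h0 : X.dim v₀ = 0) (hv : X.cell v₀ = {v})
    (ha : X.dim a = 1) (hva : v ∈ X.cell a) :
    ∃ m ρ, IsArc ρ v m ∧ ρ ⊆ X.cell a ∧ ∀ x ∈ ρ, x = v ∨ x ∈ X.ocell a := by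
  have hb : v ∈ X.bd a := X.subset_bd_of_dim_lt (j := v₀) (i := a)
    (by rw [hv]; exact singleton_subset_iff.2 hva) (by omega) (by rw [hv]; rfl)
  obtain ⟨w, hw, hbd⟩ : ∃ w, IsArc (X.cell a) v w ∧ X.bd a = {v, w} := by
    obtain ⟨p, q, -, -, h1, h2, -⟩ := X.exists_edge ha
    rw [h2] at hb
    rcases hb with rfl | rfl
    · exact ⟨q, h1, h2⟩
    · exact ⟨p, h1.symm, h2.trans (pair_comm _ _)⟩
  obtain ⟨m, hm, hm'⟩ := A12.arc_inner_nonempty hw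
  obtain ⟨A₁, A₂, h1, h2, h3, h4⟩ :=
    A12.arc_split hw hm (fun e => hm' (Or.inl e)) (fun e => hm' (Or.inr e))
  have hs : A₁ ⊆ X.cell a := h3 ▸ subset_union_left
  refine ⟨m, A₁, h1, hs, fun x hx => ?_⟩
  by_cases hxv : x = v
  · exact Or.inl hxv
  · refine Or.inr ⟨hs hx, fun hxb => ?_⟩
    rw [hbd] at hxb
    rcases hxb with rfl | rfl
    · exact hxv rfl
    · have h5 : x ∈ A₁ ∩ A₂ := ⟨hx, h2.right_mem⟩
      rw [h4] at h5
      exact h2.ne (Eq.symm h5)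

/-- a two-cell has exactly two arcs at each of its vertices -/
theorem two_arcs [FiniteDimensional ℝ E] (X : RCx E) {v₀ d : X.ι} (h0 : X.dim v₀ = 0)
    (hd : X.dim d = 2) (hs : X.cell v₀ ⊆ X.cell d) :
    Two (fun a => X.dim a = 1 ∧ X.cell v₀ ⊆ X.cell a ∧ X.cell a ⊆ X.cell d) := by
  have hb : ConBall (1 + 1) (X.cell d) (X.bd d) := by
    have := X.ball d
    rwa [hd] at this
  obtain ⟨a₁, a₂, hne, H⟩ := (man X (n := 0) (X.sub_bd d) hb.conSphere.plMan).2.2.2.1 v₀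
    (X.subset_bd_of_dim_lt hs (by omega)) h0
  refine ⟨a₁, a₂, hne, fun a => Iff.trans ⟨?_, ?_⟩ (H a)⟩
  · rintro ⟨h1, h2, h3⟩
    exact ⟨h2, X.subset_bd_of_dim_lt h3 (by omega), h1⟩
  · rintro ⟨h1, h2, h3⟩
    exact ⟨h3, h1, h2.trans (X.bd_subset d)⟩

theorem Two.subtype {δ : Type} {Q : δ → Prop} {P : δ → Prop} (h : Two (fun d => Q d ∧ P d)) :
    Two (fun d : {d // Q d} => P d) := by
  obtain ⟨d₁, d₂, hne, H⟩ := h
  refine ⟨⟨d₁, ((H d₁).2 (Or.inl rfl)).1⟩, ⟨d₂, ((H d₂).2 (Or.inr rfl)).1⟩,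
    fun e => hne (congrArg Subtype.val e), fun d => ?_⟩
  rw [Subtype.ext_iff, Subtype.ext_iff, ← H]
  exact ⟨fun h => ⟨d.2, h⟩, fun h => h.2⟩

theorem scx_vertex [FiniteDimensional ℝ E] (X : RCx E)
    (h1 : ∀ i, ∃ d, X.dim d = 2 ∧ X.cell i ⊆ X.cell d)
    (h2 : ∀ a, X.dim a = 1 → Two (fun d => X.dim d = 2 ∧ X.cell a ⊆ X.cell d))
    {v₀ : X.ι} {v : E} (h0 : X.dim v₀ = 0) (hv : X.cell v₀ = {v})
    (h3 : ∀ c : X.ι → Prop,
      (∀ a d d', X.dim a = 1 → X.dim d = 2 → X.dim d' = 2 → X.cell v₀ ⊆ X.cell a →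
        X.cell a ⊆ X.cell d → X.cell a ⊆ X.cell d' → c d → c d') →
      ∀ d d', X.dim d = 2 → X.dim d' = 2 → X.cell v₀ ⊆ X.cell d → X.cell v₀ ⊆ X.cell d' →
        c d → c d') :
    ∃ C B, ConBall 2 C B ∧ v ∈ C \ B ∧ C ⊆ X.carrier ∧ C ∈ 𝓝[X.carrier] v := by
  have hvi : ∀ i, X.cell v₀ ⊆ X.cell i ↔ v ∈ X.cell i := fun i => by
    rw [hv, singleton_subset_iff]
  have hvc : v ∈ X.carrier := X.cell_subset_carrier v₀ (by rw [hv]; rfl)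
  let α := {a // X.dim a = 1 ∧ X.cell v₀ ⊆ X.cell a}
  let δ := {d // X.dim d = 2 ∧ X.cell v₀ ⊆ X.cell d}
  let inc : α → δ → Prop := fun a d => X.cell a ⊆ X.cell d
  have : Finite δ := ((X.finite_cofaces v₀).subset fun d (hd : X.dim d = 2 ∧
    X.cell v₀ ⊆ X.cell d) => hd.2).to_subtype
  have : Nonempty δ := let ⟨d, hd⟩ := h1 v₀; ⟨⟨d, hd⟩⟩
  have hρ : ∀ a : α, ∃ m ρ, IsArc ρ v m ∧ ρ ⊆ X.cell a ∧ ∀ x ∈ ρ, x = v ∨ x ∈ X.ocell a :=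
    fun a => half_arc X h0 hv a.2.1 ((hvi a).1 a.2.2)
  choose m ρ hρ1 hρ2 hρ3 using hρ
  have hρρ : ∀ a a' : α, a ≠ a' → ρ a ∩ ρ a' ⊆ {v} := by
    rintro a a' hne x ⟨hx, hx'⟩
    rcases hρ3 a x hx with h | h
    · exact h
    · rcases hρ3 a' x hx' with h' | h'
      · exact h'
      · exact (hne (Subtype.ext (X.ocell_unique h h'))).elim
  have htwo : ∀ d : δ, Two (fun a => inc a d) := fun d => by
    refine Two.subtype (Q := fun a => X.dim a = 1 ∧ X.cell v₀ ⊆ X.cell a)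
      (P := fun a => X.cell a ⊆ X.cell d) ?_
    simpa only [and_assoc] using two_arcs X h0 d.2.1 d.2.2
  have hW : ∀ d : δ, ∃ W Bd, ConBall 2 W Bd ∧ W ⊆ X.cell d ∧ (∀ a, inc a d → ρ a ⊆ Bd) ∧
      (∀ x ∈ W, x ∈ X.bd d → ∃ a, inc a d ∧ x ∈ ρ a) ∧ W ∈ 𝓝[X.cell d] v := by
    intro d
    obtain ⟨a, a', hne, H⟩ := htwo d
    have hb : ConBall 2 (X.cell d) (X.bd d) := by
      have := X.ball d
      rwa [d.2.1] at this
    have hs : ∀ b : α, inc b d → ρ b ⊆ X.bd d := fun b hb =>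
      (hρ2 b).trans (X.subset_bd_of_dim_lt hb (by rw [b.2.1, d.2.1]; omega))
    have ha := (H a).2 (Or.inl rfl)
    have ha' := (H a').2 (Or.inr rfl)
    obtain ⟨W, γ, -, k1, k2, k3, -, k4⟩ := cut_disc hb
      ((hρ1 a).symm.trans (hρ1 a') (hρρ a a' hne)) (union_subset (hs a ha) (hs a' ha'))
    refine ⟨W, _, k1, k2, fun b hb => ?_, fun x hx hxb => ?_,
      k4 v (Or.inl (hρ1 a).left_mem) (hρ1 a).ne (hρ1 a').ne⟩
    · rcases (H b).1 hb with rfl | rfl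
      · exact fun x hx => Or.inr (Or.inl hx)
      · exact fun x hx => Or.inr (Or.inr hx)
    · have h5 : x ∈ ρ a ∪ ρ a' := k3 ▸ (⟨hx, hxb⟩ : x ∈ W ∩ X.bd d)
      exact h5.elim (fun h => ⟨a, ha, h⟩) fun h => ⟨a', ha', h⟩
  choose W Bd w1 w2 w3 w4 w5 using hW
  have hF : Fan inc v m ρ W Bd := by
    refine ⟨hρ1, hρρ, w1, fun a d => w3 d a, fun a => ?_, htwo, fun d d' hne x hx hx' => ?_,
      fun T hT d d' hd => ?_⟩
    · refine Two.subtype (Q := fun d => X.dim d = 2 ∧ X.cell v₀ ⊆ X.cell d)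
        (P := fun d => X.cell a ⊆ X.cell d) ?_
      obtain ⟨d₁, d₂, hne, H⟩ := h2 a a.2.1
      refine ⟨d₁, d₂, hne, fun d => Iff.trans ⟨?_, ?_⟩ (H d)⟩
      · exact fun h => ⟨h.1.1, h.2⟩
      · exact fun h => ⟨⟨h.1, a.2.2.trans h.2⟩, h.2⟩
    · obtain ⟨a, ha, hxa⟩ := w4 d x hx (X.inter_subset_bd (fun e => hne (Subtype.ext e))
        (by rw [d.2.1, d'.2.1]) ⟨w2 d hx, w2 d' hx'⟩)
      rcases hρ3 a x hxa with h | h
      · exact Or.inl h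
      · exact Or.inr ⟨a, ha, X.cell_subset_of_mem h (w2 d' hx'), hxa⟩
    · obtain ⟨_, h⟩ := h3 (fun i => ∃ h : X.dim i = 2 ∧ X.cell v₀ ⊆ X.cell i, (⟨i, h⟩ : δ) ∈ T)
        (fun a e e' ha he he' s s₁ s₂ hc => ⟨⟨he', s.trans s₂⟩,
          hT ⟨a, ha, s⟩ ⟨e, hc.1⟩ ⟨e', he', s.trans s₂⟩ s₁ s₂ hc.2⟩)
        d d' d.2.1 d'.2.1 d.2.2 d'.2.2 ⟨d.2, hd⟩
      exact h
  obtain ⟨B, hB, hvB⟩ := hF.disc
  have hn : (⋃ d, W d) ∈ 𝓝[X.carrier] v := by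
    have h6 : ∀ᶠ y in 𝓝 v, ∀ d : δ, y ∈ X.cell d → y ∈ W d :=
      eventually_all.2 fun d => eventually_nhdsWithin_iff.1 (w5 d)
    filter_upwards [mem_nhdsWithin_of_mem_nhds (X.eventually_star hvc),
      mem_nhdsWithin_of_mem_nhds h6, self_mem_nhdsWithin] with y hy hy' hyc
    obtain ⟨i, hi⟩ := X.mem_carrier.1 hyc
    obtain ⟨d, hd, hs⟩ := h1 i
    exact mem_iUnion.2 ⟨⟨d, hd, (hvi d).2 (hy d (hs hi))⟩, hy' _ (hs hi)⟩
  exact ⟨_, B, hB, ⟨mem_of_mem_nhdsWithin hvc hn, hvB⟩,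
    iUnion_subset fun d => (w2 d).trans (X.cell_subset_carrier d), hn⟩

theorem scx : SCX := by
  intro E _ _ _ X h1 h2 h3 x hx
  obtain ⟨i, hi⟩ := X.exists_ocell hx
  have hle : ∀ j, X.dim j ≤ 2 := fun j => let ⟨_, hd, hs⟩ := h1 j; hd ▸ X.dim_le hs
  have hb : ∀ d, X.dim d = 2 → ConBall 2 (X.cell d) (X.bd d) := fun d hd => hd ▸ X.ball d
  obtain h0 | h0 | h0 : X.dim i = 0 ∨ X.dim i = 1 ∨ X.dim i = 2 := by
    have := hle i
    omega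
  · obtain ⟨v, hv⟩ := X.exists_vertex h0
    have hxv : x = v := by
      have := hi.1
      rwa [hv] at this
    exact hxv ▸ scx_vertex X h1 h2 h0 hv (h3 i h0)
  · obtain ⟨d₁, d₂, hne, H⟩ := h2 i h0
    obtain ⟨e1, s1⟩ := (H d₁).2 (Or.inl rfl)
    obtain ⟨e2, s2⟩ := (H d₂).2 (Or.inr rfl)
    obtain ⟨p, q, -, -, ha, hbd, -⟩ := X.exists_edge h0
    have hx' : x ∉ ({p, q} : Set E) := hbd ▸ hi.2
    obtain ⟨C, B, k1, k2, k3, k4⟩ := glue2 (hb d₁ e1) (hb d₂ e2) ha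
      (X.subset_bd_of_dim_lt s1 (by omega)) (X.subset_bd_of_dim_lt s2 (by omega))
      (X.inter_subset_bd hne (by omega))
      (by rw [inter_comm]; exact X.inter_subset_bd hne.symm (by omega)) hi.1
      (fun e => hx' (Or.inl e)) (fun e => hx' (Or.inr e))
    refine ⟨C, B, k1, k2,
      k3.trans (union_subset (X.cell_subset_carrier _) (X.cell_subset_carrier _)), ?_⟩
    refine nhdsWithin_le_of_mem ?_ k4
    filter_upwards [mem_nhdsWithin_of_mem_nhds (X.eventually_coface hi), self_mem_nhdsWithin]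
      with y hy hyc
    obtain ⟨j, hj⟩ := X.mem_carrier.1 hyc
    obtain ⟨d, hd, hs⟩ := h1 j
    rcases (H d).1 ⟨hd, hy d (hs hj)⟩ with rfl | rfl
    · exact Or.inl (hs hj)
    · exact Or.inr (hs hj)
  · exact ⟨_, _, hb i h0, hi, X.cell_subset_carrier i,
      X.sub_carrier.cell_mem_nhdsWithin hi fun j _ _ => h0 ▸ hle j⟩

end P073.SF
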