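import Vale.Agent.P073Z.SURF.Comb
import Vale.Agent.P073Z.SURF.Scx
import Vale.Agent.P073Z.MAN

/-!
# First properties of the normal surface
-/

open Set Metric Topology Filter

namespace P073.SF

namespace Nm

section Gen

variable {E : Type} [NormedAddCommGroup E] [NormedSpace ℝ E]

theorem bd_nonempty {n : ℕ} {C B : Set E} (h : ConBall (n + 1) C B) : B.Nonempty := by
  obtain ⟨-, φ, hφ⟩ := h
  have k : (sphere (0 : Fin (n + 1) → ℝ) 1).Nonempty :=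
    NormedSpace.sphere_nonempty.2 zero_le_one
  rw [← hφ] at k
  exact k.of_image

/-- every cell contains a vertex -/
theorem exists_vtx (K : RCx E) (i : K.ι) : (K.cell i ∩ K.skel 0).Nonempty := by
  induction hn : K.dim i using Nat.strong_induction_on generalizing i with
  | _ n ih =>
    rcases n with _ | n
    · obtain ⟨x, hx⟩ := K.cell_nonempty i
      exact ⟨x, hx, K.cell_subset_skel hn.le hx⟩
    · obtain ⟨x, hx⟩ := bd_nonempty (hn ▸ K.ball i)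
      obtain ⟨j, -, h2, h3⟩ := K.exists_face_bd hx
      obtain ⟨y, k1, k2⟩ := ih _ (hn ▸ h3) j rfl
      exact ⟨y, K.bd_subset i (h2 k1), k2⟩

/-- a ball neighbourhood can be shrunk into an open set -/
theorem shrink {n : ℕ} {S W C B : Set E} {x : E} (hW : IsOpen W) (hx : x ∈ W) (h : ConBall n C B)
    (hxC : x ∈ C \ B) (hS : C ⊆ S) (hn : C ∈ 𝓝[S] x) :
    ∃ C' B' : Set E, ConBall n C' B' ∧ x ∈ C' \ B' ∧ C' ⊆ W ∩ S ∧ C' ∈ 𝓝[W ∩ S] x := by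
  obtain ⟨C', B', k1, k2, k3, k4⟩ := h.plMan.small hxC
    (mem_nhdsWithin_of_mem_nhds (hW.mem_nhds hx))
  refine ⟨C', B', k1, k2, fun y hy => ⟨(k3 hy).2, hS (k3 hy).1.1⟩, ?_⟩
  refine nhdsWithin_mono x inter_subset_right (nhdsWithin_le_of_mem ?_ k4)
  exact inter_mem hn (mem_nhdsWithin_of_mem_nhds
    (h.isCompact_bdry.isClosed.isOpen_compl.mem_nhds hxC.2))

omit [NormedSpace ℝ E] in
/-- near a point only the members of a finite closed family through the point are seen -/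
theorem nhds_fin {ι : Type} (J : Finset ι) (S : ι → Set E) (hS : ∀ a ∈ J, IsClosed (S a))
    {x : E} {D : Set E} (h : ∀ a ∈ J, x ∈ S a → S a ⊆ D) : D ∈ 𝓝[⋃ a ∈ J, S a] x := by
  have k : ∀ a ∈ J, ∀ᶠ y in 𝓝 x, y ∈ S a → y ∈ D := fun a ha => by
    by_cases o : x ∈ S a
    · exact Eventually.of_forall fun y hy => h a ha o hy
    · exact mem_of_superset ((hS a ha).isOpen_compl.mem_nhds o) fun y hy hy' => absurd hy' hy
  refine eventually_nhdsWithin_iff.2 (((J.eventually_all).2 k).mono fun y hy o => ?_)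
  obtain ⟨a, o1, o2⟩ := mem_iUnion₂.1 o
  exact hy a o1 o2

end Gen

variable {T : RCx E3} {ψ : E3 → ℝ} {c : ℝ} {I : E3 → Set E3} {zp zm : E3 → E3} {W : Set E3}

/-- every cell of dimension at most two lies in a two-cell -/
theorem exists_face (hO : IsOpen T.carrier) {e : T.ι} (he : T.dim e ≤ 2) :
    ∃ F, T.dim F = 2 ∧ T.cell e ⊆ T.cell F := by
  obtain ⟨Q, h1, -, h3⟩ := (man T (n := 2) T.sub_carrier (plMan_open hO)).2.1 e
    (T.cell_subset_carrier e)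
  have h4 : ConBall (2 + 1) (T.cell Q) (T.bd Q) := h3 ▸ T.ball Q
  obtain ⟨F, k1, -, k3⟩ := (man T (n := 1) (T.sub_bd Q) h4.conSphere.plMan).2.1 e
    (T.subset_bd_of_dim_lt h1 (by omega))
  exact ⟨F, k3, k1⟩

theorem face_at (hO : IsOpen T.carrier) {z : E3} (hz : z ∈ T.skel 1) :
    ∃ F, T.dim F = 2 ∧ z ∈ T.cell F := by
  obtain ⟨e, h1, h2⟩ := T.mem_skel.1 hz
  obtain ⟨F, k1, k2⟩ := exists_face hO (e := e) (by omega)
  exact ⟨F, k1, k2 h2⟩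

variable (N : Nrm T ψ c I zp zm W)

theorem host_mono {i j : N.X.ι} (h : N.X.cell i ⊆ N.X.cell j) :
    T.cell (N.host i) ⊆ T.cell (N.host j) := by
  obtain ⟨x, hx⟩ := N.X.ocell_nonempty i
  exact T.cell_subset_of_mem (N.host_ocell i hx) (N.host_cell j (h hx.1))

theorem dim_le (hO : IsOpen T.carrier) (i : N.X.ι) : N.X.dim i ≤ 2 := by
  have h := (man T (n := 2) T.sub_carrier (plMan_open hO)).1 _ (T.cell_subset_carrier (N.host i))
  rw [N.host_dim] at h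
  omega

theorem host2 {a : N.X.ι} (ha : N.X.dim a = 1) : T.dim (N.host a) = 2 := by rw [N.host_dim, ha]

theorem host3 {d : N.X.ι} (hd : N.X.dim d = 2) : T.dim (N.host d) = 3 := by rw [N.host_dim, hd]

/-- two caps in the same three-cell with a common point are equal -/
theorem cap_eq {d d' : N.X.ι} (hd : N.X.dim d = 2) (hd' : N.X.dim d' = 2)
    (h : N.host d = N.host d') {x : E3} (hx : x ∈ N.X.cell d) (hx' : x ∈ N.X.cell d') : d = d' :=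
  by_contra fun o => disjoint_left.1 (N.room_disj d d' hd hd' o h) hx hx'

theorem strip_eq {a a' : N.X.ι} (ha : N.X.dim a = 1) (ha' : N.X.dim a' = 1)
    (h : N.host a = N.host a') {x : E3} (hx : x ∈ N.strip a) (hx' : x ∈ N.strip a') : a = a' :=
  by_contra fun o => disjoint_left.1 (N.strip_disj a a' ha ha' o h) hx hx'

theorem cell_sub {a : N.X.ι} (ha : N.X.dim a = 1) : N.X.cell a ⊆ W ∩ N.strip a := by
  obtain ⟨p, q, h⟩ := N.arc a ha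
  exact h.2.2.1

theorem zero_of_bd {a : N.X.ι} (ha : N.X.dim a = 1) {z : E3} (hz : z ∈ N.X.bd a) :
    z ∈ T.skel 1 ∧ ψ z = c := (N.vert z).1 (N.X.bd_subset_skel (k := 0) ha.le hz)

theorem bd_of_zero {a : N.X.ι} (ha : N.X.dim a = 1) {z : E3} (hz : z ∈ N.X.cell a)
    (h1 : z ∈ T.skel 1) (h2 : ψ z = c) : z ∈ N.X.bd a :=
  N.X.cell_inter_skel (k := 0) ha ▸ ⟨hz, (N.vert z).2 ⟨h1, h2⟩⟩

theorem carrier_sub : N.X.carrier ⊆ T.carrier := fun _ hx =>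
  let ⟨i, hi⟩ := N.X.mem_carrier.1 hx
  T.cell_subset_carrier _ (N.host_cell i hi)

theorem arc_cap (hO : IsOpen T.carrier) {a : N.X.ι} (ha : N.X.dim a = 1) :
    ∃ d₁ d₂, d₁ ≠ d₂ ∧ ∀ d, (N.X.dim d = 2 ∧ N.X.cell a ⊆ N.X.cell d) ↔ (d = d₁ ∨ d = d₂) := by
  obtain ⟨Q₁, Q₂, hne, k⟩ := (man T (n := 2) T.sub_carrier (plMan_open hO)).2.2.2.1 _
    (T.cell_subset_carrier (N.host a)) (host2 N ha)
  have q1 := (k Q₁).2 (Or.inl rfl)
  have q2 := (k Q₂).2 (Or.inr rfl)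
  obtain ⟨d₁, a1, a2, a3⟩ := N.at_room a Q₁ ha q1.2.2 q1.1
  obtain ⟨d₂, b1, b2, b3⟩ := N.at_room a Q₂ ha q2.2.2 q2.1
  obtain ⟨x, hx⟩ := N.X.cell_nonempty a
  refine ⟨d₁, d₂, fun e => hne (by rw [← a2, ← b2, e]), fun d => ⟨fun h => ?_, ?_⟩⟩
  · rcases (k (N.host d)).1 ⟨host_mono N h.2, T.cell_subset_carrier _, host3 N h.1⟩ with o | o
    · exact Or.inl (cap_eq N h.1 a1 (o.trans a2.symm) (h.2 hx) (a3 hx))
    · exact Or.inr (cap_eq N h.1 b1 (o.trans b2.symm) (h.2 hx) (b3 hx))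
  · rintro (rfl | rfl)
    exacts [⟨a1, a3⟩, ⟨b1, b3⟩]

theorem plMan (hS : SCX) (hO : IsOpen T.carrier) : PLMan 2 N.X.carrier := by
  have h1 : ∀ a, N.X.dim a = 1 → ∃ d, N.X.dim d = 2 ∧ N.X.cell a ⊆ N.X.cell d := fun a ha =>
    let ⟨d, _, _, k⟩ := arc_cap N hO ha
    ⟨d, (k d).2 (Or.inl rfl)⟩
  have h0 : ∀ v, N.X.dim v = 0 → ∃ z, N.X.cell v = {z} ∧ z ∈ T.skel 1 ∧ ψ z = c := fun v hv =>
    let ⟨z, hz⟩ := N.X.exists_vertex hv
    ⟨z, hz, (N.vert z).1 (N.X.cell_subset_skel hv.le (hz ▸ mem_singleton z))⟩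
  refine hS N.X (fun i => ?_) (fun a ha => arc_cap N hO ha) fun v hv P hP d d' hd hd' s s' o => ?_
  · have k := dim_le N hO i
    rcases (by omega : N.X.dim i = 0 ∨ N.X.dim i = 1 ∨ N.X.dim i = 2) with o | o | o
    · obtain ⟨z, k1, k2, k3⟩ := h0 i o
      obtain ⟨F, k4, k5⟩ := face_at hO k2
      obtain ⟨a, k6, -, k7⟩ := N.at_face z k2 k3 F k4 k5
      obtain ⟨d, k8, k9⟩ := h1 a k6
      exact ⟨d, k8, k1 ▸ singleton_subset_iff.2 (k9 k7)⟩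
    · exact h1 i o
    · exact ⟨i, o, Subset.rfl⟩
  · obtain ⟨z, k1, k2, k3⟩ := h0 v hv
    rw [k1, singleton_subset_iff] at s s'
    obtain ⟨e, e1, e2, e3, e4⟩ := (man T (n := 2) T.sub_carrier (plMan_open hO)).2.2.2.2 z
      (T.skel_subset_carrier 1 k2)
      (fun Q => ∃ e, N.X.dim e = 2 ∧ N.host e = Q ∧ z ∈ N.X.cell e ∧ P e)
      (fun F Q Q' hz hF hQ hQ' _ _ q q' ⟨e, e1, e2, e3, e4⟩ => by
        obtain ⟨a, a1, a2, a3⟩ := N.at_face z k2 k3 F hF hz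
        obtain ⟨g, g1, g2, g3⟩ := N.at_room a Q a1 q (a2 ▸ hQ)
        obtain ⟨g', g4, g5, g6⟩ := N.at_room a Q' a1 q' (a2 ▸ hQ')
        refine ⟨g', g4, g5, g6 a3, hP a g g' a1 g1 g4 ?_ g3 g6 ?_⟩
        · exact k1 ▸ singleton_subset_iff.2 a3
        · exact cap_eq N e1 g1 (e2.trans g2.symm) e3 (g3 a3) ▸ e4)
      (N.host d) (N.host d') (N.host_cell d s) (N.host_cell d' s') (T.cell_subset_carrier _)
      (T.cell_subset_carrier _) (host3 N hd) (host3 N hd') ⟨d, hd, rfl, s, o⟩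
    exact cap_eq N e1 hd' e2 e3 s' ▸ e4

theorem lfIn : LFIn N.X.cell T.carrier := fun x hx => by
  obtain ⟨U, h1, h2⟩ := T.lfIn x hx
  refine ⟨U, h1, (h2.biUnion fun j _ => N.host_fin j).subset fun i ⟨y, k1, k2⟩ => ?_⟩
  exact mem_iUnion₂.2 ⟨N.host i, ⟨y, N.host_cell i k1, k2⟩, rfl⟩

/-- the boundary of a strip -/
theorem strip_data {a : N.X.ι} (ha : N.X.dim a = 1) : ∃ B, ConBall 2 (N.strip a) B ∧
    N.strip a ⊆ T.cell (N.host a) ∧ (∀ z ∈ N.X.bd a, I z ⊆ B ∧ zp z ∉ W ∧ zm z ∉ W) ∧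
    (∀ x ∈ N.strip a, x ∈ T.bd (N.host a) → ∃ z ∈ N.X.bd a, x ∈ I z) ∧
    ∀ x ∈ B, x ∈ W → x ∈ T.bd (N.host a) := by
  obtain ⟨p, q, h1, -, -, h4, h5, h6, h7, h8, -, -, -, -, h9, -⟩ := N.arc a ha
  rw [disjoint_left] at h9
  refine ⟨_, h4, h5, fun z hz => ?_, fun x hx hb => ?_, fun x hx hW => ?_⟩
  · rw [h1] at hz
    rcases hz with rfl | rfl
    · exact ⟨fun y hy => Or.inl (Or.inl (Or.inl hy)), h9 (Or.inl h7.left_mem),
        h9 (Or.inr h8.left_mem)⟩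
    · exact ⟨fun y hy => Or.inl (Or.inl (Or.inr hy)), h9 (Or.inl h7.right_mem),
        h9 (Or.inr h8.right_mem)⟩
  · rw [h1]
    rcases (h6 ▸ ⟨hx, hb⟩ : x ∈ I p ∪ I q) with o | o
    exacts [⟨p, Or.inl rfl, o⟩, ⟨q, Or.inr rfl, o⟩]
  · rcases hx with (o | o) | o
    · exact (h6.symm ▸ o : x ∈ N.strip a ∩ T.bd (N.host a)).2
    · exact absurd hW (h9 (Or.inl o))
    · exact absurd hW (h9 (Or.inr o))

theorem strip_in {a : N.X.ι} {F : T.ι} (ha : N.X.dim a = 1) (hF : T.dim F = 2) {p : E3}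
    (hW : p ∈ W) (hp : p ∈ T.ocell F) (hs : p ∈ N.strip a) :
    N.host a = F ∧ N.strip a ∈ 𝓝[T.cell F] p ∧
      ∀ a', N.X.dim a' = 1 → p ∈ N.strip a' → a' = a := by
  have key : ∀ a', N.X.dim a' = 1 → p ∈ N.strip a' → N.host a' = F := fun a' h1 h2 => by
    obtain ⟨B, -, k, -⟩ := strip_data N h1
    exact (T.eq_of_subset_of_dim_le (T.cell_subset_of_mem hp (k h2))
      (by rw [hF, host2 N h1])).symm
  have e := key a ha hs
  refine ⟨e, ?_, fun a' h1 h2 => strip_eq N h1 ha ((key a' h1 h2).trans e.symm) h2 hs⟩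
  obtain ⟨B, k1, k2, -, -, k3⟩ := strip_data N ha
  rw [e] at k2 k3
  obtain ⟨Δ, -, -, o1, -, o2, -⟩ := cid (hF ▸ T.ball F) k1.isCircleD (k1.1.trans k2)
  rw [← o1 _ k2 k1] at o2
  exact o2 p ⟨hs, fun o => hp.2 (k3 p o hW)⟩

theorem annulus (hG : GLUE2) (hL : Lev T ψ c I zp zm) (hW : IsOpen W) {J : Finset N.X.ι}
    (hJ : Circ N.X J) : PLMan 2 (W ∩ ⋃ a ∈ J, N.strip a) := by
  rintro x ⟨hx, hx'⟩
  obtain ⟨a, haJ, hxa⟩ := mem_iUnion₂.1 hx'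
  have ha := hJ.1 a haJ
  have hcl : ∀ a ∈ J, IsClosed (N.strip a) := fun a h =>
    let ⟨_, k, _⟩ := strip_data N (hJ.1 a h)
    k.isClosed
  have hsub : ∀ a ∈ J, N.strip a ⊆ ⋃ a ∈ J, N.strip a := fun a h =>
    subset_iUnion₂ (s := fun a (_ : a ∈ J) => N.strip a) a h
  obtain ⟨B, k1, k2, k3, k4, k5⟩ := strip_data N ha
  by_cases hb : x ∈ T.bd (N.host a)
  · obtain ⟨z, hz, hxz⟩ := k4 x hxa hb
    obtain ⟨z1, z2⟩ := zero_of_bd N ha hz
    obtain ⟨e, e1, e2, e3, -⟩ := hL.arc z z1 z2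
    obtain ⟨v, v1, v2⟩ := N.X.vertex_of_mem_bd ha hz
    have hC : ∀ b ∈ J, N.X.cell b ⊆ ⋃ a ∈ J, N.X.cell a := fun b h =>
      subset_iUnion₂ (s := fun a (_ : a ∈ J) => N.X.cell a) b h
    obtain ⟨a₁, a₂, hne, k⟩ := RCx.Sub.two_edges man (N.X.sub_biUnion fun a => a ∈ J) hJ.2 v1
      (v2 ▸ singleton_subset_iff.2 (hC a haJ (N.X.bd_subset a hz)))
    rw [v2] at k
    have dat : ∀ b, b = a₁ ∨ b = a₂ → b ∈ J ∧ z ∈ N.X.cell b := fun b o => by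
      obtain ⟨o1, o2, o3⟩ := (k b).2 o
      obtain ⟨y, hy⟩ := N.X.ocell_nonempty b
      obtain ⟨b', o4, o5⟩ := mem_iUnion₂.1 (o2 hy.1)
      exact ⟨N.X.eq_of_subset_of_dim_le (N.X.cell_subset_of_mem hy o5)
        (by rw [o3, hJ.1 b' o4]) ▸ o4, singleton_subset_iff.1 o1⟩
    obtain ⟨m1, m2⟩ := dat a₁ (Or.inl rfl)
    obtain ⟨m3, m4⟩ := dat a₂ (Or.inr rfl)
    have d1 := hJ.1 a₁ m1
    have d2 := hJ.1 a₂ m3
    have hh : N.host a₁ ≠ N.host a₂ := fun o =>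
      hne (strip_eq N d1 d2 o (cell_sub N d1 m2).2 (cell_sub N d2 m4).2)
    obtain ⟨B₁, s1, s2, s3, s4, -⟩ := strip_data N d1
    obtain ⟨B₂, t1, t2, t3, t4, -⟩ := strip_data N d2
    obtain ⟨C, B', c1, c2, c3, c4⟩ := hG s1 t1 e3 (s3 z (bd_of_zero N d1 m2 z1 z2)).1
      (t3 z (bd_of_zero N d2 m4 z1 z2)).1
      (fun y hy => let ⟨w, o1, o2⟩ := s4 y hy.1 (T.inter_subset_bd hh
        (by rw [host2 N d1, host2 N d2]) ⟨s2 hy.1, t2 hy.2⟩); (s3 w o1).1 o2)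
      (fun y hy => let ⟨w, o1, o2⟩ := t4 y hy.2 (T.inter_subset_bd hh.symm
        (by rw [host2 N d1, host2 N d2]) ⟨t2 hy.2, s2 hy.1⟩); (t3 w o1).1 o2)
      hxz (fun o => (k3 z hz).2.2 (o ▸ hx)) (fun o => (k3 z hz).2.1 (o ▸ hx))
    refine shrink hW hx c1 c2 (c3.trans (union_subset (hsub _ m1) (hsub _ m3)))
      (nhdsWithin_le_of_mem (nhds_fin J N.strip hcl fun b hb' o => ?_) c4)
    have d3 := hJ.1 b hb'
    obtain ⟨B₃, -, r2, -, r4, -⟩ := strip_data N d3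
    obtain ⟨w, o1, o2⟩ := r4 x o (T.cell_inter_skel (k := 1) (host2 N d3) ▸
      ⟨r2 o, T.cell_subset_skel e1.le (e2 hxz).1⟩)
    obtain ⟨w1, w2⟩ := zero_of_bd N d3 o1
    have ew : w = z := by_contra fun o3 =>
      disjoint_left.1 (hL.disj w w1 z z1 w2 z2 o3) o2 hxz
    rcases (k b).1 ⟨singleton_subset_iff.2 (N.X.bd_subset b (ew ▸ o1)), hC b hb', d3⟩ with rfl | rfl
    exacts [subset_union_left, subset_union_right]
  · refine shrink hW hx k1 ⟨hxa, fun o => hb (k5 x o hx)⟩ (hsub a haJ)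
      (nhds_fin J N.strip hcl fun b hb' o => ?_)
    rw [(strip_in N ha (host2 N ha) hx ⟨k2 hxa, hb⟩ hxa).2.2 b (hJ.1 b hb') o]

end Nm

theorem nman_of (hS : SCX) : NMAN := by
  intro T ψ c I zp zm W N _ hO _
  refine ⟨Nm.plMan N hS hO, Nm.carrier_sub N, Nm.lfIn N, fun x hx h => ?_, fun x hx i hi => ?_,
    fun d hd x hx => ?_⟩
  · obtain ⟨i, hi⟩ := N.X.exists_ocell hx
    have k := (T.mem_skel_iff_dim (N.host_ocell i hi)).1 h
    rw [N.host_dim] at k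
    exact ((N.vert x).1 (N.X.cell_subset_skel (by omega) hi.1)).2
  · obtain ⟨j, hj⟩ := N.X.exists_ocell hx
    obtain ⟨z, k1, k2⟩ := Nm.exists_vtx N.X j
    exact ⟨z, T.cell_subset_of_mem (N.host_ocell j hj) hi (N.host_cell j k1), ((N.vert z).1 k2).2⟩
  · obtain ⟨a, k1, -, k2⟩ := RCx.Sub.exists_edge man (N.X.sub_bd d) (RCx.circle_bd hd) hx
    exact (Nm.cell_sub N k1 k2).1

theorem annu_of (hG : GLUE2) : ANNU := fun _ _ _ _ _ _ _ N _ _ hL hW =>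
  ⟨fun _ hJ => Nm.annulus N hG hL hW hJ, fun _ _ ha hF _ hp h1 h2 => Nm.strip_in N ha hF hp h1 h2⟩

theorem nman : NMAN := nman_of scx

theorem annu57 : ANNU := annu_of glue2

end P073.SF
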