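import Vale.Agent.P073Z.SURF.Sk
import Vale.Agent.P073Z.CS.Cap
import Vale.Agent.P073Z.SHELL
import Vale.Agent.P073Z.MAN.Ex
import Vale.Agent.P073Z.CosFin

/-!
# Disjoint caps over disjoint circles in the boundary of a ball
-/

open Set Metric Topology Filter

namespace P073.SF

/-- escape from a point off a graph to the bottom of a box -/
theorem exists_escape {T : Type} [TopologicalSpace T] {N Δ : Set T} {h : T → ℝ} {ε s : ℝ}
    {x x' : T} (hN : IsPreconnected N) (hx : x ∈ N) (hx' : x' ∈ N) (hΔ : x' ∉ Δ)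
    (hh : ∀ z ∈ N, h z < ε) (hs : s ∈ Icc 0 ε) (hne : x ∈ Δ → s ≠ h x) :
    ∃ K ⊆ N ×ˢ Icc 0 ε, IsPreconnected K ∧ (x, s) ∈ K ∧ (∃ z, (z, (0 : ℝ)) ∈ K) ∧
      ∀ q ∈ K, q.1 ∈ Δ → q.2 ≠ h q.1 := by
  have hε : 0 ≤ ε := hs.1.trans hs.2
  by_cases h1 : s < h x
  · refine ⟨{x} ×ˢ Icc 0 s, prod_mono (singleton_subset_iff.2 hx) (Icc_subset_Icc_right hs.2),
      isPreconnected_singleton.prod isPreconnected_Icc, ⟨rfl, hs.1, le_rfl⟩,
      ⟨x, rfl, le_rfl, hs.1⟩, ?_⟩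
    rintro ⟨a, b⟩ ⟨rfl, hb⟩ -
    exact (hb.2.trans_lt h1).ne
  · refine ⟨{x} ×ˢ Icc s ε ∪ N ×ˢ {ε} ∪ {x'} ×ˢ Icc 0 ε, union_subset (union_subset
      (prod_mono (singleton_subset_iff.2 hx) (Icc_subset_Icc_left hs.1))
      (prod_mono Subset.rfl (singleton_subset_iff.2 ⟨hε, le_rfl⟩)))
      (prod_mono (singleton_subset_iff.2 hx') Subset.rfl), ?_, Or.inl (Or.inl ⟨rfl, le_rfl, hs.2⟩),
      ⟨x', Or.inr ⟨rfl, le_rfl, hε⟩⟩, ?_⟩
    · refine IsPreconnected.union (x', ε) (Or.inr ⟨hx', rfl⟩) ⟨rfl, hε, le_rfl⟩ ?_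
        (isPreconnected_singleton.prod isPreconnected_Icc)
      exact IsPreconnected.union (x, ε) ⟨rfl, hs.2, le_rfl⟩ ⟨hx, rfl⟩
        (isPreconnected_singleton.prod isPreconnected_Icc) (hN.prod isPreconnected_singleton)
    · rintro ⟨a, b⟩ ((⟨rfl, hb⟩ | ⟨ha, rfl⟩) | ⟨rfl, -⟩) hq
      · exact ((lt_of_le_of_ne (not_lt.1 h1) (hne hq).symm).trans_le hb.1).ne'
      · exact (hh a ha).ne'
      · exact absurd hq hΔ

theorem mem_closure_out (hC : COS) {E : Type} [NormedAddCommGroup E] [NormedSpace ℝ E]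
    {S Δ J : Set E} (hS : ConSphere 2 S) (hJ : IsCircle J) (hΔ : ConBall 2 Δ J) (hs : Δ ⊆ S) :
    J ⊆ closure (S \ Δ) := by
  have key : ∀ P Q : Set E, ConBall 2 Q J → P ∪ Q = S → P ∩ Q = J → J ⊆ closure (S \ P) :=
    fun P Q h1 h2 h3 => (h1.1.trans (hC.2.2 h1).2).trans (closure_mono fun y hy =>
      ⟨h2 ▸ Or.inr hy.1, fun h4 => hy.2 (h3 ▸ ⟨h4, hy.1⟩)⟩)
  obtain ⟨P, Q, h1, h2, h3, h4, h5⟩ := hC.1 hS hJ (hΔ.1.trans hs)
  rcases h5 Δ hs hΔ with rfl | rfl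
  · exact key _ _ h2 h3 h4
  · exact key _ _ h1 (union_comm _ _ ▸ h3) (inter_comm _ _ ▸ h4)

theorem caps_of (hC : COS) : CAPS := by
  intro E _ _ _ Q B 𝒥 v hQ hv hJ hd
  have hS := hQ.conSphere
  obtain ⟨Δ, hΔ, hlam⟩ := CSurg.laminar hC 𝒥 (fun J => J) (Γ := {v}) hS
    (fun J h => ⟨(hJ J h).1, (hJ J h).2.1, disjoint_singleton_right.2 (hJ J h).2.2⟩) hd
    isConnected_singleton (singleton_subset_iff.2 hv)
  obtain ⟨h, h1, h2⟩ := cap 𝒥 Δ (fun J => J) one_pos fun i hi => ⟨(hΔ i hi).1.isCompact,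
    (hΔ i hi).1.isCompact_bdry, (hΔ i hi).1.locCone_bdry,
    (A12.circle_isConnected (hJ i hi).1).1, (hΔ i hi).1.1⟩
  obtain ⟨Y, κ, lam, hY, k0, kl, k1, k2, -⟩ := coli hQ
  have hm : ∀ J ∈ 𝒥, ∀ x ∈ Δ J, (x, h J x) ∈ B ×ˢ Icc (0 : ℝ) 1 := fun J hj x hx =>
    ⟨(hΔ J hj).2.1 hx, (h1 J hj).2.1 x⟩
  have hz : ∀ x ∈ B, (x, (0 : ℝ)) ∈ B ×ˢ Icc (0 : ℝ) 1 := fun x hx => ⟨hx, le_rfl, zero_le_one⟩
  refine ⟨fun J => (fun x => κ.toFun (x, h J x)) '' Δ J, fun J hj => ?_,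
    fun J hj J' hj' hne => disjoint_left.2 ?_, fun J hj p hp U hU => ?_⟩
  · have hpl : PLOn (h J) (Δ J) := ⟨(h1 J hj).1.1.mono (subset_univ _),
      (h1 J hj).1.2.mono (hΔ J hj).1.conicalSet (subset_univ _)⟩
    have h3 := ((hΔ J hj).1.image (graphHomeo hpl) Subset.rfl).image κ (by
      rintro _ ⟨x, hx, rfl⟩
      exact hm J hj x hx)
    rw [image_image, image_image] at h3
    have h4 : (fun x => κ.toFun ((graphHomeo hpl).toFun x)) '' J = J := by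
      refine (image_congr fun x hx => ?_).trans (image_id J)
      change κ.toFun (x, h J x) = x
      rw [((h1 J hj).2.2 x).2 hx, k0 x ((hJ J hj).2.1 hx)]
    rw [h4] at h3
    refine ⟨h3, ?_, Subset.antisymm ?_ (subset_inter h3.1 (hJ J hj).2.1)⟩
    · rintro _ ⟨x, hx, rfl⟩
      exact hY (κ.mapsTo (hm J hj x hx))
    · rintro y ⟨⟨x, hx, e⟩, hy⟩
      obtain ⟨rfl, e2⟩ := Prod.ext_iff.1
        (κ.injOn (hm J hj x hx) (hz _ hy) (e.trans (k0 _ hy).symm))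
      exact ((h1 J hj).2.2 _).1 e2
  · rintro _ ⟨x, hx, rfl⟩ ⟨x', hx', e⟩
    obtain ⟨rfl, e2⟩ := Prod.ext_iff.1 (κ.injOn (hm J' hj' x' hx') (hm J hj x hx) e)
    rcases hlam J hj J' hj' hne with k | k | k
    · exact disjoint_left.1 k hx hx'
    · exact (h2 J hj J' hj' k x' hx).ne' e2
    · exact (h2 J' hj' J hj k x' hx').ne e2
  · have hpB := (hJ J hj).2.1 hp
    have hp0 := hz p hpB
    have h3 : κ.toFun ⁻¹' U ∈ 𝓝[B ×ˢ Icc (0 : ℝ) 1] (p, 0) :=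
      κ.cont _ hp0 (by rwa [k0 p hpB])
    obtain ⟨δ, hδ, h4⟩ := Metric.mem_nhdsWithin_iff.1 h3
    set ε := min (δ / 2) 1 with hε
    have hε0 : 0 < ε := lt_min (half_pos hδ) one_pos
    have h5 : ball p δ ∩ {x | h J x < ε} ∈ 𝓝[B] p := mem_nhdsWithin_of_mem_nhds
      (inter_mem (ball_mem_nhds p hδ) ((isOpen_lt (continuousOn_univ.1 (h1 J hj).1.1)
        continuous_const).mem_nhds (by
          change h J p < ε
          rwa [((h1 J hj).2.2 p).2 hp])))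
    obtain ⟨N, L, hN, -, h6, h7⟩ := hS.plMan.small hpB h5
    obtain ⟨x', hx', hx''⟩ : (N ∩ (B \ Δ J)).Nonempty := by
      obtain ⟨O, hO, hpO, h8⟩ := mem_nhdsWithin.1 h7
      obtain ⟨x', a, b⟩ := mem_closure_iff.1
        (mem_closure_out hC hS (hJ J hj).1 (hΔ J hj).1 (hΔ J hj).2.1 hp) O hO hpO
      exact ⟨x', h8 ⟨a, b.1⟩, b⟩
    have hsub : N ×ˢ Icc 0 ε ⊆ B ×ˢ Icc (0 : ℝ) 1 :=
      prod_mono (fun x hx => (h6 hx).1) (Icc_subset_Icc_right (min_le_right _ _))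
    have hpY : p ∈ Y := k0 p hpB ▸ κ.mapsTo hp0
    have hi : κ.invFun p = (p, 0) := by
      have := κ.left_inv hp0
      rwa [k0 p hpB] at this
    have h8 : ∀ᶠ y in 𝓝[Y] p, κ.invFun y ∈ N ×ˢ Icc 0 ε := by
      have h9 : N ×ˢ Icc 0 ε ∈ 𝓝[B ×ˢ Icc (0 : ℝ) 1] (p, 0) := by
        rw [nhdsWithin_prod_eq]
        refine prod_mem_prod h7 (mem_of_superset
          (inter_mem_nhdsWithin _ (Iio_mem_nhds hε0)) fun s hs => ⟨hs.1.1, le_of_lt hs.2⟩)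
      have h10 := (κ.cont_inv p hpY).tendsto_nhdsWithin κ.mapsTo_inv
      rw [hi] at h10
      exact h10 h9
    have h9 : ∀ᶠ y in 𝓝[Q] p, lam y < 1 := by
      have h10 := k1 p hpB 0 ⟨le_rfl, zero_le_one⟩
      rw [k0 p hpB] at h10
      exact (kl.1 p (hQ.1 hpB)).eventually (Iio_mem_nhds (by rw [h10]; exact one_pos))
    filter_upwards [eventually_nhdsWithin_iff.1 h8, eventually_nhdsWithin_iff.1 h9]
      with y a b hyQ hyD
    have hyY : y ∈ Y := by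
      by_contra h10
      exact (b hyQ).ne (k2 y ⟨hyQ, h10⟩)
    obtain ⟨K, c1, c2, c3, ⟨z, c4⟩, c5⟩ := exists_escape (h := h J) hN.isConnected.2 (a hyY).1 hx'
      hx''.2 (fun z hz => (h6 hz).2.2) (a hyY).2 fun h10 h11 => hyD ⟨_, h10, by
        beta_reduce
        rw [← h11]
        exact κ.right_inv hyY⟩
    refine ⟨κ.toFun '' K, ?_, c2.image _ (κ.cont.mono (c1.trans hsub)),
      ⟨_, c3, κ.right_inv hyY⟩, z, ⟨_, c4, k0 z (hsub (c1 c4)).1⟩, (hsub (c1 c4)).1⟩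
    rintro _ ⟨q, hq, rfl⟩
    refine ⟨⟨h4 ⟨?_, hsub (c1 hq)⟩, hY (κ.mapsTo (hsub (c1 hq)))⟩, ?_⟩
    · rw [mem_ball, Prod.dist_eq, max_lt_iff]
      refine ⟨(h6 (c1 hq).1).2.1, ?_⟩
      rw [Real.dist_eq, sub_zero, abs_of_nonneg (c1 hq).2.1]
      exact ((c1 hq).2.2.trans (min_le_left _ _)).trans_lt (half_lt_self hδ)
    · rintro ⟨x, hx, e⟩
      obtain rfl := κ.injOn (hm J hj x hx) (hsub (c1 hq)) e
      exact c5 _ hq hx rfl

theorem caps : CAPS := caps_of cos_thm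

end P073.SF
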