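import Vale.Agent.P073Z.SURF.Norm.A
import Vale.Agent.P073Z.SURF.Caps

/-!
# The normal surface: the complex
-/

open Set Metric Topology Filter

namespace P073.SF

namespace Nm

variable {T : RCx E3} {ψ : E3 → ℝ} {c : ℝ} {I : E3 → Set E3} {zp zm : E3 → E3} {W : Set E3}
  {f : FD T ψ c I zp zm W}

namespace RD

variable (g : RD f)

/-- the index set of the discs -/
abbrev ID : Type := {p : T.ι × Set E3 // T.dim p.1 = 3 ∧ p.2 ∈ g.𝒥 p.1}

/-- the index set of all cells -/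
abbrev IX : Type := {z : E3 // z ∈ T.skel 1 ∧ ψ z = c} ⊕ f.IA ⊕ g.ID

/-- the cells -/
def cell : g.IX → Set E3
  | .inl z => {z.1}
  | .inr (.inl a) => a.1.2
  | .inr (.inr d) => g.D d.1.1 d.1.2

/-- the boundaries -/
def bd : g.IX → Set E3
  | .inl _ => ∅
  | .inr (.inl a) => {f.en a, f.τ a.1.1 (f.en a)}
  | .inr (.inr d) => d.1.2

/-- the dimensions -/
def dim : g.IX → ℕ
  | .inl _ => 0
  | .inr (.inl _) => 1
  | .inr (.inr _) => 2

/-- the hosts -/
noncomputable def host (L : Lev T ψ c I zp zm) : g.IX → T.ι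
  | .inl z => Classical.choose (L.arc z.1 z.2.1 z.2.2)
  | .inr (.inl a) => a.1.1
  | .inr (.inr d) => d.1.1

/-- a family of sets indexed by the arcs -/
def onA (S : T.ι → E3 → Set E3) : g.IX → Set E3
  | .inr (.inl a) => S a.1.1 (f.en a)
  | _ => ∅

theorem of_dim_one {i : g.IX} (h : g.dim i = 1) : ∃ a, i = .inr (.inl a) := by
  rcases i with z | a | d
  · exact absurd h (by simp [dim])
  · exact ⟨a, rfl⟩
  · exact absurd h (by simp [dim])

theorem of_dim_two {i : g.IX} (h : g.dim i = 2) : ∃ d, i = .inr (.inr d) := by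
  rcases i with z | a | d
  · exact absurd h (by simp [dim])
  · exact absurd h (by simp [dim])
  · exact ⟨d, rfl⟩

variable (L : Lev T ψ c I zp zm)

theorem host_dim (i : g.IX) : T.dim (g.host L i) = g.dim i + 1 := by
  rcases i with z | a | d
  · exact (Classical.choose_spec (L.arc z.1 z.2.1 z.2.2)).1
  · exact a.2.1
  · exact d.2.1

theorem host_cell (i : g.IX) : g.cell i ⊆ T.cell (g.host L i) := by
  rcases i with z | a | d
  · obtain ⟨-, h1, -, h2, -⟩ := Classical.choose_spec (L.arc z.1 z.2.1 z.2.2)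
    exact singleton_subset_iff.2 (T.ocell_subset _ (h1 h2))
  · exact f.ia_cell a
  · exact (g.ball _ d.2.1 _ d.2.2).2.1

theorem host_ocell (i : g.IX) : g.cell i \ g.bd i ⊆ T.ocell (g.host L i) := by
  intro x hx
  refine ⟨g.host_cell L i hx.1, fun hb => ?_⟩
  rcases i with z | a | d
  · obtain ⟨-, h1, -, h2, -⟩ := Classical.choose_spec (L.arc z.1 z.2.1 z.2.2)
    have h3 : x = z.1 := hx.1
    rw [h3] at hb
    exact (h1 h2).2 hb
  · exact hx.2 (f.ia_ends a hx.1 hb)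
  · have h1 : x ∈ g.D d.1.1 d.1.2 ∩ T.bd d.1.1 := ⟨hx.1, hb⟩
    rw [(g.ball _ d.2.1 _ d.2.2).2.2] at h1
    exact hx.2 h1

theorem host_disj {i j : g.IX} (hne : i ≠ j) (h : g.host L i = g.host L j) :
    Disjoint (g.cell i) (g.cell j) := by
  have h1 : g.dim i = g.dim j := by
    have h2 := g.host_dim L i
    rw [h, g.host_dim L j] at h2
    omega
  rcases i with z | a | d <;> rcases j with z' | a' | d' <;> try cases h1
  · exact disjoint_singleton.2 fun h2 => hne (congrArg Sum.inl (Subtype.ext h2))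
  · exact Set.disjoint_left.2 fun x hx hx' => hne (by rw [f.ia_ext h hx hx'])
  · obtain ⟨⟨Q, J⟩, hQ, hJ⟩ := d
    obtain ⟨⟨Q', J'⟩, hQ', hJ'⟩ := d'
    obtain rfl : Q = Q' := h
    refine g.disj Q hQ J hJ J' hJ' fun h2 => hne ?_
    obtain rfl : J = J' := h2
    rfl

theorem host_fin (j : T.ι) : {i | g.host L i = j}.Finite := by
  have h1 : {z : {z : E3 // z ∈ T.skel 1 ∧ ψ z = c} | g.host L (.inl z) = j}.Finite :=
    ((L.fin j).preimage Subtype.val_injective.injOn).subset fun z hz =>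
      ⟨(show g.host L (.inl z) = j from hz) ▸ g.host_cell L (.inl z) rfl, z.2⟩
  have h2 : {d : g.ID | d.1.1 = j}.Finite :=
    (((finite_singleton j).prod (g.𝒥 j).finite_toSet).preimage
      Subtype.val_injective.injOn).subset fun d hd =>
        ⟨hd, (show d.1.1 = j from hd) ▸ d.2.2⟩
  refine ((h1.image Sum.inl).union ((((f.ia_fin L j).image Sum.inl).union
    (h2.image Sum.inr)).image Sum.inr)).subset ?_
  rintro (z | a | d) hi
  · exact Or.inl ⟨z, hi, rfl⟩
  · exact Or.inr ⟨_, Or.inl ⟨a, hi, rfl⟩, rfl⟩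
  · exact Or.inr ⟨_, Or.inr ⟨d, hi, rfl⟩, rfl⟩

/-- the complex -/
def cx : RCx E3 where
  ι := g.IX
  cell := g.cell
  bd := g.bd
  dim := g.dim
  ball := by
    rintro (z | a | d)
    · exact conBall_zero z.1
    · exact (f.ia_arc a).conBall
    · exact (g.ball _ d.2.1 _ d.2.2).1
  disj := fun i j hne => by
    by_cases h : g.host L i = g.host L j
    · exact (g.host_disj L hne h).mono sdiff_subset sdiff_subset
    · exact (T.disj _ _ h).mono (g.host_ocell L i) (g.host_ocell L j)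
  bdry := by
    have key : ∀ (a : f.IA) (x : E3), x ∈ ({f.en a, f.τ a.1.1 (f.en a)} : Set E3) →
        x ∈ T.skel 1 ∧ ψ x = c := fun a x hx =>
      ⟨mem_skel_of_bd a.2.1 (f.ia_zero a hx).1, (f.ia_zero a hx).2⟩
    rintro (z | a | d) x hx
    · exact hx.elim
    · exact ⟨.inl ⟨x, key a x hx⟩, ⟨rfl, notMem_empty x⟩, singleton_subset_iff.2 hx, zero_lt_one⟩
    · obtain ⟨a, h1, h2⟩ := g.cov _ d.2.1 _ d.2.2 x hx
      by_cases h : x ∈ ({f.en a, f.τ a.1.1 (f.en a)} : Set E3)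
      · exact ⟨.inl ⟨x, key a x h⟩, ⟨rfl, notMem_empty x⟩, singleton_subset_iff.2 hx, zero_lt_two⟩
      · exact ⟨.inr (.inl a), ⟨h1, h⟩, h2, one_lt_two⟩
  lf := fun x hx => by
    obtain ⟨i, hi⟩ := mem_iUnion.1 hx
    obtain ⟨U, hU, hf⟩ := T.lfIn x (T.cell_subset_carrier _ (g.host_cell L i hi))
    refine ⟨U, hU, (hf.biUnion fun j _ => g.host_fin L j).subset fun k hk => ?_⟩
    exact mem_iUnion₂.2 ⟨g.host L k, hk.mono (inter_subset_inter_left _ (g.host_cell L k)), rfl⟩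

/-- the normal surface -/
noncomputable def nrm : Nrm T ψ c I zp zm W where
  X := g.cx L
  host := g.host L
  strip := g.onA f.σ
  top := g.onA f.αp
  bot := g.onA f.αm
  host_dim := g.host_dim L
  host_ocell := g.host_ocell L
  host_cell := g.host_cell L
  host_fin := g.host_fin L
  vert := fun x => by
    rw [RCx.mem_skel]
    refine ⟨?_, fun h => ⟨.inl ⟨x, h⟩, le_rfl, rfl⟩⟩
    rintro ⟨z | a | d, h1, h2⟩
    · obtain rfl : x = z.1 := h2
      exact z.2
    · exact absurd h1 (Nat.not_succ_le_zero 0)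
    · exact absurd h1 (Nat.not_succ_le_zero 1)
  arc := fun i hi => by
    obtain ⟨a, rfl⟩ := g.of_dim_one hi
    obtain ⟨-, a2, a3, a4, a5, a6, a7, a8, a9, a10, a11⟩ :=
      f.str _ a.2.1 _ (f.en_bd a) (f.en_zero a)
    obtain ⟨-, -, b3, b4⟩ := f.mid _ a.2.1 _ (f.en_bd a) (f.en_zero a)
    rw [← f.en_eq a] at b3 b4
    exact ⟨_, _, rfl, f.ia_arc a, b3, a8, a9, a10, a2, a3, a6, a7, a4, a5, a11, b4⟩
  strip_disj := fun i j hi hj hne h => by
    obtain ⟨a, rfl⟩ := g.of_dim_one hi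
    obtain ⟨a', rfl⟩ := g.of_dim_one hj
    have h1 : a.1.1 = a'.1.1 := h
    have h2 := f.en_bd a'
    have h3 := f.en_eq a'
    rw [← h1] at h2 h3
    change Disjoint (f.σ a.1.1 (f.en a)) (f.σ a'.1.1 (f.en a'))
    rw [← h1]
    refine f.σ_disj a.2.1 (f.en_bd a) (f.en_zero a) h2 (f.en_zero a') fun h4 => hne ?_
    rw [← f.en_eq a, ← h3] at h4
    rw [show a = a' from Subtype.ext (Prod.ext h1 h4)]
  at_face := fun z hz h0 F hF hzF =>
    ⟨.inr (.inl ⟨(F, f.α F z), hF, z, ⟨mem_bd_of_skel hF hzF hz, h0⟩, rfl⟩), rfl, rfl,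
      (f.arc hF (mem_bd_of_skel hF hzF hz) h0).left_mem⟩
  at_room := fun i Q hi hQ h => by
    obtain ⟨a, rfl⟩ := g.of_dim_one hi
    obtain ⟨J, hJ, h1⟩ := g.room Q hQ a h
    exact ⟨.inr (.inr ⟨(Q, J), hQ, hJ⟩), rfl, rfl, h1.trans (g.ball Q hQ J hJ).1.1⟩
  room_disj := fun _ _ _ _ hne h => g.host_disj L hne h
  loc := fun i hi => by
    obtain ⟨d, rfl⟩ := g.of_dim_two hi
    exact g.loc _ d.2.1 _ d.2.2

end RD

end Nm

theorem norm_of (hC : CAPS) : NORM := by
  intro T ψ c I zp zm 𝒲 _ _ hψ L h1 h2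
  obtain ⟨W, hW, ⟨f⟩⟩ := Nm.exists_fd 𝒲 hψ L h1 h2
  obtain ⟨g⟩ := Nm.exists_rd hC f L
  exact ⟨W, hW, ⟨g.nrm L⟩⟩

theorem norm_thm : NORM := norm_of caps

end P073.SF
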