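import Vale.Agent.P073Z.SURF.Two

/-!
# Separation by closed surfaces in contractible open sets
-/

open Set Metric Topology Filter

namespace P073.SF

/-- the double cover defined by a cocycle -/
def coverCore {A : Type} [TopologicalSpace A] (U : A → Set A) (hU : ∀ a, IsOpen (U a))
    (hm : ∀ a, a ∈ U a) (c : A → A → A → ZMod 2)
    (h1 : ∀ i j, ∀ x ∈ U i ∩ U j, ∀ᶠ y in 𝓝 x, c i j y = c i j x)
    (h2 : ∀ i j k, ∀ x ∈ U i ∩ U j ∩ U k, c i j x + c j k x = c i k x) :
    FiberBundleCore A A (ZMod 2) where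
  baseSet := U
  isOpen_baseSet := hU
  indexAt := id
  mem_baseSet_at := hm
  coordChange i j x v := v + c i j x
  coordChange_self i x hx v := by
    have := h2 i i i x ⟨⟨hx, hx⟩, hx⟩
    rw [left_eq_add.1 this.symm, add_zero]
  continuousOn_coordChange i j := by
    rintro ⟨x, v⟩ hx
    refine ContinuousAt.continuousWithinAt ?_
    refine (continuous_snd.add (continuous_const (y := c i j x))).continuousAt.congr ?_
    filter_upwards [continuous_fst.continuousAt.eventually (h1 i j x hx.1)] with p hp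
    rw [Pi.add_apply, hp]
  coordChange_comp i j k x hx v := by rw [add_assoc, h2 i j k x hx]

/-- cocycles on simply connected spaces are coboundaries -/
theorem cobound {A : Type} [TopologicalSpace A] [SimplyConnectedSpace A]
    [LocallyPathConnectedSpace A] (U : A → Set A) (hU : ∀ a, IsOpen (U a))
    (hm : ∀ a, a ∈ U a) (c : A → A → A → ZMod 2)
    (h1 : ∀ i j, ∀ x ∈ U i ∩ U j, ∀ᶠ y in 𝓝 x, c i j y = c i j x)
    (h2 : ∀ i j k, ∀ x ∈ U i ∩ U j ∩ U k, c i j x + c j k x = c i k x) :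
    ∃ t : A → ZMod 2, ∀ x, ∃ b, ∀ᶠ y in 𝓝 x, t y + c y x y = b := by
  set Z := coverCore U hU hm c h1 h2 with hZ
  obtain ⟨a₀⟩ : Nonempty A := inferInstance
  have hc : IsCoveringMap Z.proj := FiberBundle.isCoveringMap (F := ZMod 2) (E := Z.Fiber)
  obtain ⟨L, ⟨-, hL⟩, -⟩ := hc.existsUnique_continuousMap_lifts (ContinuousMap.id A) a₀
    ⟨a₀, (0 : ZMod 2)⟩ rfl
  have hp : ∀ y, (L y).1 = y := fun y => congrFun hL y
  refine ⟨fun y => (L y).2, fun x => ⟨(Z.localTriv x (L x)).2, ?_⟩⟩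
  have h3 : ContinuousAt (fun y => (Z.localTriv x (L y)).2) x := by
    refine continuous_snd.continuousAt.comp (ContinuousAt.comp ?_ L.continuous.continuousAt)
    refine (Z.localTriv x).toOpenPartialHomeomorph.continuousAt ?_
    rw [Z.mem_localTriv_source, hp]
    exact hm x
  have h4 := h3.tendsto
  rw [nhds_discrete (ZMod 2), tendsto_pure] at h4
  filter_upwards [h4] with y hy
  rw [← hy, Z.localTriv_apply]
  exact congrArg (HAdd.hAdd _) (congrArg (fun z => c z x z) (hp y).symm)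

/-- the homeomorphism between the subtypes -/
def HomeoOn.homeo {S T : Type} [TopologicalSpace S] [TopologicalSpace T] {f : S → T} {g : T → S}
    {X : Set S} {Y : Set T} (h : HomeoOn f g X Y) : X ≃ₜ Y where
  toFun x := ⟨f x, h.mapsTo x.2⟩
  invFun y := ⟨g y, h.mapsTo_inv y.2⟩
  left_inv x := Subtype.ext (h.left_inv x.2)
  right_inv y := Subtype.ext (h.right_inv y.2)
  continuous_toFun := (continuousOn_iff_continuous_domRestrict.1 h.cont).subtype_mk _
  continuous_invFun := (continuousOn_iff_continuous_domRestrict.1 h.cont_inv).subtype_mk _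

/-- local side functions -/
theorem exists_local (hL : LFL) {Y X : Set E3} (hc : ClosedIn X Y)
    (hX : PLMan 2 X) {p : E3} (hp : p ∈ Y) : ∃ (U : Set E3) (s : E3 → ZMod 2), IsOpen U ∧ p ∈ U ∧
      LocC s (U \ X) ∧ ∀ x ∈ U ∩ X, Jumps s X x := by
  by_cases h : p ∈ X
  · obtain ⟨O, g, h1, h2, -, h3, h4, -, -, h5⟩ := halves hL hX h univ_mem
    refine ⟨O, fun y => if 0 < g y then 0 else 1, h1, h2, fun y hy => ?_, fun x hx b => ?_⟩
    · rcases lt_or_gt_of_ne (fun h => hy.2 ((h4 y hy.1).2 h)) with h | h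
      · filter_upwards [(isOpen_lt h3 continuous_const).mem_nhds h] with z hz
        rw [if_neg (not_lt.2 (le_of_lt hz)), if_neg (not_lt.2 h.le)]
      · filter_upwards [(isOpen_lt continuous_const h3).mem_nhds h] with z hz
        rw [if_pos hz, if_pos h]
    · have h6 : b = 0 ∨ b = 1 := by
        revert b
        decide
      rcases h6 with rfl | rfl
      · exact ((h5 x hx).1.and_eventually (h1.mem_nhds hx.1)).mono
          fun y hy => ⟨fun h => hy.1.ne' ((h4 y hy.2).1 h), if_pos hy.1⟩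
      · exact ((h5 x hx).2.and_eventually (h1.mem_nhds hx.1)).mono
          fun y hy => ⟨fun h => hy.1.ne ((h4 y hy.2).1 h), if_neg (not_lt.2 hy.1.le)⟩
  · exact ⟨(closure X)ᶜ, fun _ => 0, isClosed_closure.isOpen_compl, fun h' => h (hc p hp h'),
      fun _ _ => Eventually.of_forall fun _ => rfl, fun x hx => (hx.1 (subset_closure hx.2)).elim⟩

/-- separation in a simply connected open set -/
theorem sep_sc (hL : LFL) {Y X : Set E3} (hY : IsOpen Y) [SimplyConnectedSpace Y]
    (hXY : X ⊆ Y) (hc : ClosedIn X Y) (hX : PLMan 2 X) :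
    ∃ w : E3 → ZMod 2, LocC w (Y \ X) ∧ ∀ x ∈ X, Jumps w X x := by
  classical
  have := hY.locallyPathConnectedSpace
  choose! U s hU hm hs hj using fun p (hp : p ∈ Y) => exists_local hL hc hX hp
  have h0 : ∀ i j : Y, ∃ F : E3 → ZMod 2, (∀ y ∈ (U i ∩ U j) \ X, F y = s i y + s j y) ∧
      ∀ x ∈ U i ∩ U j, (∀ᶠ y in 𝓝 x, y ∉ X → s i y + s j y = F x) ∧
        ∀ᶠ y in 𝓝 x, y ∈ U i ∩ U j → F y = F x := by
    intro i j
    have l1 : LocC (s i) ((U i ∩ U j) \ X) :=
      (hs i i.2).mono (sdiff_subset_sdiff_left inter_subset_left)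
    have l2 : LocC (s j) ((U i ∩ U j) \ X) :=
      (hs j j.2).mono (sdiff_subset_sdiff_left inter_subset_right)
    exact exists_ext (l1.add l2) fun x hx => ⟨two_of hL hX hx.2
      (((hU i i.2).inter (hU j j.2)).mem_nhds hx.1) l1 l2 (hj i i.2 x ⟨hx.1.1, hx.2⟩)
      (hj j j.2 x ⟨hx.1.2, hx.2⟩), freq_of_man hL hX x⟩
  choose c c1 c2 using h0
  obtain ⟨t, ht⟩ := cobound (A := Y) (fun i => Subtype.val ⁻¹' U i)
    (fun i => (hU i i.2).preimage continuous_subtype_val) (fun i => hm i i.2)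
    (fun i j x => c i j x) (fun i j x hx => by
      have h1 := (c2 i j x hx).2.and (((hU i i.2).inter (hU j j.2)).mem_nhds hx)
      exact (continuous_subtype_val.continuousAt.eventually h1).mono fun y hy => hy.1 hy.2)
    (fun i j k x hx => by
      obtain ⟨y, h1, h2, h3, h4⟩ := ((freq_of_man hL hX x).and_eventually
        ((c2 i j x hx.1).1.and ((c2 j k x ⟨hx.1.2, hx.2⟩).1.and (c2 i k x ⟨hx.1.1, hx.2⟩).1))).exists
      rw [← h2 h1, ← h3 h1, ← h4 h1]
      generalize s i y = a, s j y = b, s k y = d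
      revert a b d
      decide)
  set w : E3 → ZMod 2 := fun y => if h : y ∈ Y then s y y + t ⟨y, h⟩ else 0 with hw
  have key : ∀ x ∈ Y, ∃ b, ∀ᶠ y in 𝓝 x, y ∉ X → w y = s x y + b := by
    intro x hx
    obtain ⟨b, hb⟩ := ht ⟨x, hx⟩
    refine ⟨b, ?_⟩
    rw [← map_nhds_subtype_coe_eq_nhds hx (hY.mem_nhds hx), eventually_map]
    filter_upwards [hb, continuous_subtype_val.continuousAt.eventually
      ((hU x hx).mem_nhds (hm x hx))] with y h1 h2 h3
    simp only [hw, dif_pos y.2]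
    rw [← h1, c1 y ⟨x, hx⟩ y ⟨⟨hm y y.2, h2⟩, h3⟩]
    generalize s y y = a, s x y = b, t y = d
    revert a b d
    decide
  refine ⟨w, fun x hx => ?_, fun x hx b => ?_⟩
  · obtain ⟨b, hb⟩ := key x hx.1
    filter_upwards [hb, hs x hx.1 x ⟨hm x hx.1, hx.2⟩,
      isClosed_closure.isOpen_compl.mem_nhds fun h => hx.2 (hc x hx.1 h)] with y h1 h2 h3
    rw [h1 fun h => h3 (subset_closure h), h2, hb.self_of_nhds hx.2]
  · obtain ⟨a, ha⟩ := key x (hXY hx)
    refine ((hj x (hXY hx) x ⟨hm x (hXY hx), hx⟩ (b - a)).and_eventually ha).mono fun y hy => ?_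
    exact ⟨hy.1.1, by rw [hy.2 hy.1.1, hy.1.2, sub_add_cancel]⟩

theorem sep2_of (hL : LFL) : SEP2 := by
  intro E _ _ Y X K f g hK h hY hXY hc hX
  rcases Y.eq_empty_or_nonempty with rfl | ⟨y, hy⟩
  · exact ⟨fun _ => 0, fun _ h => h.1.elim, fun _ h => (hXY h).elim⟩
  have : ContractibleSpace K := hK.contractibleSpace ⟨_, h.mapsTo hy⟩
  have : ContractibleSpace Y := (HomeoOn.homeo h).contractibleSpace
  exact sep_sc hL hY hXY hc hX

end P073.SF
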