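import Vale.Agent.P073Z.SURF.Sk

/-!
# Side functions: local uniqueness and extension across a surface
-/

open Set Metric Topology Filter

namespace P073.SF

theorem LocC.mono {w : E3 → ZMod 2} {X Y : Set E3} (h : LocC w X) (hY : Y ⊆ X) : LocC w Y :=
  fun y hy => h y (hY hy)

theorem LocC.add {w w' : E3 → ZMod 2} {X : Set E3} (h : LocC w X) (h' : LocC w' X) :
    LocC (fun y => w y + w' y) X := fun y hy => by
  filter_upwards [h y hy, h' y hy] with z h1 h2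
  rw [h1, h2]

/-- a locally constant function is constant on preconnected sets -/
theorem LocC.eq {w : E3 → ZMod 2} {A : Set E3} (h : LocC w A) (hA : IsPreconnected A) {a b : E3}
    (ha : a ∈ A) (hb : b ∈ A) : w a = w b := by
  refine hA.induction₂' (fun a b => w a = w b) (fun y hy => ?_)
    (fun _ _ _ _ _ _ h h' => h.trans h') ha hb
  filter_upwards [mem_nhdsWithin_of_mem_nhds (h y hy)] with z hz using ⟨hz.symm, hz⟩

theorem Jumps.freq {w : E3 → ZMod 2} {X : Set E3} {x : E3} (h : Jumps w X x) :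
    ∃ᶠ y in 𝓝 x, y ∉ X := (h 0).mono fun _ hy => hy.1

theorem freq_self {X : Set E3} {x : E3} (h : x ∉ X) : ∃ᶠ y in 𝓝 x, y ∉ X :=
  fun h' => h (not_not.1 h'.self_of_nhds)

/-- extension across `X` of a function that does not jump -/
theorem exists_ext {X O : Set E3} {f : E3 → ZMod 2} (h1 : LocC f (O \ X))
    (h2 : ∀ x ∈ O ∩ X, (∃ b, ∀ᶠ y in 𝓝 x, y ∉ X → f y = b) ∧ ∃ᶠ y in 𝓝 x, y ∉ X) :
    ∃ F : E3 → ZMod 2, (∀ y ∈ O \ X, F y = f y) ∧
      ∀ x ∈ O, (∀ᶠ y in 𝓝 x, y ∉ X → f y = F x) ∧ ∀ᶠ y in 𝓝 x, y ∈ O → F y = F x := by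
  have h3 : ∀ x ∈ O, ∃ b, ∀ᶠ y in 𝓝 x, y ∉ X → f y = b := by
    intro x hx
    by_cases h : x ∈ X
    · exact (h2 x ⟨hx, h⟩).1
    · exact ⟨f x, (h1 x ⟨hx, h⟩).mono fun _ hy _ => hy⟩
  choose! F hF using h3
  refine ⟨F, fun y hy => ((hF y hy.1).self_of_nhds hy.2).symm, fun x hx => ⟨hF x hx, ?_⟩⟩
  filter_upwards [(hF x hx).eventually_nhds] with y hy hO
  have h4 : ∃ᶠ z in 𝓝 y, z ∉ X := by
    by_cases h : y ∈ X
    · exact (h2 y ⟨hO, h⟩).2
    · exact freq_self h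
  obtain ⟨z, h5, h6, h7⟩ := (h4.and_eventually (hy.and (hF y hO))).exists
  rw [← h7 h5, h6 h5]

/-- a function that does not jump across `X` is constant on connected sets -/
theorem ext {X A : Set E3} {f : E3 → ZMod 2} (hA : IsPreconnected A) (h1 : LocC f (A \ X))
    (h2 : ∀ x ∈ A ∩ X, (∃ b, ∀ᶠ y in 𝓝 x, y ∉ X → f y = b) ∧ ∃ᶠ y in 𝓝 x, y ∉ X)
    {a b : E3} (ha : a ∈ A \ X) (hb : b ∈ A \ X) : f a = f b := by
  obtain ⟨F, e, hF⟩ := exists_ext h1 h2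
  rw [← e a ha, ← e b hb]
  refine hA.induction₂' (fun a b => F a = F b) (fun y hy => ?_)
    (fun _ _ _ _ _ _ h h' => h.trans h') ha.1 hb.1
  filter_upwards [mem_nhdsWithin_of_mem_nhds (hF y hy).2, self_mem_nhdsWithin] with z hz hz'
    using ⟨(hz hz').symm, hz hz'⟩

/-- the two local sides of a surface -/
theorem halves (hL : LFL) {X U : Set E3} {x : E3} (hX : PLMan 2 X) (hx : x ∈ X) (hU : U ∈ 𝓝 x) :
    ∃ (O : Set E3) (g : E3 → ℝ), IsOpen O ∧ x ∈ O ∧ O ⊆ U ∧ Continuous g ∧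
      (∀ y ∈ O, y ∈ X ↔ g y = 0) ∧ IsPreconnected {y ∈ O | 0 < g y} ∧
      IsPreconnected {y ∈ O | g y < 0} ∧
      ∀ y ∈ O ∩ X, (∃ᶠ z in 𝓝 y, 0 < g z) ∧ ∃ᶠ z in 𝓝 y, g z < 0 := by
  obtain ⟨C, B, hC, hxC, hCS, hCn⟩ := hX x hx
  obtain ⟨Φ, hΦx, hΦ⟩ := hL hC hxC hCS hCn
  have hc : Continuous Φ.toFun := continuousOn_univ.1 Φ.cont
  have h0 : Φ.invFun 0 = x := by rw [← hΦx, Φ.inv_apply]
  have ht : Tendsto Φ.invFun (𝓝 0) (𝓝 x) := h0 ▸ Φ.continuous_inv.continuousAt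
  obtain ⟨r, hr, hb⟩ := Metric.eventually_nhds_iff_ball.1 (ht.eventually (Eventually.and hU hΦ))
  have h : ∀ y, Φ.toFun y ∈ ball 0 r → y ∈ U ∧ (y ∈ X ↔ Φ.toFun y 2 = 0) := by
    intro y hy
    have := hb _ hy
    rwa [Φ.inv_apply] at this
  have ri : ∀ z, Φ.toFun (Φ.invFun z) = z := fun z => Φ.right_inv trivial
  have pre : ∀ K : Set E3, Convex ℝ K → IsPreconnected (Φ.toFun ⁻¹' K) := by
    intro K hK
    have : Φ.toFun ⁻¹' K = Φ.invFun '' K := by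
      ext y
      exact ⟨fun hy => ⟨_, hy, Φ.inv_apply y⟩, fun ⟨z, hz, e⟩ => by
        rw [← e, mem_preimage, ri]; exact hz⟩
    rw [this]
    exact hK.isPreconnected.image _ Φ.continuous_inv.continuousOn
  have lin : IsLinearMap ℝ fun z : E3 => z 2 := ⟨fun _ _ => rfl, fun _ _ => rfl⟩
  refine ⟨Φ.toFun ⁻¹' ball 0 r, fun y => Φ.toFun y 2, isOpen_ball.preimage hc,
    by rw [mem_preimage, hΦx]; exact mem_ball_self hr, fun y hy => (h y hy).1,
    (continuous_apply 2).comp hc, fun y hy => (h y hy).2,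
    pre _ ((convex_ball 0 r).inter (convex_halfSpace_gt lin 0)),
    pre _ ((convex_ball 0 r).inter (convex_halfSpace_lt lin 0)), fun y hy => ?_⟩
  have h1 : Φ.toFun y 2 = 0 := (h y hy.1).2.1 hy.2
  have h2 : Tendsto (fun t : ℝ => Φ.invFun (Φ.toFun y + fun _ => t)) (𝓝 0) (𝓝 y) := by
    have h3 : Continuous fun t : ℝ => Φ.invFun (Φ.toFun y + fun _ => t) :=
      Φ.continuous_inv.comp (continuous_const.add (continuous_pi fun _ => continuous_id))
    have h4 : Φ.invFun (Φ.toFun y + fun _ => (0 : ℝ)) = y := by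
      rw [show (fun _ => (0 : ℝ)) = (0 : E3) from rfl, add_zero, Φ.inv_apply]
    have h5 := h3.tendsto 0
    rwa [h4] at h5
  constructor
  · refine h2.frequently (Frequently.filter_mono ?_ (nhdsWithin_le_nhds (s := Ioi 0)))
    refine Eventually.frequently ?_
    filter_upwards [self_mem_nhdsWithin] with t ht
    rw [ri, Pi.add_apply, h1, zero_add]
    exact ht
  · refine h2.frequently (Frequently.filter_mono ?_ (nhdsWithin_le_nhds (s := Iio 0)))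
    refine Eventually.frequently ?_
    filter_upwards [self_mem_nhdsWithin] with t ht
    rw [ri, Pi.add_apply, h1, zero_add]
    exact ht

/-- a surface has empty interior -/
theorem freq_of_man (hL : LFL) {X : Set E3} (hX : PLMan 2 X) (x : E3) : ∃ᶠ y in 𝓝 x, y ∉ X := by
  by_cases hx : x ∈ X
  · obtain ⟨O, g, h1, h2, -, -, h3, -, -, h4⟩ := halves hL hX hx univ_mem
    exact ((h4 x ⟨h2, hx⟩).1.and_eventually (h1.mem_nhds h2)).mono
      fun y hy h => hy.1.ne' ((h3 y hy.2).1 h)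
  · exact freq_self hx

theorem exists_const {w : E3 → ZMod 2} {A : Set E3} (h : LocC w A) (hA : IsPreconnected A) :
    ∃ a, ∀ y ∈ A, w y = a := by
  rcases A.eq_empty_or_nonempty with rfl | ⟨y, hy⟩
  · exact ⟨0, fun _ h => h.elim⟩
  · exact ⟨w y, fun z hz => h.eq hA hz hy⟩

/-- a side function takes the values `a` and `a + 1` on the two local sides -/
theorem Jumps.halves {X O : Set E3} {g : E3 → ℝ} {w : E3 → ZMod 2} {x : E3} (hJ : Jumps w X x)
    (hO : O ∈ 𝓝 x) (h3 : ∀ y ∈ O, y ∈ X ↔ g y = 0) (h4 : IsPreconnected {y ∈ O | 0 < g y})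
    (h5 : IsPreconnected {y ∈ O | g y < 0}) (hw : LocC w (O \ X)) :
    ∃ a, ∀ y ∈ O, (0 < g y → w y = a) ∧ (g y < 0 → w y = a + 1) := by
  obtain ⟨a, ha⟩ := exists_const (hw.mono fun y hy => ⟨hy.1, fun h => hy.2.ne' ((h3 y hy.1).1 h)⟩) h4
  obtain ⟨b, hb⟩ := exists_const (hw.mono fun y hy => ⟨hy.1, fun h => hy.2.ne ((h3 y hy.1).1 h)⟩) h5
  obtain ⟨z, ⟨h6, h7⟩, h8⟩ := ((hJ (a + 1)).and_eventually hO).exists
  have h9 : b = a + 1 := by
    rcases lt_or_gt_of_ne (fun h => h6 ((h3 z h8).2 h)) with h | h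
    · rw [← hb z ⟨h8, h⟩, h7]
    · rw [ha z ⟨h8, h⟩] at h7
      exact absurd (left_eq_add.1 h7) (by decide)
  exact ⟨a, fun y hy => ⟨fun h => ha y ⟨hy, h⟩, fun h => h9 ▸ hb y ⟨hy, h⟩⟩⟩

theorem two_of (hL : LFL) : TWO := by
  intro X U w₁ w₂ x hX hx hU l1 l2 j1 j2
  obtain ⟨O, g, h1, h2, h3, -, h4, h5, h6, -⟩ := halves hL hX hx hU
  obtain ⟨a, ha⟩ := j1.halves (h1.mem_nhds h2) h4 h5 h6 (l1.mono (sdiff_subset_sdiff_left h3))
  obtain ⟨b, hb⟩ := j2.halves (h1.mem_nhds h2) h4 h5 h6 (l2.mono (sdiff_subset_sdiff_left h3))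
  refine ⟨a + b, ?_⟩
  filter_upwards [h1.mem_nhds h2] with y hy hyX
  rcases lt_or_gt_of_ne (fun h => hyX ((h4 y hy).2 h)) with h | h
  · rw [(ha y hy).2 h, (hb y hy).2 h]
    generalize a = a, b = b
    revert a b
    decide
  · rw [(ha y hy).1 h, (hb y hy).1 h]

end P073.SF
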