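import Vale.Agent.P073Z.SURF.Box
import Vale.Agent.P073Z.SURF.Two

/-!
# Side functions in boxes
-/

open Set Metric Topology Filter

namespace P073.SF

variable {E : Type} [NormedAddCommGroup E] [NormedSpace ℝ E] {G : Set E} {V : Set E3}
  {π : E3 → E} {ψ : E3 → ℝ} {σ : E × ℝ → E3} {c : ℝ} {η : E → ℝ}

namespace Bx

theorem add_self (a : ZMod 2) : a + a = 0 := by
  revert a
  decide

theorem jumps_add {w : E3 → ZMod 2} {X : Set E3} {x : E3} (h : Jumps w X x) (b : ZMod 2) :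
    Jumps (fun y => w y + b) X x := fun a =>
  (h (a - b)).mono fun _ hy => ⟨hy.1, by simp only [hy.2, sub_add_cancel]⟩

theorem jumps_congr {w w' : E3 → ZMod 2} {X X' : Set E3} {x : E3} (h : Jumps w X x)
    (he : ∀ᶠ y in 𝓝 x, y ∉ X → y ∉ X' ∧ w' y = w y) : Jumps w' X' x := fun a =>
  ((h a).and_eventually he).mono fun _ hy => ⟨(hy.2 hy.1.1).1, (hy.2 hy.1.1).2.trans hy.1.2⟩

theorem pre_annulus {ρ : ℝ} (hρ : 0 ≤ ρ) :
    IsPreconnected (ball (0 : Fin 2 → ℝ) 1 ∩ (closedBall 0 ρ)ᶜ) := by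
  have h1 : IsPreconnected (sphere (0 : Fin 2 → ℝ) 1) :=
    isPreconnected_sphere (by rw [rank_fun']; simp) 0 1
  have h2 := (h1.prod (isPreconnected_Ioo (a := ρ) (b := 1))).image
    (fun q : (Fin 2 → ℝ) × ℝ => q.2 • q.1) (by fun_prop)
  have h3 : (fun q : (Fin 2 → ℝ) × ℝ => q.2 • q.1) '' (sphere 0 1 ×ˢ Ioo ρ 1) =
      ball (0 : Fin 2 → ℝ) 1 ∩ (closedBall 0 ρ)ᶜ := by
    apply Subset.antisymm
    · rintro _ ⟨⟨v, t⟩, ⟨hv, ht⟩, rfl⟩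
      have h4 : ‖t • v‖ = t := by
        rw [norm_smul, mem_sphere_zero_iff_norm.1 hv, mul_one, Real.norm_of_nonneg
          (hρ.trans ht.1.le)]
      simp only [mem_inter_iff, mem_ball_zero_iff, mem_compl_iff, mem_closedBall_zero_iff, h4,
        not_le]
      exact ⟨ht.2, ht.1⟩
    · rintro v ⟨h4, h5⟩
      rw [mem_compl_iff, mem_closedBall_zero_iff, not_le] at h5
      have h6 : 0 < ‖v‖ := hρ.trans_lt h5
      refine ⟨(‖v‖⁻¹ • v, ‖v‖), ⟨?_, h5, mem_ball_zero_iff.1 h4⟩, ?_⟩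
      · rw [mem_sphere_zero_iff_norm, norm_smul, norm_inv, norm_norm, inv_mul_cancel₀ h6.ne']
      · simp only [smul_smul, mul_inv_cancel₀ h6.ne', one_smul]
  rwa [h3] at h2

/-- the chart of a region over an open disc -/
theorem chart (h : Box G V π ψ σ) {D B : Set E} (hDG : D ⊆ G)
    (φ : ConHomeo D (closedBall (0 : Fin 2 → ℝ) 1))
    (hφ : ∀ x ∈ D, (x ∉ B ↔ φ.toFun x ∈ ball 0 1)) {a b : E → ℝ} (ha : ContinuousOn a G)
    (hb : Gauge b G) (hm : ∀ u ∈ G, ∀ t ∈ Ioo (-1:ℝ) 1, a u + t * b u ∈ Ioo (-1:ℝ) 1) :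
    HomeoOn (fun x => (φ.toFun (π x), (ψ x - a (π x)) / b (π x)))
      (fun q : (Fin 2 → ℝ) × ℝ => σ (φ.invFun q.1, a (φ.invFun q.1) + q.2 * b (φ.invFun q.1)))
      {x ∈ V | π x ∈ D \ B ∧ (ψ x - a (π x)) / b (π x) ∈ Ioo (-1:ℝ) 1}
      (ball 0 1 ×ˢ Ioo (-1) 1) := by
  have h1 : ∀ v ∈ ball (0 : Fin 2 → ℝ) 1, φ.invFun v ∈ D \ B := fun v hv => by
    have h2 := ball_subset_closedBall hv
    exact ⟨φ.mapsTo_inv h2, (hφ _ (φ.mapsTo_inv h2)).2 (by rwa [φ.right_inv h2])⟩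
  have h2 : ∀ q ∈ ball (0 : Fin 2 → ℝ) 1 ×ˢ Ioo (-1:ℝ) 1, φ.invFun q.1 ∈ G := fun q hq =>
    hDG (h1 _ hq.1).1
  set Y := {x ∈ V | π x ∈ D \ B ∧ (ψ x - a (π x)) / b (π x) ∈ Ioo (-1:ℝ) 1}
  have hπ : ContinuousOn π Y := h.cont_pi.mono fun x hx => hx.1
  have hπG : MapsTo π Y G := fun x hx => h.pi_mem hx.1
  exact
    { mapsTo := fun x hx => ⟨(hφ _ hx.2.1.1).1 hx.2.1.2, hx.2.2⟩
      mapsTo_inv := fun q hq => by
        have h3 := hm _ (h2 q hq) _ hq.2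
        refine ⟨h.sig_mem (h2 q hq) h3, ?_⟩
        simp only [h.pi_sig (h2 q hq) h3, h.psi_sig (h2 q hq) h3, add_sub_cancel_left,
          mul_div_cancel_right₀ _ (hb.2 _ (h2 q hq)).ne']
        exact ⟨h1 _ hq.1, hq.2⟩
      left_inv := fun x hx => by
        simp only [φ.left_inv hx.2.1.1, div_mul_cancel₀ _ (hb.2 _ (hπG hx)).ne', add_sub_cancel]
        exact h.sig_pp hx.1
      right_inv := fun q hq => by
        have h3 := hm _ (h2 q hq) _ hq.2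
        simp only [h.pi_sig (h2 q hq) h3, h.psi_sig (h2 q hq) h3, add_sub_cancel_left,
          mul_div_cancel_right₀ _ (hb.2 _ (h2 q hq)).ne', φ.right_inv (ball_subset_closedBall hq.1)]
      cont := (φ.cont.comp hπ fun x hx => hx.2.1.1).prodMk
        (((h.cont_psi.mono fun x hx => hx.1).sub (ha.comp hπ hπG)).div (hb.1.comp hπ hπG)
          fun x hx => (hb.2 _ (hπG hx)).ne')
      cont_inv := (h.cont_param (Z := G) (T := Ioo (-1) 1) Subset.rfl ha hb.1 hm).comp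
        (f := fun q : (Fin 2 → ℝ) × ℝ => (φ.invFun q.1, q.2))
        ((φ.cont_inv.comp continuousOn_fst fun q hq => ball_subset_closedBall hq.1).prodMk
          continuousOn_snd) fun q hq => ⟨h2 q hq, hq.2⟩ }

/-- the side function over one disc -/
theorem side_loc (sep : SEP2) {X : Set E3} (h : Box G V π ψ σ) (ht : Thin G c η)
    (hX : X ⊆ slab V π ψ c η) (hXc : ClosedIn X V) (hXm : PLMan 2 X) {D B : Set E}
    (hD : ConBall 2 D B) (hDG : D ⊆ G) : ∃ w : E3 → ZMod 2,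
      LocC w ({x ∈ V | π x ∈ D \ B} \ X) ∧ (∀ x ∈ X, π x ∈ D \ B → Jumps w X x) ∧
      ∀ x ∈ V, π x ∈ D \ B → c + η (π x) ≤ ψ x → w x = 0 := by
  obtain ⟨φ, hφ⟩ := hD.chart
  have h1 := chart h hDG φ hφ (a := fun _ => 0) (b := fun _ => 1) continuousOn_const
    (gauge_const one_pos) fun u _ t ht => by simpa using ht
  have h2 : {x ∈ V | π x ∈ D \ B ∧ (ψ x - 0) / 1 ∈ Ioo (-1:ℝ) 1} = {x ∈ V | π x ∈ D \ B} := by
    ext x
    exact ⟨fun hx => ⟨hx.1, hx.2.1⟩, fun hx => ⟨hx.1, hx.2, by simpa using h.psi_mem hx.1⟩⟩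
  rw [h2] at h1
  have hY := h.isOpen_over hD hDG
  set Y := {x ∈ V | π x ∈ D \ B}
  obtain ⟨w, hw, hj⟩ := sep (X := X ∩ Y) ((convex_ball 0 1).prod (convex_Ioo _ _)) h1 hY
    inter_subset_right
    (fun x hx hcl => ⟨hXc x hx.1 (closure_mono inter_subset_left hcl), hx⟩) (hXm.inter_open hY)
  have hw' : LocC w (Y \ X) := hw.mono fun x hx => ⟨hx.1, fun h' => hx.2 h'.1⟩
  obtain ⟨b, hb⟩ := exists_const (A := {x ∈ V | π x ∈ D \ B ∧ c + η (π x) ≤ ψ x})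
    (hw'.mono fun x hx => ⟨⟨hx.1, hx.2.1⟩, fun h' => by
      have := (abs_lt.1 (hX h').2).2
      linarith [hx.2.2]⟩) (h.pre_top ht hD.isConnected_int.isPreconnected (sdiff_subset.trans hDG))
  refine ⟨fun y => w y + b, hw'.add fun _ _ => Eventually.of_forall fun _ => rfl,
    fun x hx hxD => ?_, fun x hx hxD hxc => ?_⟩
  · have hxY : x ∈ Y := ⟨(hX hx).1, hxD⟩
    refine jumps_add (jumps_congr (hj x ⟨hx, hxY⟩) ?_) b
    filter_upwards [hY.mem_nhds hxY] with y hy h' using ⟨fun h'' => h' ⟨h'', hy⟩, rfl⟩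
  · simp only [hb x ⟨hx, hxD, hxc⟩, add_self]

/-- going up along a vertical segment -/
theorem up {X : Set E3} {f : E3 → ZMod 2} (h : Box G V π ψ σ) (ht : Thin G c η)
    (hX : X ⊆ slab V π ψ c η) {x : E3} (hx : x ∈ V) (hxX : x ∉ X) {A : Set E3}
    (hA : A = {y ∈ V | π y = π x ∧ ψ y ∈ uIcc (ψ x) (c + η (π x))}) (h1 : LocC f (A \ X))
    (h2 : ∀ y ∈ A ∩ X, (∃ b, ∀ᶠ z in 𝓝 y, z ∉ X → f z = b) ∧ ∃ᶠ z in 𝓝 y, z ∉ X)
    (h3 : ∀ y ∈ A, c + η (π y) ≤ ψ y → f y = 0) : f x = 0 := by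
  have hu := h.pi_mem hx
  have h4 : c + η (π x) ∈ Ioo (-1:ℝ) 1 := by
    simpa using Box.slab_mem ht hu (t := 1) (by simp)
  have h5 : σ (π x, c + η (π x)) ∈ A := by
    rw [hA]
    exact ⟨h.sig_mem hu h4, h.pi_sig hu h4, by
      rw [h.psi_sig hu h4]
      exact right_mem_uIcc⟩
  have h6 : c + η (π (σ (π x, c + η (π x)))) ≤ ψ (σ (π x, c + η (π x))) := by
    rw [h.pi_sig hu h4, h.psi_sig hu h4]
  rw [← h3 _ h5 h6]
  refine ext (hA ▸ h.pre_vert hu (ordConnected_Ioo.uIcc_subset (h.psi_mem hx) h4)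
    isPreconnected_uIcc) h1 h2 ⟨hA ▸ ⟨hx, rfl, left_mem_uIcc⟩, hxX⟩ ⟨h5, fun h' => ?_⟩
  have := (abs_lt.1 (hX h').2).2
  linarith

end Bx

open Bx

theorem wj_of (sep : SEP2) : WJ := by
  classical
  intro E _ _ G D B L V X π ψ σ c η h ht hX hXc hXm hD hDG hL hLD hXL
  obtain ⟨φ, hφ⟩ := hD.chart
  have h1 := chart h hDG φ hφ (a := fun _ => c) continuousOn_const ht.1
    fun u hu t h' => Box.slab_mem ht hu (abs_lt.2 h').le
  have h2 : {x ∈ V | π x ∈ D \ B ∧ (ψ x - c) / η (π x) ∈ Ioo (-1:ℝ) 1} =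
      slab V π ψ c η ∩ {x ∈ V | π x ∈ D \ B} := by
    ext x
    have h3 : x ∈ V → ((ψ x - c) / η (π x) ∈ Ioo (-1:ℝ) 1 ↔ |ψ x - c| < η (π x)) := fun hx => by
      have h4 := ht.1.2 _ (h.pi_mem hx)
      rw [mem_Ioo, ← abs_lt, abs_div, abs_of_pos h4, div_lt_one h4]
    exact ⟨fun hx => ⟨⟨hx.1, (h3 hx.1).1 hx.2.2⟩, hx.1, hx.2.1⟩,
      fun hx => ⟨hx.1.1, hx.2.2, (h3 hx.1.1).2 hx.1.2⟩⟩
  rw [h2] at h1
  have hs := h.isOpen_slab ht
  have hY := hs.inter (h.isOpen_over hD hDG)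
  set Y := slab V π ψ c η ∩ {x ∈ V | π x ∈ D \ B}
  have hXY : X ⊆ Y := fun x hx => ⟨hX hx, (hX hx).1, hLD (hXL x hx)⟩
  obtain ⟨w, hw, hj⟩ := sep ((convex_ball 0 1).prod (convex_Ioo _ _)) h1 hY hXY
    (hXc.mono inter_subset_left) hXm
  obtain ⟨ρ, hρ0, hρ1, hρ⟩ : ∃ ρ, 0 ≤ ρ ∧ ρ < 1 ∧ φ.toFun '' L ⊆ closedBall 0 ρ := by
    obtain ⟨ρ, h3, h4⟩ := exists_lt_subset_ball
      (hL.image_of_continuousOn (φ.cont.mono (hLD.trans sdiff_subset))).isClosed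
      (x := 0) (r := 1) (by
        rintro _ ⟨u, hu, rfl⟩
        exact (hφ u (hLD hu).1).1 (hLD hu).2)
    exact ⟨max ρ 0, le_max_right _ _, max_lt h3 one_pos,
      h4.trans (ball_subset_closedBall.trans (closedBall_subset_closedBall (le_max_left _ _)))⟩
  have hZ : IsPreconnected ((D \ B) ∩ φ.toFun ⁻¹' (closedBall 0 ρ)ᶜ) := by
    rw [← ConBall.int_eq φ hφ]
    exact (pre_annulus hρ0).image _ (φ.cont_inv.mono fun v hv => ball_subset_closedBall hv.1)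
  obtain ⟨b, hb⟩ := exists_const (hw.mono fun x hx => ⟨⟨hx.1, hx.1.1, hx.2.1⟩, fun h' =>
    hx.2.2 (hρ ⟨_, hXL x h', rfl⟩)⟩) (h.pre_slab ht hZ fun u hu => hDG hu.1.1)
  have hL' : IsClosed (φ.invFun '' closedBall 0 ρ) :=
    ((isCompact_closedBall _ _).image_of_continuousOn
      (φ.cont_inv.mono (closedBall_subset_closedBall hρ1.le))).isClosed
  refine ⟨fun y => if y ∈ Y then w y + b else 0, fun x hx => ?_, fun x hx => ?_,
    fun x _ hx => if_neg fun h' => hx h'.2.2⟩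
  · by_cases hxY : x ∈ Y
    · filter_upwards [hY.mem_nhds hxY, hw x ⟨hxY, hx.2⟩] with y hy hy'
      rw [if_pos hy, if_pos hxY, hy']
    · have h3 : π x ∉ φ.invFun '' closedBall 0 ρ := by
        rintro ⟨v, hv, he⟩
        have h4 := closedBall_subset_closedBall hρ1.le hv
        refine hxY ⟨hx.1, hx.1.1, he ▸ φ.mapsTo_inv h4, he ▸ (hφ _ (φ.mapsTo_inv h4)).2 ?_⟩
        rw [φ.right_inv h4]
        exact closedBall_subset_ball hρ1 hv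
      filter_upwards [h.nhds_pre hx.1.1
        (mem_nhdsWithin_of_mem_nhds (hL'.isOpen_compl.mem_nhds h3))] with y hy
      rw [if_neg hxY]
      split_ifs with hyY
      · rw [hb y ⟨hyY.1, hyY.2.2, fun h' => hy.2 ⟨_, h', φ.left_inv hyY.2.2.1⟩⟩, add_self]
      · rfl
  · refine jumps_congr (jumps_add (hj x hx) b) ?_
    filter_upwards [hY.mem_nhds (hXY hx)] with y hy h' using ⟨h', if_pos hy⟩

theorem side_of (sep : SEP2) (two : TWO) : SIDE := by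
  intro E _ _ G V X π ψ σ c η h ht hX hXc hXm
  choose! D B hD huD hDG _ using h.man
  choose! w hw hj h0 using fun u (hu : u ∈ G) => side_loc sep h ht hX hXc hXm (hD u hu) (hDG u hu)
  have hag : ∀ u ∈ G, ∀ x ∈ V, π x ∈ D u \ B u → x ∉ X → w (π x) x = w u x := by
    intro u hu x hx hxu hxX
    have hv := h.pi_mem hx
    have hO := (h.isOpen_over (hD u hu) (hDG u hu)).inter (h.isOpen_over (hD _ hv) (hDG _ hv))
    have hm : ∀ y ∈ V, π y = π x → y ∈ {z ∈ V | π z ∈ D u \ B u} ∩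
        {z ∈ V | π z ∈ D (π x) \ B (π x)} := fun y hy he =>
      ⟨⟨hy, he ▸ hxu⟩, hy, by rw [he]; exact huD _ hv⟩
    have h1 := up (f := fun y => w u y + w (π x) y) h ht hX hx hxX rfl
      (((hw u hu).mono fun y hy => ⟨(hm y hy.1.1 hy.1.2.1).1, hy.2⟩).add
        ((hw _ hv).mono fun y hy => ⟨(hm y hy.1.1 hy.1.2.1).2, hy.2⟩))
      (fun y hy => by
        have h2 := hm y hy.1.1 hy.1.2.1
        exact ⟨two hXm hy.2 (hO.mem_nhds h2) ((hw u hu).mono fun z hz => ⟨hz.1.1, hz.2⟩)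
          ((hw _ hv).mono fun z hz => ⟨hz.1.2, hz.2⟩) (hj u hu y hy.2 h2.1.2)
          (hj _ hv y hy.2 h2.2.2), (hj u hu y hy.2 h2.1.2).freq⟩)
      (fun y hy hc => by
        have h2 := hm y hy.1 hy.2.1
        simp only [h0 u hu y hy.1 h2.1.2 hc, h0 _ hv y hy.1 h2.2.2 hc, add_zero])
    rw [← add_zero (w (π x) x), ← h1, add_comm (w u x), ← add_assoc, add_self, zero_add]
  have hev : ∀ x ∈ V, ∀ᶠ y in 𝓝 x, y ∉ X → w (π y) y = w (π x) y := fun x hx => by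
    have hv := h.pi_mem hx
    filter_upwards [(h.isOpen_over (hD _ hv) (hDG _ hv)).mem_nhds ⟨hx, huD _ hv⟩] with y hy hyX
    exact hag _ hv y hy.1 hy.2 hyX
  refine ⟨fun x => w (π x) x, fun x hx => ?_, fun x hx => ?_,
    fun x hx hc => h0 _ (h.pi_mem hx) x hx (huD _ (h.pi_mem hx)) hc⟩
  · have hv := h.pi_mem hx.1
    filter_upwards [hev x hx.1, hXc.compl_mem_nhds hx.1 hx.2,
      hw _ hv x ⟨⟨hx.1, huD _ hv⟩, hx.2⟩] with y h1 h2 h3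
    rw [h1 h2, h3]
  · have hv := h.pi_mem (hX hx).1
    exact jumps_congr (hj _ hv x hx (huD _ hv)) ((hev x (hX hx).1).mono fun y hy h' => ⟨h', hy h'⟩)

/-- the side function of a piece over a disc vanishes below the slab -/
theorem Bx.below {C : Set E3} {ζ : E3 → ZMod 2} (h : Box G V π ψ σ) (ht : Thin G c η)
    (hC : C ⊆ slab V π ψ c η) {D B : Set E} (hD : ConBall 2 D B) (hDG : D ⊆ G)
    (hCD : ∀ x ∈ C, π x ∈ D \ B) (hl : LocC ζ (V \ C))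
    (h0 : ∀ x ∈ V, c + η (π x) ≤ ψ x → ζ x = 0) {x : E3} (hx : x ∈ V)
    (hb : ψ x ≤ c - η (π x)) : ζ x = 0 := by
  have h1 : ∀ y ∈ V, π y ∉ D \ B → ζ y = 0 := fun y hy hyD =>
    up (X := ∅) h ht (empty_subset _) hy (notMem_empty _) rfl
      (hl.mono fun z hz => ⟨hz.1.1, fun h' => hyD (hz.1.2.1 ▸ hCD z h')⟩)
      (fun z hz => hz.2.elim) fun z hz hc => h0 z hz.1 hc
  by_cases hxD : π x ∈ D
  · obtain ⟨u, hu⟩ : B.Nonempty := by
      obtain ⟨φ, hφ⟩ := hD.eq_preimage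
      rw [← hφ]
      exact (NormedSpace.sphere_nonempty.2 zero_le_one).image _
    have huG := hDG (hD.1 hu)
    have h2 : c - η u ∈ Ioo (-1:ℝ) 1 := by
      simpa [sub_eq_add_neg] using Box.slab_mem ht huG (t := -1) (by simp)
    have h3 := h.sig_mem huG h2
    rw [← h1 _ h3 (by rw [h.pi_sig huG h2]; exact fun h' => h'.2 hu)]
    refine LocC.eq (hl.mono fun z hz => ⟨hz.1, fun h' => ?_⟩)
      (h.pre_bot ht hD.isConnected.isPreconnected hDG) ⟨hx, hxD, hb⟩ ⟨h3, ?_, ?_⟩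
    · have := (abs_lt.1 (hC h').2).1
      linarith [hz.2.2]
    · rw [h.pi_sig huG h2]
      exact hD.1 hu
    · rw [h.pi_sig huG h2, h.psi_sig huG h2]
  · exact h1 x hx fun h' => hxD h'.1

theorem par_of (two : TWO) (side : SIDE) : PAR := by
  classical
  intro E _ _ G V S π ψ σ c η 𝒞 ζ₀ ζ h ht hS hSc hSm h𝒞 hdj hlf hl₀ hj₀ ht₀ hl hj ht₁ x hx hb
  choose! z hzl hzj hz0 using fun C (hC : C ∈ 𝒞) => side h ht (h𝒞 C hC).1
    (closedIn_of_isClosed (h𝒞 C hC).2.1.isClosed V) (h𝒞 C hC).2.2.1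
  have hu := h.pi_mem hx
  have hX : S ∪ ⋃₀ 𝒞 ⊆ slab V π ψ c η := union_subset hS (sUnion_subset fun C hC => (h𝒞 C hC).1)
  have hT : uIcc (ψ x) (c + η (π x)) ⊆ Ioo (-1:ℝ) 1 := ordConnected_Ioo.uIcc_subset (h.psi_mem hx)
    (by simpa using Box.slab_mem ht hu (t := 1) (by simp))
  have hfin := hlf.finite_meet (h.compact_vert hu hT isCompact_uIcc) fun y hy => hy.1
  have hcl : ∀ P : Set E3 → Prop, ClosedIn (⋃₀ {C ∈ 𝒞 | P C}) V := fun P =>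
    hlf.closedIn_of_cover (fun C => (h𝒞 C C.2).2.1.isClosed) fun y ⟨C, hC, hy⟩ =>
      ⟨⟨C, hC.1⟩, hy, subset_sUnion_of_mem hC⟩
  have hsum : ∀ (s : Finset 𝒞), ∀ y ∈ V, (∀ C ∈ s, y ∉ C.1) →
      ∀ᶠ y' in 𝓝 y, ∑ C ∈ s, z C y' = ∑ C ∈ s, z C y := fun s y hy hn =>
    ((eventually_all_finset s).2 fun C hC => hzl C C.2 y ⟨hy, hn C hC⟩).mono
      fun y' h' => Finset.sum_congr rfl h'
  have h1 := up (f := fun y => ζ₀ y + ζ y + ∑ C ∈ hfin.toFinset, z C y) h ht hX hx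
    (fun h' => by
      have := (abs_lt.1 (hX h').2).1
      linarith) rfl
    (fun y hy => by
      filter_upwards [hl₀ y ⟨hy.1.1, hy.2⟩, hl y ⟨hy.1.1, fun h' => hy.2 (Or.inl h')⟩,
        hsum hfin.toFinset y hy.1.1 fun C _ h' => hy.2 (Or.inr ⟨C, C.2, h'⟩)] with y' a1 a2 a3
      rw [a1, a2, a3])
    (fun y hy => ⟨?_, (hj₀ y hy.2).freq⟩)
    (fun y hy hc => by
      simp only [ht₀ y hy.1 hc, ht₁ y hy.1 hc, zero_add]
      exact Finset.sum_eq_zero fun C _ => hz0 C C.2 y hy.1 hc)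
  · rw [Finset.sum_eq_zero fun C _ => ?_, add_zero] at h1
    · rw [← add_zero (ζ x), ← h1, add_comm (ζ₀ x), ← add_assoc, add_self, zero_add]
    · obtain ⟨D, B, hD, hDG, hCD⟩ := (h𝒞 C C.2).2.2.2.2
      exact below h ht (h𝒞 C C.2).1 hD hDG hCD (hzl C C.2) (hz0 C C.2) hx hb
  · have hyV : y ∈ V := hy.1.1
    rcases hy.2 with hyS | ⟨C₀, hC₀, hyC⟩
    · have hn : ∀ C ∈ 𝒞, y ∉ C := fun C hC h' => disjoint_left.1 (h𝒞 C hC).2.2.2.1 h' hyS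
      obtain ⟨b, hb⟩ := two (U := V ∩ (⋃₀ {C ∈ 𝒞 | True})ᶜ) hSm hyS
        (inter_mem (h.op.mem_nhds hyV) ((hcl _).compl_mem_nhds hyV
          fun ⟨C, hC, h'⟩ => hn C hC.1 h'))
        (hl₀.mono fun y' hy' => ⟨hy'.1.1, fun h' => h'.elim hy'.2
          fun ⟨C, hC, h''⟩ => hy'.1.2 ⟨C, ⟨hC, trivial⟩, h''⟩⟩)
        (hl.mono fun y' hy' => ⟨hy'.1.1, hy'.2⟩)
        (jumps_congr (hj₀ y hy.2) (Eventually.of_forall fun y' h' =>
          ⟨fun h'' => h' (Or.inl h''), rfl⟩)) (hj y hyS)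
      refine ⟨b + ∑ C ∈ hfin.toFinset, z C y, ?_⟩
      filter_upwards [hb, hsum hfin.toFinset y hyV fun C _ => hn C C.2] with y' a1 a2 h'
      rw [a1 fun h'' => h' (Or.inl h''), a2]
    · have hyS : y ∉ S := disjoint_left.1 (h𝒞 C₀ hC₀).2.2.2.1 hyC
      have hn : ∀ C ∈ 𝒞, C ≠ C₀ → y ∉ C := fun C hC hne h' =>
        disjoint_left.1 (hdj C hC C₀ hC₀ hne) h' hyC
      have hmem : (⟨C₀, hC₀⟩ : 𝒞) ∈ hfin.toFinset := hfin.mem_toFinset.2 ⟨y, hyC, hy.1⟩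
      obtain ⟨b, hb⟩ := two (U := V ∩ (Sᶜ ∩ (⋃₀ {C ∈ 𝒞 | C ≠ C₀})ᶜ)) (h𝒞 C₀ hC₀).2.2.1 hyC
        (inter_mem (h.op.mem_nhds hyV) (inter_mem (hSc.compl_mem_nhds hyV hyS)
          ((hcl _).compl_mem_nhds hyV fun ⟨C, hC, h'⟩ => hn C hC.1 hC.2 h')))
        (hl₀.mono fun y' hy' => ⟨hy'.1.1, fun h' => h'.elim hy'.1.2.1
          fun ⟨C, hC, h''⟩ => hy'.1.2.2 ⟨C, ⟨hC, fun e => hy'.2 (e ▸ h'')⟩, h''⟩⟩)
        ((hzl C₀ hC₀).mono fun y' hy' => ⟨hy'.1.1, hy'.2⟩)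
        (jumps_congr (hj₀ y hy.2) (Eventually.of_forall fun y' h' =>
          ⟨fun h'' => h' (Or.inr ⟨C₀, hC₀, h''⟩), rfl⟩)) (hzj C₀ hC₀ y hyC)
      refine ⟨b + ζ y + ∑ C ∈ hfin.toFinset.erase ⟨C₀, hC₀⟩, z C y, ?_⟩
      filter_upwards [hb, hl y ⟨hyV, hyS⟩, hsum (hfin.toFinset.erase ⟨C₀, hC₀⟩) y hyV
        fun C hC => hn C C.2 fun e => (Finset.mem_erase.1 hC).1 (Subtype.ext e)] with y' a1 a2 a3 h'
      rw [← Finset.add_sum_erase _ _ hmem, a3, a2, ← a1 fun h'' => h' (Or.inr ⟨C₀, hC₀, h''⟩)]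
      ring

end P073.SF
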