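import Vale.Agent.P073Z.SURF.Core
import Vale.Agent.P073Z.MAN.Ex
import Vale.Agent.P073Z.A12
import Vale.Agent.P073Z.DISC2.Path

/-!
# The normal surface separates top from bottom
-/

open Set Metric Topology Filter MeasureTheory
open scoped ENNReal NNReal

namespace P073.SF

namespace Aux

theorem exists_vertex_face {E : Type} [NormedAddCommGroup E] [NormedSpace ℝ E] (K : RCx E) :
    ∀ (n : ℕ) (i : K.ι), K.dim i = n → ∃ x ∈ K.cell i, x ∈ K.skel 0 := by
  intro n
  induction n using Nat.strong_induction_on with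
  | _ n ih =>
    intro i hi
    rcases n with _ | n
    · obtain ⟨x, hx⟩ := K.cell_nonempty i
      exact ⟨x, hx, K.cell_subset_skel hi.le hx⟩
    · have hb := K.ball i
      rw [hi] at hb
      obtain ⟨x, hx⟩ := bd_nonempty hb
      obtain ⟨j, -, h2, h3⟩ := K.exists_face_bd hx
      obtain ⟨y, hy, hy'⟩ := ih _ (hi ▸ h3) j rfl
      exact ⟨y, K.bd_subset i (h2 hy), hy'⟩

theorem sign_const {ψ : E3 → ℝ} {A : Set E3} {c : ℝ} (hA : IsPreconnected A)
    (hψ : ContinuousOn ψ A) (hne : ∀ x ∈ A, ψ x ≠ c) {a b : E3} (ha : a ∈ A) (hb : b ∈ A) :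
    (c < ψ a ↔ c < ψ b) := by
  have key : ∀ a ∈ A, ∀ b ∈ A, c < ψ a → c < ψ b := by
    intro a ha b hb h
    by_contra h'
    obtain ⟨x, hx, hxc⟩ := hA.intermediate_value hb ha hψ ⟨not_lt.1 h', h.le⟩
    exact hne x hx hxc
  exact ⟨key a ha b hb, key b hb a ha⟩

theorem arc_diff_end {A : Set E3} {p q : E3} (h : IsArc A p q) : IsPreconnected (A \ {p}) := by
  exact h.isPreconnected_interior.subset_closure (fun x hx => ⟨hx.1, fun e => hx.2 (Or.inl e)⟩)
    fun x hx => h.conBall.subset_closure_int hx.1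

end Aux

open Aux

theorem zeta_of (hBOX : BOX) (hNMAN : NMAN) (hZARC : ZARC) (hSKC : SKC) : ZETA := by
  intro E _ _ G π ψ σ c η T I zp zm W N ζ hB hη hT hL hcell z1 z2 z3 x hx hxc
  classical
  obtain ⟨-, -, -, sk, n1, -⟩ := hNMAN T N hT hB.op hL
  have hψ : ContinuousOn ψ T.carrier := continuous_snd.comp_continuousOn hB.hom.cont
  have hu := Box.pi_mem hB hx
  obtain ⟨b1, b2, b3⟩ := Thin.bounds hη hu
  obtain ⟨x₁, v₁, p₁, q₁⟩ := Box.exists_pt hB hu (b1.trans_le b2) b3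
  have hx1 : -1 < ψ x := (hB.hom.mapsTo hx).2.1
  obtain ⟨hA1, hA2⟩ := (hBOX hB hη).2.2.1 _ hu _ _ hx1 (hxc.trans b2) b3
  have hM := hSKC T hA1 hA2 fun y hy => hy.1
  set f : E3 → ZMod 2 := fun y =>
    if ψ y = c then ζ (zp y) else ζ y + if c < ψ y then 0 else 1 with hf
  have hloc : ∀ y ∈ T.skel 1, ∀ᶠ y' in 𝓝[T.skel 1] y, f y' = f y := by
    intro y hy
    have hyV := T.skel_subset_carrier 1 hy
    by_cases hyc : ψ y = c
    · obtain ⟨e, e1, e2, e3, e4, e5, e6⟩ := hL.arc y hy hyc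
      have hne1 : y ≠ zm y := fun h => by rw [← h, hyc] at e5; exact lt_irrefl _ e5
      have hne2 : y ≠ zp y := fun h => by rw [← h, hyc] at e6; exact lt_irrefl _ e6
      have hb := T.ball e
      rw [e1] at hb
      have n1' : I y ∈ 𝓝[T.ocell e] y :=
        (manex.2.2.2.2.2 (manex.2.2.1 hb) e3.conBall e2 y e4).2 (by
          rintro (h | h)
          · exact hne1 h
          · exact hne2 h)
      have n2 : T.cell e ∈ 𝓝[T.skel 1] y :=
        (T.sub_skel 1).cell_mem_nhdsWithin (e2 e4) fun i hi _ => by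
          obtain ⟨w, hw⟩ := T.ocell_nonempty i
          rw [e1]
          exact (T.mem_skel_iff_dim hw).1 (hi (T.ocell_subset i hw))
      have n3 : (T.bd e)ᶜ ∈ 𝓝 y := (T.isClosed_bd e).isOpen_compl.mem_nhds (e2 e4).2
      have n4 : I y ∈ 𝓝[T.skel 1] y := by
        obtain ⟨U, hU, hU'⟩ := mem_nhdsWithin_iff_exists_mem_nhds_inter.1 n1'
        filter_upwards [n2, mem_nhdsWithin_of_mem_nhds n3, mem_nhdsWithin_of_mem_nhds hU]
          with w h1 h2 h3
        exact hU' ⟨h3, h1, h2⟩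
      obtain ⟨A₁, A₂, a1, a2, a3, -⟩ := arcs.2.1 e3 e4 hne1 hne2
      have hI : I y ⊆ T.skel 1 := fun w hw => T.cell_subset_skel e1.le (T.ocell_subset e (e2 hw))
      have hnz : ∀ w ∈ I y \ {y}, ψ w ≠ c := by
        intro w hw hwc
        obtain ⟨-, -, -, -, g4, -⟩ := hL.arc w (hI hw.1) hwc
        exact disjoint_left.1 (hL.disj w (hI hw.1) y hy hwc hyc hw.2) g4 hw.1
      have half : ∀ {A : Set E3} {q : E3}, IsArc A y q → A ⊆ I y → ∀ w ∈ A \ {y},
          ζ w = ζ q ∧ (c < ψ w ↔ c < ψ q) := by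
        intro A q hA hAI w hw
        have hq : q ∈ A \ {y} := ⟨hA.right_mem, hA.ne.symm⟩
        have hs : A \ {y} ⊆ I y \ {y} := sdiff_subset_sdiff_left hAI
        refine ⟨LocC.const z1 (arc_diff_end hA) (fun v hv => ⟨T.skel_subset_carrier 1
          (hI (hs hv).1), fun h => hnz v (hs hv) (sk v h (hI (hs hv).1))⟩) hw hq,
          sign_const (arc_diff_end hA) (hψ.mono fun v hv =>
            T.skel_subset_carrier 1 (hI (hs hv).1)) (fun v hv => hnz v (hs hv)) hw hq⟩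
      have hz := hZARC T N hT hB.op hL z1 z2 y hy hyc
      filter_upwards [n4] with w hw
      by_cases hwy : w = y
      · rw [hwy]
      have hwc := hnz w ⟨hw, hwy⟩
      simp only [hf, if_neg hwc, if_pos hyc]
      rw [← a3] at hw
      rcases hw with hw | hw
      · obtain ⟨h1, h2⟩ := half a1.symm (a3 ▸ subset_union_left) w ⟨hw, hwy⟩
        rw [h1, if_neg fun h => (h2.1 h).not_gt e5]
        revert hz
        generalize ζ (zp y) = s
        generalize ζ (zm y) = t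
        revert s t
        decide
      · obtain ⟨h1, h2⟩ := half a2 (a3 ▸ subset_union_right) w ⟨hw, hwy⟩
        rw [h1, if_pos (h2.2 e6), add_zero]
    · have h1 := z1 y ⟨hyV, fun h => hyc (sk y h hy)⟩
      have h2 : ContinuousAt ψ y := hψ.continuousAt (hB.op.mem_nhds hyV)
      refine mem_nhdsWithin_of_mem_nhds ?_
      rcases lt_or_gt_of_ne hyc with h | h
      · filter_upwards [h1, h2.eventually (gt_mem_nhds h)] with w h3 h4
        simp only [hf, if_neg hyc, if_neg h4.ne, if_neg h.not_gt, if_neg h4.not_gt, h3]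
      · filter_upwards [h1, h2.eventually (lt_mem_nhds h)] with w h3 h4
        simp only [hf, if_neg hyc, if_neg h4.ne', if_pos h, if_pos h4, h3]
  have far : ∀ y ∈ {z ∈ T.carrier | π z = π x ∧ ψ z ∈ Icc (ψ x) (c + η (π x))},
      y ∉ slab T.carrier π ψ c η →
      ∃ v ∈ ⋃ i, ⋃ (_ : (T.cell i ∩
        {z ∈ T.carrier | π z = π x ∧ ψ z ∈ Icc (ψ x) (c + η (π x))}).Nonempty),
        T.cell i ∩ T.skel 1, f v = ζ y + if c < ψ y then 0 else 1 := by
    intro y hy hys
    obtain ⟨i, hi⟩ := T.mem_carrier.1 hy.1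
    have hnz : ∀ w ∈ T.cell i, ψ w ≠ c := fun w hw h => hys (hcell i ⟨w, hw, h⟩ hi)
    obtain ⟨v, hv, hv'⟩ := exists_vertex_face T _ i rfl
    have hc : IsPreconnected (T.cell i) := (hT i).1.isPreconnected
    refine ⟨v, mem_iUnion₂.2 ⟨i, ⟨y, hi, hy⟩, hv, T.skel_mono zero_le_one hv'⟩, ?_⟩
    have h1 := LocC.const z1 hc (fun w hw => ⟨T.cell_subset_carrier i hw, fun h => by
      obtain ⟨z, h2, h3⟩ := n1 w h i hw
      exact hnz z h2 h3⟩) hv hi
    have h2 := sign_const hc (hψ.mono (T.cell_subset_carrier i)) hnz hv hi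
    simp only [hf, if_neg (hnz v hv), h1, h2]
  have hη0 := hη.1.2 _ hu
  obtain ⟨v₀, m₀, f₀⟩ := far x ⟨hx, rfl, le_rfl, hxc.trans b2⟩ fun h => by
    have := (abs_lt.1 h.2).1
    linarith
  obtain ⟨w₁, m₁, f₁⟩ := far x₁ ⟨v₁, p₁, by rw [q₁]; exact ⟨hxc.trans b2, le_rfl⟩⟩ fun h => by
    have := (abs_lt.1 h.2).2
    rw [p₁, q₁] at this
    linarith
  have hsub : (⋃ i, ⋃ (_ : (T.cell i ∩
      {z ∈ T.carrier | π z = π x ∧ ψ z ∈ Icc (ψ x) (c + η (π x))}).Nonempty),
      T.cell i ∩ T.skel 1) ⊆ T.skel 1 := iUnion₂_subset fun _ _ => inter_subset_right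
  have hconst : f v₀ = f w₁ := by
    refine hM.constant (fun y hy => ?_) m₀ m₁
    have h1 : f =ᶠ[𝓝[T.skel 1] y] fun _ => f y := hloc y (hsub hy)
    exact (continuousWithinAt_const.congr_of_eventuallyEq h1 rfl).mono hsub
  rw [f₀, f₁, z3 x₁ v₁ (by rw [p₁, q₁]), if_neg (by linarith), if_pos (by rw [q₁]; linarith)]
    at hconst
  revert hconst
  generalize ζ x = s
  revert s
  decide

end P073.SF
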