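import Vale.Agent.P073Z.SURF.Scx.Glue
import Vale.Agent.P073Z.Lam

/-!
# The strips along a circle form a surface
-/

open Set Metric Topology Filter

namespace P073.SF

theorem plMan_inter {E : Type} [NormedAddCommGroup E] [NormedSpace ℝ E] {n : ℕ} {W U : Set E}
    (hW : IsOpen W)
    (h : ∀ x ∈ W ∩ U, ∃ C B, ConBall n C B ∧ x ∈ C \ B ∧ C ⊆ U ∧ C ∈ 𝓝[U] x) :
    PLMan n (W ∩ U) := fun x hx => by
  obtain ⟨C, B, h1, h2, h3, h4⟩ := h x hx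
  obtain ⟨C', B', k1, k2, k3, k4⟩ := h1.plMan.small h2
    (mem_nhdsWithin_of_mem_nhds (hW.mem_nhds hx.1))
  refine ⟨C', B', k1, k2, fun y hy => ⟨(k3 hy).2, h3 (k3 hy).1.1⟩, ?_⟩
  have h5 : C \ B ∈ 𝓝[U] x := inter_mem h4
    (mem_nhdsWithin_of_mem_nhds (h1.isCompact_bdry.isClosed.isOpen_compl.mem_nhds h2.2))
  exact nhdsWithin_mono x inter_subset_right (nhdsWithin_le_of_mem h5 k4)

variable {T : RCx E3} {ψ : E3 → ℝ} {c : ℝ} {I : E3 → Set E3} {zp zm : E3 → E3} {W : Set E3}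

/-- the facts about a strip -/
theorem Nrm.strip_facts (N : Nrm T ψ c I zp zm W) {a : N.X.ι} (ha : N.X.dim a = 1) :
    ∃ B, ConBall 2 (N.strip a) B ∧ N.strip a ⊆ T.cell (N.host a) ∧
      N.strip a ∩ T.bd (N.host a) ⊆ B ∧ B ∩ W ⊆ T.bd (N.host a) ∧
      (∀ y, y ∈ N.strip a ∩ T.bd (N.host a) ↔ ∃ z ∈ N.X.bd a, y ∈ I z) ∧
      ∀ z ∈ N.X.bd a, zp z ∉ W ∧ zm z ∉ W := by
  obtain ⟨p, q, h1, -, -, h4, h5, h6, h7, h8, -, -, -, -, h9, -⟩ := N.arc a ha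
  refine ⟨_, h4, h5, fun y hy => Or.inl (Or.inl (h6 ▸ hy)), ?_, fun y => ?_, fun z hz => ?_⟩
  · rintro y ⟨(hy | hy) | hy, hw⟩
    · exact (h6 ▸ hy : y ∈ N.strip a ∩ T.bd (N.host a)).2
    · exact (disjoint_left.1 h9 (Or.inl hy) hw).elim
    · exact (disjoint_left.1 h9 (Or.inr hy) hw).elim
  · rw [h6, h1]
    simp
  · rw [h1] at hz
    rcases hz with rfl | rfl
    · exact ⟨disjoint_left.1 h9 (Or.inl h7.left_mem), disjoint_left.1 h9 (Or.inr h8.left_mem)⟩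
    · exact ⟨disjoint_left.1 h9 (Or.inl h7.right_mem), disjoint_left.1 h9 (Or.inr h8.right_mem)⟩

theorem Nrm.host_two (N : Nrm T ψ c I zp zm W) {a : N.X.ι} (ha : N.X.dim a = 1) :
    T.dim (N.host a) = 2 := by rw [N.host_dim, ha]

theorem Nrm.zero_of_bd (N : Nrm T ψ c I zp zm W) {a : N.X.ι} (ha : N.X.dim a = 1) {z : E3}
    (hz : z ∈ N.X.bd a) : z ∈ T.skel 1 ∧ ψ z = c :=
  (N.vert z).1 (N.X.bd_subset_skel (by rw [ha]) hz)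

theorem Nrm.host_eq (N : Nrm T ψ c I zp zm W) {a : N.X.ι} {F : T.ι} (ha : N.X.dim a = 1)
    (hF : T.dim F = 2) {p : E3} (hp : p ∈ T.ocell F) (hs : p ∈ N.strip a) : N.host a = F := by
  obtain ⟨B, -, h2, -⟩ := N.strip_facts ha
  exact (T.eq_of_subset_of_dim_le (T.cell_subset_of_mem hp (h2 hs))
    (by rw [hF, N.host_two ha])).symm

theorem Nrm.strip_unique (N : Nrm T ψ c I zp zm W) {a a' : N.X.ι} (ha : N.X.dim a = 1)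
    (ha' : N.X.dim a' = 1) (h : N.host a = N.host a') {p : E3} (hs : p ∈ N.strip a)
    (hs' : p ∈ N.strip a') : a = a' := by
  by_contra hne
  exact disjoint_left.1 (N.strip_disj a a' ha ha' hne h) hs hs'

theorem union_mem_nhds {ι : Type} (J : Finset ι) {S : ι → Set E3} (hS : ∀ a ∈ J, IsClosed (S a))
    {x : E3} {D : Set E3} (h : ∀ a ∈ J, x ∈ S a → S a ⊆ D) : D ∈ 𝓝[⋃ a ∈ J, S a] x := by
  have h1 : ∀ᶠ y in 𝓝 x, ∀ a ∈ J, y ∈ S a → x ∈ S a := by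
    rw [J.eventually_all]
    intro a ha
    by_cases hx : x ∈ S a
    · exact Eventually.of_forall fun _ _ => hx
    · filter_upwards [(hS a ha).isOpen_compl.mem_nhds hx] with y hy hy' using absurd hy' hy
  filter_upwards [mem_nhdsWithin_of_mem_nhds h1, self_mem_nhdsWithin] with y hy hy'
  obtain ⟨a, ha, h2⟩ := mem_iUnion₂.1 hy'
  exact h a ha (hy a ha h2) h2

theorem annu : ANNU := by
  intro T ψ c I zp zm W N _ _ hL hW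
  refine ⟨fun J hJ => plMan_inter hW fun x hx => ?_, fun a F ha hF p hp hpF hs => ?_⟩
  swap
  · obtain rfl := N.host_eq ha hF hpF hs
    obtain ⟨B, h1, h2, -, h4, -⟩ := N.strip_facts ha
    exact ⟨rfl, (Lam.sub_open (hF ▸ T.ball _) h1 h2).2 p ⟨hs, fun h => hpF.2 (h4 ⟨h, hp⟩)⟩,
      fun a' ha' hs' => N.strip_unique ha' ha (N.host_eq ha' hF hpF hs') hs' hs⟩
  obtain ⟨a, haJ, hxa⟩ := mem_iUnion₂.1 hx.2
  have ha := hJ.1 a haJ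
  have hcl : ∀ b ∈ J, IsClosed (N.strip b) := fun b hb =>
    let ⟨_, h, _⟩ := N.strip_facts (hJ.1 b hb); h.isClosed
  obtain ⟨B, h1, h2, -, h4, h5, h6⟩ := N.strip_facts ha
  by_cases hb : x ∈ T.bd (N.host a)
  swap
  · refine ⟨_, B, h1, ⟨hxa, fun h => hb (h4 ⟨h, hx.1⟩)⟩, subset_biUnion_of_mem (u := N.strip) haJ,
      union_mem_nhds J hcl fun b hb' hxb => ?_⟩
    rw [N.strip_unique (hJ.1 b hb') ha
      (N.host_eq (hJ.1 b hb') (N.host_two ha) ⟨h2 hxa, hb⟩ hxb) hxb hxa]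
  obtain ⟨z, hz, hxz⟩ := (h5 x).1 ⟨hxa, hb⟩
  obtain ⟨v, hv, hvz⟩ := N.X.vertex_of_mem_bd ha hz
  obtain ⟨z1, z2⟩ := N.zero_of_bd ha hz
  obtain ⟨e, he, k1, k2, -⟩ := hL.arc z z1 z2
  have hsub : ∀ b ∈ J, N.X.cell b ⊆ ⋃ a ∈ J, N.X.cell a := fun b hb =>
    subset_biUnion_of_mem (u := N.X.cell) hb
  obtain ⟨a₁, a₂, hne, h7⟩ := (man N.X (n := 0) (N.X.sub_biUnion fun b => b ∈ J)
    ((mod_thm (E := E3)).2.2.1.1 hJ.2).plMan).2.2.2.1 v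
    (hvz ▸ singleton_subset_iff.2 (hsub a haJ (N.X.bd_subset a hz))) hv
  have h8 : ∀ b, b = a₁ ∨ b = a₂ → b ∈ J ∧ z ∈ N.X.bd b := fun b hb => by
    obtain ⟨m1, m2, m3⟩ := (h7 b).2 hb
    obtain ⟨y, hy⟩ := N.X.ocell_nonempty b
    obtain ⟨b', m4, m5⟩ := mem_iUnion₂.1 (m2 hy.1)
    refine ⟨?_, N.X.subset_bd_of_dim_lt m1 (by rw [hv, m3]; exact one_pos) (hvz ▸ rfl)⟩
    rwa [N.X.eq_of_subset_of_dim_le (N.X.cell_subset_of_mem hy m5) (by rw [m3, hJ.1 b' m4])]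
  obtain ⟨j₁, y₁⟩ := h8 a₁ (Or.inl rfl)
  obtain ⟨j₂, y₂⟩ := h8 a₂ (Or.inr rfl)
  obtain ⟨B₁, p1, p2, p3, -, p5, -⟩ := N.strip_facts (hJ.1 _ j₁)
  obtain ⟨B₂, q1, q2, q3, -, q5, -⟩ := N.strip_facts (hJ.1 _ j₂)
  have hh : N.host a₁ ≠ N.host a₂ := fun h => hne (N.strip_unique (hJ.1 _ j₁) (hJ.1 _ j₂) h
    ((p5 x).2 ⟨z, y₁, hxz⟩).1 ((q5 x).2 ⟨z, y₂, hxz⟩).1)
  have hd : T.dim (N.host a₁) = T.dim (N.host a₂) := by
    rw [N.host_two (hJ.1 _ j₁), N.host_two (hJ.1 _ j₂)]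
  obtain ⟨C, L, r1, r2, r3, r4⟩ := glue2 p1 q1 k2 (fun y hy => p3 ((p5 y).2 ⟨z, y₁, hy⟩))
    (fun y hy => q3 ((q5 y).2 ⟨z, y₂, hy⟩))
    (fun y hy => p3 ⟨hy.1, T.inter_subset_bd hh hd.ge ⟨p2 hy.1, q2 hy.2⟩⟩)
    (fun y hy => q3 ⟨hy.2, T.inter_subset_bd hh.symm hd.le ⟨q2 hy.2, p2 hy.1⟩⟩) hxz
    (fun h => (h6 z hz).2 (h ▸ hx.1)) fun h => (h6 z hz).1 (h ▸ hx.1)
  refine ⟨C, L, r1, r2, r3.trans (union_subset (subset_biUnion_of_mem (u := N.strip) j₁)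
    (subset_biUnion_of_mem (u := N.strip) j₂)),
    nhdsWithin_le_of_mem (union_mem_nhds J hcl fun b hb hxb => ?_) r4⟩
  obtain ⟨B', -, s2, -, -, s5, -⟩ := N.strip_facts (hJ.1 b hb)
  obtain ⟨z', t1, t2⟩ := (s5 x).1 ⟨hxb, T.subset_bd_of_dim_lt
    (T.cell_subset_of_mem (k1 hxz) (s2 hxb)) (by rw [he, N.host_two (hJ.1 b hb)]; exact one_lt_two)
    (k1 hxz).1⟩
  obtain ⟨u1, u2⟩ := N.zero_of_bd (hJ.1 b hb) t1
  have h9 : z' = z := by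
    by_contra h
    exact disjoint_left.1 (hL.disj z' u1 z z1 u2 z2 h) t2 hxz
  rcases (h7 b).1 ⟨hvz ▸ singleton_subset_iff.2 (N.X.bd_subset b (h9 ▸ t1)), hsub b hb,
    hJ.1 b hb⟩ with rfl | rfl
  · exact subset_union_left
  · exact subset_union_right

end P073.SF
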