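import Vale.Agent.P073Z.RCX
import Vale.Agent.P073Z.DISC2
import Vale.Agent.P073Z.A12
import Vale.Agent.P073Z.MAN.Ex

/-!
# Chains modulo two on a surface complex: small cycles bound discs
-/

open Set Metric Topology Filter

namespace P073

variable {E : Type} [NormedAddCommGroup E] [NormedSpace ℝ E]

namespace RCx

variable (K : RCx E)

/-- the union of a family of cells -/
def un (I : Set K.ι) : Set E := ⋃ i ∈ I, K.cell i

/-- `j₁` and `j₂` are two different two-cells on the edge `a` -/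
structure Adj (a j₁ j₂ : K.ι) : Prop where
  d : K.dim a = 1
  d₁ : K.dim j₁ = 2
  d₂ : K.dim j₂ = 2
  ne : j₁ ≠ j₂
  s₁ : K.cell a ⊆ K.cell j₁
  s₂ : K.cell a ⊆ K.cell j₂

/-- the boundary modulo two of the family `I` of two-cells consists of the edges in `C` -/
def Bds (I : Set K.ι) (C : Set E) : Prop :=
  ∀ a j₁ j₂, K.Adj a j₁ j₂ → (K.cell a ⊆ C ↔ Xor (j₁ ∈ I) (j₂ ∈ I))

/-- no finite family in `𝓕` is closed -/
def Acyc (𝓕 : Set K.ι) : Prop := ∀ I ⊆ 𝓕, I.Finite → K.Bds I ∅ → I = ∅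

/-- the cycles in `W` are boundaries of finite families in `𝓕` -/
def Fill (W : Set E) (𝓕 : Set K.ι) : Prop :=
  ∀ C, K.Sub C → IsCircle C → C ⊆ W → ∃ I ⊆ 𝓕, I.Finite ∧ K.Bds I C

variable {K}

theorem mem_un {I : Set K.ι} {x : E} : x ∈ K.un I ↔ ∃ i ∈ I, x ∈ K.cell i := by
  simp only [un, mem_iUnion, exists_prop]

theorem subset_un {I : Set K.ι} {i : K.ι} (h : i ∈ I) : K.cell i ⊆ K.un I :=
  fun _ hx => mem_un.2 ⟨i, h, hx⟩

theorem un_mono {I I' : Set K.ι} (h : I ⊆ I') : K.un I ⊆ K.un I' := fun _ hx =>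
  let ⟨i, hi, hx⟩ := mem_un.1 hx; mem_un.2 ⟨i, h hi, hx⟩

theorem un_subset (I : Set K.ι) : K.un I ⊆ K.carrier := fun _ hx =>
  let ⟨i, _, hx⟩ := mem_un.1 hx; K.cell_subset_carrier i hx

theorem un_union (I I' : Set K.ι) : K.un (I ∪ I') = K.un I ∪ K.un I' := biUnion_union _ _ _

theorem isClosed_un {I : Set K.ι} (h : I.Finite) : IsClosed (K.un I) :=
  h.isClosed_biUnion fun i _ => K.isClosed_cell i

theorem Fill.mono {W W' : Set E} {𝓕 𝓕' : Set K.ι} (h : K.Fill W 𝓕) (hW : W' ⊆ W)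
    (hF : 𝓕 ⊆ 𝓕') : K.Fill W' 𝓕' := fun C h1 h2 h3 =>
  let ⟨I, k1, k2, k3⟩ := h C h1 h2 (h3.trans hW); ⟨I, k1.trans hF, k2, k3⟩

theorem Adj.symm {a j₁ j₂ : K.ι} (h : K.Adj a j₁ j₂) : K.Adj a j₂ j₁ :=
  ⟨h.d, h.d₂, h.d₁, h.ne.symm, h.s₂, h.s₁⟩

theorem circle_bd {j : K.ι} (h : K.dim j = 2) : IsCircle (K.bd j) :=
  (mod_thm (E := E)).2.2.1.2 (ConBall.conSphere (n := 1) (h ▸ K.ball j))

theorem _root_.P073.IsCircle.plMan {C : Set E} (h : IsCircle C) : PLMan 1 C :=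
  ((mod_thm (E := E)).2.2.1.1 h).plMan

/-- one of two closed pieces of a subcomplex which meet in a subcomplex -/
theorem Sub.piece {X P A B : Set E} (hX : K.Sub X) (hP : K.Sub P) (hA : IsClosed A)
    (hB : IsClosed B) (hu : A ∪ B = X) (hi : A ∩ B = P) : K.Sub A := by
  intro x hx
  by_cases hxP : x ∈ P
  · obtain ⟨i, h1, h2⟩ := hP x hxP
    exact ⟨i, h1, h2.trans (hi ▸ inter_subset_left)⟩
  · have hxX : x ∈ X := hu ▸ Or.inl hx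
    obtain ⟨k, hk⟩ := K.exists_ocell (hX.subset_carrier hxX)
    have h1 : K.cell k ⊆ A ∪ B := hu ▸ hX.cell_subset hk hxX
    have h2 : K.ocell k ∩ (A ∩ B) = ∅ := by
      rw [hi]
      exact eq_empty_of_forall_notMem fun y hy => hxP (hP.cell_subset hy.1 hy.2 hk.1)
    rcases isPreconnected_iff_subset_of_disjoint_closed.1
      (K.ball k).isConnected_int.isPreconnected A B hA hB ((K.ocell_subset k).trans h1) h2 with
      h3 | h3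
    · exact ⟨k, hk.1, (K.ball k).subset_closure_int.trans (closure_minimal h3 hA)⟩
    · exact absurd (hi ▸ ⟨hx, h3 hk⟩ : x ∈ P) hxP

theorem not_edge_pair {a : K.ι} (h : K.dim a = 1) (p q : E) : ¬ K.cell a ⊆ {p, q} := by
  intro hs
  obtain ⟨u, v, -, -, ha, hb, -⟩ := K.exists_edge h
  obtain ⟨x, hx, hx'⟩ := K.ocell_nonempty a
  rw [hb, mem_insert_iff, mem_singleton_iff, not_or] at hx'
  have h1 := ha.ne
  rcases hs hx with rfl | rfl <;> rcases hs ha.left_mem with h2 | h2 <;>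
    rcases hs ha.right_mem with h3 | h3 <;> simp_all

/-- an edge in a union of two subcomplexes lies in one of them -/
theorem Sub.cell_union {A B : Set E} (hA : K.Sub A) (hB : K.Sub B) (a : K.ι) :
    K.cell a ⊆ A ∪ B ↔ K.cell a ⊆ A ∨ K.cell a ⊆ B := by
  refine ⟨fun h => ?_, fun h => h.elim (fun h => h.trans subset_union_left)
    fun h => h.trans subset_union_right⟩
  obtain ⟨x, hx⟩ := K.ocell_nonempty a
  exact (h hx.1).imp (hA.cell_subset hx) (hB.cell_subset hx)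

theorem sum_pair {ι : Type} [DecidableEq ι] (s : Finset ι) (p : ι → Prop) [DecidablePred p]
    {j₁ j₂ : ι} (hne : j₁ ≠ j₂) (h : ∀ j ∈ s, p j ↔ j = j₁ ∨ j = j₂) :
    ∑ j ∈ s, (if p j then (1 : ZMod 2) else 0) =
      (if j₁ ∈ s then 1 else 0) + (if j₂ ∈ s then 1 else 0) := by
  rw [← Finset.sum_ite_eq' s j₁ (fun _ => (1 : ZMod 2)),
    ← Finset.sum_ite_eq' s j₂ (fun _ => (1 : ZMod 2)), ← Finset.sum_add_distrib]
  refine Finset.sum_congr rfl fun j hj => ?_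
  rw [if_congr (h j hj) rfl rfl]
  by_cases h1 : j = j₁
  · subst h1
    simp [hne]
  · by_cases h2 : j = j₂ <;> simp [h1, h2, hne.symm]

theorem xor1 {A₁ A₂ B x₁ x₂ y₁ y₂ : Prop} (k1 : A₁ ∨ B ↔ Xor x₁ y₁) (k2 : A₂ ∨ B ↔ Xor x₂ y₂)
    (k3 : B → ¬ (A₁ ∨ A₂)) (k4 : ¬ (A₁ ∧ A₂)) : A₁ ∨ A₂ ↔ Xor (Xor x₁ x₂) (Xor y₁ y₂) := by
  simp only [Xor] at *
  grind

theorem xor2 {i j x₁ x₂ y₁ y₂ : Prop} (k0 : ¬ Xor i j) (k1 : i ↔ Xor x₁ x₂) (k2 : j ↔ Xor y₁ y₂)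
    (k3 : i ∨ j) : ¬ Xor (x₁ ∧ x₂) (y₁ ∧ y₂) := by
  simp only [Xor] at *
  grind

theorem xor3 {x₁ x₂ y₁ y₂ : Prop} (k1 : ¬ Xor x₁ y₁) (k2 : ¬ Xor x₂ y₂) :
    ¬ Xor (x₁ ∧ x₂) (y₁ ∧ y₂) := by
  simp only [Xor] at *
  grind

theorem xor4 {i j x y : Prop} (k1 : ¬ Xor i j) (k2 : ¬ i ∨ ¬ j) : ¬ Xor (i ∧ x) (j ∧ y) := by
  simp only [Xor] at *
  grind

theorem xor5 {c x₁ x₂ y₁ y₂ : Prop} (k1 : c ↔ Xor x₁ y₁) (k2 : c ↔ Xor x₂ y₂) :
    ¬ Xor (Xor x₁ x₂) (Xor y₁ y₂) := by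
  simp only [Xor] at *
  grind

/-- two fillings of the same cycle agree -/
theorem Acyc.eq {𝓕 I I' : Set K.ι} {C : Set E} (h : K.Acyc 𝓕) (hI : I ⊆ 𝓕) (hI' : I' ⊆ 𝓕)
    (f : I.Finite) (f' : I'.Finite) (b : K.Bds I C) (b' : K.Bds I' C) : I = I' := by
  have h1 := h {j | Xor (j ∈ I) (j ∈ I')} (fun j hj => hj.elim (fun k => hI k.1) fun k => hI' k.1)
    ((f.union f').subset fun j hj => hj.imp And.left And.left) fun a j₁ j₂ k =>
      iff_of_false (fun k3 => (K.cell_nonempty a).ne_empty (subset_empty_iff.1 k3))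
        (xor5 (b a j₁ j₂ k) (b' a j₁ j₂ k))
  ext j
  have h2 : ¬ Xor (j ∈ I) (j ∈ I') := fun k => (h1 ▸ k : j ∈ (∅ : Set K.ι))
  exact (not_xor _ _).1 h2

section Man

variable [FiniteDimensional ℝ E] (hM : MAN)
include hM

/-- every point of a cycle lies on an edge of the cycle -/
theorem Sub.exists_edge {C : Set E} (hC : K.Sub C) (hc : IsCircle C) {x : E} (hx : x ∈ C) :
    ∃ a, K.dim a = 1 ∧ K.cell a ⊆ C ∧ x ∈ K.cell a := by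
  obtain ⟨i, h1, h2⟩ := hC x hx
  obtain ⟨j, h3, h4, h5⟩ := (hM K (n := 0) hC hc.plMan).2.1 i h2
  exact ⟨j, h5, h4, h3 h1⟩

/-- a vertex of a cycle lies on exactly two edges of the cycle -/
theorem Sub.two_edges {C : Set E} (hC : K.Sub C) (hc : IsCircle C) {v : K.ι} (hv : K.dim v = 0)
    (hs : K.cell v ⊆ C) : ∃ a₁ a₂, a₁ ≠ a₂ ∧ ∀ a,
      (K.cell v ⊆ K.cell a ∧ K.cell a ⊆ C ∧ K.dim a = 1) ↔ (a = a₁ ∨ a = a₂) :=
  (hM K (n := 0) hC hc.plMan).2.2.2.1 v hs hv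

variable (hK : PLMan 2 K.carrier)
include hK

theorem exists_adj {a : K.ι} (h : K.dim a = 1) : ∃ j₁ j₂, K.Adj a j₁ j₂ ∧
    ∀ j, K.cell a ⊆ K.cell j → K.dim j = 2 → j = j₁ ∨ j = j₂ := by
  obtain ⟨j₁, j₂, h1, h2⟩ :=
    (hM K (n := 1) K.sub_carrier hK).2.2.2.1 a (K.cell_subset_carrier a) h
  have k1 := (h2 j₁).2 (Or.inl rfl)
  have k2 := (h2 j₂).2 (Or.inr rfl)
  exact ⟨j₁, j₂, ⟨h, k1.2.2, k2.2.2, h1, k1.1, k2.1⟩,
    fun j h3 h4 => (h2 j).1 ⟨h3, K.cell_subset_carrier j, h4⟩⟩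

theorem Adj.two {a j₁ j₂ j : K.ι} (h : K.Adj a j₁ j₂) (hs : K.cell a ⊆ K.cell j)
    (hd : K.dim j = 2) : j = j₁ ∨ j = j₂ := by
  obtain ⟨k₁, k₂, -, h2⟩ := exists_adj hM hK h.d
  have h3 := h.ne
  rcases h2 j₁ h.s₁ h.d₁ with rfl | rfl <;> rcases h2 j₂ h.s₂ h.d₂ with rfl | rfl <;>
    rcases h2 j hs hd with rfl | rfl <;> simp_all

theorem exists_adj_of {a j : K.ι} (h : K.dim a = 1) (hs : K.cell a ⊆ K.cell j)
    (hd : K.dim j = 2) : ∃ j', K.Adj a j j' := by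
  obtain ⟨j₁, j₂, h1, h2⟩ := exists_adj hM hK h
  rcases h2 j hs hd with rfl | rfl
  · exact ⟨_, h1⟩
  · exact ⟨_, h1.symm⟩

theorem Adj.xor_iff {a j₁ j₂ k₁ k₂ : K.ι} (h : K.Adj a j₁ j₂) (h' : K.Adj a k₁ k₂)
    (Y : Set K.ι) : Xor (j₁ ∈ Y) (j₂ ∈ Y) ↔ Xor (k₁ ∈ Y) (k₂ ∈ Y) := by
  have h3 := h'.ne
  rcases h.two hM hK h'.s₁ h'.d₁ with rfl | rfl <;>
    rcases h.two hM hK h'.s₂ h'.d₂ with rfl | rfl
  · exact absurd rfl h3
  · rfl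
  · rw [xor_comm]
  · exact absurd rfl h3

theorem bds_single {j : K.ι} (hj : K.dim j = 2) : K.Bds {j} (K.bd j) := by
  intro a j₁ j₂ h
  have h3 := h.ne
  simp only [mem_singleton_iff]
  constructor
  · intro h1
    rcases h.two hM hK (h1.trans (K.bd_subset j)) hj with rfl | rfl
    · exact Or.inl ⟨rfl, h3.symm⟩
    · exact Or.inr ⟨rfl, h3⟩
  · rintro (⟨rfl, -⟩ | ⟨rfl, -⟩)
    · exact K.subset_bd_of_dim_lt h.s₁ (by rw [h.d, hj]; norm_num)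
    · exact K.subset_bd_of_dim_lt h.s₂ (by rw [h.d, hj]; norm_num)

/-- the boundary of a chain has no vertex of degree one -/
theorem no_end {Y : Set K.ι} (hY : Y.Finite) (hd : ∀ j ∈ Y, K.dim j = 2) {v a₀ : K.ι}
    (hv : K.dim v = 0) (h0 : ∀ a j₁ j₂, K.Adj a j₁ j₂ → K.cell v ⊆ K.cell a →
      (Xor (j₁ ∈ Y) (j₂ ∈ Y) ↔ a = a₀)) (ha : K.dim a₀ = 1) (hs : K.cell v ⊆ K.cell a₀) :
    False := by
  classical
  have hA : {a | K.cell v ⊆ K.cell a ∧ K.dim a = 1}.Finite :=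
    (K.finite_cofaces v).subset fun a ha => ha.1
  have h1 : ∀ a ∈ hA.toFinset, ∑ j ∈ hY.toFinset,
      (if K.cell a ⊆ K.cell j then (1 : ZMod 2) else 0) = if a = a₀ then 1 else 0 := by
    intro a ha
    rw [Finite.mem_toFinset] at ha
    obtain ⟨j₁, j₂, k1, k2⟩ := exists_adj hM hK ha.2
    rw [sum_pair _ _ k1.ne fun j hj => ⟨fun h => k2 j h (hd j (hY.mem_toFinset.1 hj)), by
      rintro (rfl | rfl)
      exacts [k1.s₁, k1.s₂]⟩, if_congr (h0 a j₁ j₂ k1 ha.1).symm rfl rfl]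
    simp only [Finite.mem_toFinset]
    by_cases m1 : j₁ ∈ Y <;> by_cases m2 : j₂ ∈ Y <;> simp [m1, m2, Xor]
    rfl
  have h2 : ∀ j ∈ hY.toFinset, ∑ a ∈ hA.toFinset,
      (if K.cell a ⊆ K.cell j then (1 : ZMod 2) else 0) = 0 := by
    intro j hj
    have hj2 := hd j (hY.mem_toFinset.1 hj)
    by_cases hvj : K.cell v ⊆ K.cell j
    · obtain ⟨a₁, a₂, k1, k2⟩ := (K.sub_bd j).two_edges hM (circle_bd hj2) hv
        (K.subset_bd_of_dim_lt hvj (by rw [hv, hj2]; norm_num))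
      have m1 := (k2 a₁).2 (Or.inl rfl)
      have m2 := (k2 a₂).2 (Or.inr rfl)
      rw [sum_pair _ _ k1 fun a ha => ?_, if_pos (hA.mem_toFinset.2 ⟨m1.1, m1.2.2⟩),
        if_pos (hA.mem_toFinset.2 ⟨m2.1, m2.2.2⟩)]
      · rfl
      · rw [Finite.mem_toFinset] at ha
        rw [← k2 a]
        exact ⟨fun h => ⟨ha.1, K.subset_bd_of_dim_lt h (by rw [ha.2, hj2]; norm_num), ha.2⟩,
          fun h => h.2.1.trans (K.bd_subset j)⟩
    · refine Finset.sum_eq_zero fun a ha => if_neg fun h => hvj ?_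
      exact (hA.mem_toFinset.1 ha).1.trans h
  have h3 := Finset.sum_comm (s := hA.toFinset) (t := hY.toFinset)
    (f := fun a j => if K.cell a ⊆ K.cell j then (1 : ZMod 2) else 0)
  rw [Finset.sum_congr rfl h1, Finset.sum_congr rfl h2, Finset.sum_const_zero,
    Finset.sum_ite_eq', if_pos (hA.mem_toFinset.2 ⟨hs, ha⟩)] at h3
  exact one_ne_zero h3

/-- a chain whose boundary lies in a cycle has boundary zero or the whole cycle -/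
theorem bds_or {Y : Set K.ι} (hY : Y.Finite) (hd : ∀ j ∈ Y, K.dim j = 2) {C : Set E}
    (hC : K.Sub C) (hc : IsCircle C)
    (h : ∀ a j₁ j₂, K.Adj a j₁ j₂ → Xor (j₁ ∈ Y) (j₂ ∈ Y) → K.cell a ⊆ C) :
    K.Bds Y ∅ ∨ K.Bds Y C := by
  let jump : K.ι → Prop := fun a => ∃ j₁ j₂, K.Adj a j₁ j₂ ∧ Xor (j₁ ∈ Y) (j₂ ∈ Y)
  have hj : ∀ a j₁ j₂, K.Adj a j₁ j₂ → (jump a ↔ Xor (j₁ ∈ Y) (j₂ ∈ Y)) := fun a j₁ j₂ h1 =>
    ⟨fun ⟨_, _, h2, h3⟩ => (h2.xor_iff hM hK h1 Y).1 h3, fun h2 => ⟨_, _, h1, h2⟩⟩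
  have hf := K.finite_subset hc.isCompact hC.subset_carrier
  let B₁ : Set K.ι := {a | K.cell a ⊆ C ∧ K.dim a = 1 ∧ jump a}
  let B₂ : Set K.ι := {a | K.cell a ⊆ C ∧ K.dim a = 1 ∧ ¬ jump a}
  have f1 : B₁.Finite := hf.subset fun a ha => ha.1
  have f2 : B₂.Finite := hf.subset fun a ha => ha.1
  have hcov : C ⊆ K.un B₁ ∪ K.un B₂ := fun x hx => by
    obtain ⟨a, h1, h2, h3⟩ := hC.exists_edge hM hc hx
    by_cases h4 : jump a
    · exact Or.inl (mem_un.2 ⟨a, ⟨h2, h1, h4⟩, h3⟩)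
    · exact Or.inr (mem_un.2 ⟨a, ⟨h2, h1, h4⟩, h3⟩)
  have hdis : ∀ x, x ∈ K.un B₁ → x ∈ K.un B₂ → False := by
    intro x h1 h2
    obtain ⟨a, ha, hxa⟩ := mem_un.1 h1
    obtain ⟨a', ha', hxa'⟩ := mem_un.1 h2
    have hne : a ≠ a' := fun e => ha'.2.2 (e ▸ ha.2.2)
    obtain ⟨v, hv, hvx⟩ := K.vertex_of_mem_bd ha.2.1
      (K.inter_subset_bd hne (by rw [ha.2.1, ha'.2.1]) ⟨hxa, hxa'⟩)
    have s1 : K.cell v ⊆ K.cell a := hvx ▸ singleton_subset_iff.2 hxa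
    have s2 : K.cell v ⊆ K.cell a' := hvx ▸ singleton_subset_iff.2 hxa'
    obtain ⟨a₁, a₂, -, k2⟩ := hC.two_edges hM hc hv (s1.trans ha.1)
    refine no_end hM hK hY hd hv (a₀ := a) (fun b j₁ j₂ k3 k4 => ⟨fun k5 => ?_, ?_⟩) ha.2.1 s1
    · have k6 : b ≠ a' := fun e => ha'.2.2 (e ▸ (hj b j₁ j₂ k3).2 k5)
      rcases (k2 b).1 ⟨k4, h b j₁ j₂ k3 k5, k3.d⟩ with rfl | rfl <;>
        rcases (k2 a).1 ⟨s1, ha.1, ha.2.1⟩ with rfl | rfl <;>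
        rcases (k2 a').1 ⟨s2, ha'.1, ha'.2.1⟩ with rfl | rfl <;> simp_all
    · rintro rfl
      exact (hj b j₁ j₂ k3).1 ha.2.2
  rcases isPreconnected_iff_subset_of_disjoint_closed.1
    ((arcs (E := E)).2.2.2.2.2.1 (p := 0) hc).1.isPreconnected _ _ (isClosed_un f1)
    (isClosed_un f2) hcov (eq_empty_of_forall_notMem fun x hx => hdis x hx.2.1 hx.2.2) with
    h1 | h1
  · refine Or.inr fun a j₁ j₂ k1 => ⟨fun k2 => (hj a j₁ j₂ k1).1 ?_, h a j₁ j₂ k1⟩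
    by_contra k3
    obtain ⟨x, hx⟩ := K.cell_nonempty a
    exact hdis x (h1 (k2 hx)) (mem_un.2 ⟨a, ⟨k2, k1.d, k3⟩, hx⟩)
  · refine Or.inl fun a j₁ j₂ k1 => ⟨fun k2 => ?_, fun k2 => ?_⟩
    · exact absurd (subset_empty_iff.1 k2) (K.cell_nonempty a).ne_empty
    · obtain ⟨x, hx⟩ := K.cell_nonempty a
      have k3 := h a j₁ j₂ k1 k2
      exact (hdis x (mem_un.2 ⟨a, ⟨k3, k1.d, (hj a j₁ j₂ k1).2 k2⟩, hx⟩) (h1 (k3 hx))).elim

omit hK in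
/-- a cross-cut of a cycle in the boundary of a two-cell -/
theorem exists_cross {C : Set E} (hC : K.Sub C) (hc : IsCircle C) {D a : K.ι} (hD : K.dim D = 2)
    (ha : K.dim a = 1) (haC : K.cell a ⊆ C) (haD : K.cell a ⊆ K.cell D) (hn : ¬ K.bd D ⊆ C) :
    ∃ (p q : E) (β A₁ A₂ : Set E) (b : K.ι), IsArc β p q ∧ IsArc A₁ p q ∧ IsArc A₂ p q ∧
      K.Sub β ∧ K.Sub A₁ ∧ K.Sub A₂ ∧ β ⊆ K.bd D ∧ β ∩ C = {p, q} ∧ A₁ ∪ A₂ = C ∧
      A₁ ∩ A₂ = {p, q} ∧ K.dim b = 1 ∧ K.cell b ⊆ β := by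
  have hB := circle_bd hD
  obtain ⟨a1, a2, a3, a4, a5, a6, a7⟩ := arcs (E := E)
  have haB : K.cell a ⊆ K.bd D := K.subset_bd_of_dim_lt haD (by rw [ha, hD]; norm_num)
  obtain ⟨x', hx'B, hx'C⟩ := not_subset.1 hn
  obtain ⟨b, hb, hbB, hxb⟩ := (K.sub_bd D).exists_edge hM hB hx'B
  obtain ⟨x, hx⟩ := K.ocell_nonempty b
  have hxC : x ∉ C := fun h => hx'C (hC.cell_subset hx h hxb)
  obtain ⟨y, hy⟩ := K.cell_nonempty a
  have hyx : y ≠ x := fun e => hxC (e ▸ haC hy)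
  obtain ⟨B₁, B₂, b1, b2, b3, b4, -⟩ := a3 hB (haB hy) (hbB hx.1) hyx
  obtain ⟨p, hp, B₁', c1, c2, c3⟩ := a7 b1 hc.isCompact.isClosed (haC hy) hxC
  obtain ⟨q, hq, B₂', d1, d2, d3⟩ := a7 b2 hc.isCompact.isClosed (haC hy) hxC
  have hpq : p ≠ q := by
    rintro rfl
    have h1 : p ∈ ({y, x} : Set E) := b4 ▸ ⟨hp.1, hq.1⟩
    rcases h1 with rfl | rfl
    · have e1 := b1.eq_of_isPreconnected c2 c1.isConnected.isPreconnected c1.left_mem c1.right_mem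
      have e2 := b2.eq_of_isPreconnected d2 d1.isConnected.isPreconnected d1.left_mem d1.right_mem
      refine not_edge_pair ha p p fun z hz => Or.inl ?_
      have h2 : z ∈ B₁ ∪ B₂ := b3 ▸ haB hz
      rcases h2 with h2 | h2
      · exact (c3 ▸ ⟨e1 ▸ h2, haC hz⟩ : z ∈ ({p} : Set E))
      · exact (d3 ▸ ⟨e2 ▸ h2, haC hz⟩ : z ∈ ({p} : Set E))
    · exact hxC hp.2
  have hβ : IsArc (B₁' ∪ B₂') p q := c1.trans d1.symm fun z hz => by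
    have h1 : z ∈ ({y, x} : Set E) := b4 ▸ ⟨c2 hz.1, d2 hz.2⟩
    rcases h1 with rfl | rfl
    · have e1 : z = p := (c3 ▸ ⟨hz.1, haC hy⟩ : z ∈ ({p} : Set E))
      have e2 : z = q := (d3 ▸ ⟨hz.2, haC hy⟩ : z ∈ ({q} : Set E))
      exact absurd (e1.symm.trans e2) hpq
    · rfl
  have hβB : B₁' ∪ B₂' ⊆ K.bd D := b3 ▸ union_subset_union c2 d2
  have hβC : (B₁' ∪ B₂') ∩ C = {p, q} := by rw [union_inter_distrib_right, c3, d3]; rfl
  have hxβ : x ∈ B₁' ∪ B₂' := Or.inl c1.right_mem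
  generalize B₁' ∪ B₂' = β at hβ hβB hβC hxβ
  have hv : ∀ z ∈ ({p, q} : Set E), K.Sub {z} := by
    intro z hz
    have hz' : z ∈ β ∩ C := hβC ▸ hz
    obtain ⟨k, hk⟩ := K.exists_ocell (hC.subset_carrier hz'.2)
    have h1 := K.subset_bd_of_mem hk (hβB hz'.1)
    have h2 := K.dim_lt h1
    by_cases h3 : K.dim k = 0
    · obtain ⟨u, hu⟩ := K.exists_vertex h3
      have h4 : z = u := by have := hk.1; rwa [hu] at this
      rintro _ rfl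
      exact ⟨k, hk.1, by rw [hu, h4]⟩
    · exfalso
      have h4 := (hM K (n := 0) (K.sub_bd D) hB.plMan).2.2.1 k h1 (by omega) z hk
      have h5 : z ∈ closure (β \ {p, q}) := hβ.conBall.subset_closure_int hz'.1
      obtain ⟨w, hw1, hw2⟩ := (mem_closure_iff_nhdsWithin_neBot.1 h5).nonempty_of_mem
        (inter_mem (nhdsWithin_mono z (sdiff_subset.trans hβB) h4) self_mem_nhdsWithin)
      exact hw2.2 (hβC ▸ ⟨hw2.1, hC.cell_subset hk hz'.2 hw1⟩)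
  have hP : K.Sub {p, q} := (hv p (Or.inl rfl)).union (hv q (Or.inr rfl))
  have hpC : p ∈ β ∩ C := hβC ▸ Or.inl rfl
  have hqC : q ∈ β ∩ C := hβC ▸ Or.inr rfl
  obtain ⟨A₁, A₂, e1, e2, e3, e4, -⟩ := a3 hc hpC.2 hqC.2 hpq
  obtain ⟨G₁, G₂, g1, g2, g3, g4, g5⟩ := a3 hB (hβB hpC.1) (hβB hqC.1) hpq
  have hs : K.Sub β := by
    rcases g5 β hβ hβB with rfl | rfl
    · exact (K.sub_bd D).piece hP g1.isClosed g2.isClosed g3 g4
    · exact (K.sub_bd D).piece hP g2.isClosed g1.isClosed (by rw [union_comm, g3])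
        (by rw [inter_comm, g4])
  exact ⟨p, q, β, A₁, A₂, b, hβ, e1, e2, hs, hC.piece hP e1.isClosed e2.isClosed e3 e4,
    hC.piece hP e2.isClosed e1.isClosed (by rw [union_comm, e3]) (by rw [inter_comm, e4]),
    hβB, hβC, e3, e4, hb, hs.cell_subset hx hxβ⟩

end Man

end RCx

end P073
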