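import Vale.Agent.P073Z.SURF.Sk
import Vale.Agent.P073Z.RCX
import Vale.Agent.P073Z.Gauge

/-!
# The essential part of the normal surface
-/

open Set Metric Topology Filter MeasureTheory
open scoped ENNReal NNReal

namespace P073.SF

variable {E : Type} [NormedAddCommGroup E] [NormedSpace ℝ E]

/-- the gauge `r'` is fine for the gauge `r` -/
structure Lam (G : Set E) (r r' : E → ℝ) : Prop where
  gauge : Gauge r' G
  le : ∀ u ∈ G, r' u ≤ r u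
  pair : ∀ u ∈ G, ∀ v ∈ G, dist u v < r' u → Small r {u, v}
  disc : ∀ A ⊆ G, A.Nonempty → Small r' A → ∃ D B, ConBall 2 D B ∧ D ⊆ G ∧ Small r D ∧
    A ⊆ D \ B ∧ ∀ A' ⊆ G, Small r' A' → (A' ∩ A).Nonempty → A' ⊆ D \ B

namespace Aux

theorem LocC.const {w : E3 → ZMod 2} {X A : Set E3} (h : LocC w X) (hA : IsPreconnected A)
    (hAX : A ⊆ X) {a b : E3} (ha : a ∈ A) (hb : b ∈ A) : w a = w b := by
  refine hA.constant (fun y hy => ?_) ha hb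
  have h1 : w =ᶠ[𝓝 y] fun _ => w y := h y (hAX hy)
  exact (continuousAt_const.congr h1.symm).continuousWithinAt

theorem bd_nonempty {n : ℕ} {C B : Set E} (h : ConBall (n + 1) C B) : B.Nonempty := by
  obtain ⟨φ, hφ⟩ := h.eq_preimage
  rw [← hφ]
  exact (NormedSpace.sphere_nonempty.2 zero_le_one).image _

theorem adj_symm {X : RCx E} {d d' : X.ι} (h : Adj X d d') : Adj X d' d := by
  obtain ⟨h1, h2, a, h3, h4, h5⟩ := h
  exact ⟨h2, h1, a, h3, h5, h4⟩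

theorem rtg_symm {X : RCx E} {d d' : X.ι} (h : Relation.ReflTransGen (Adj X) d d') :
    Relation.ReflTransGen (Adj X) d' d := by
  induction h with
  | refl => exact Relation.ReflTransGen.refl
  | tail _ h ih => exact Relation.ReflTransGen.head (adj_symm h) ih

/-- the class of a two-cell -/
def cls (X : RCx E) (d : X.ι) : Set X.ι := {d' | Relation.ReflTransGen (Adj X) d d'}

theorem self_mem_cls (X : RCx E) (d : X.ι) : d ∈ cls X d := Relation.ReflTransGen.refl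

theorem cls_eq {X : RCx E} {d d' : X.ι} (h : d' ∈ cls X d) : cls X d' = cls X d := by
  ext k
  exact ⟨fun hk => Relation.ReflTransGen.trans h hk, fun hk =>
    Relation.ReflTransGen.trans (rtg_symm h) hk⟩

theorem sat_cls {X : RCx E} {d : X.ι} (hd : X.dim d = 2) : Sat X (cls X d) := by
  refine ⟨fun k hk => ?_, fun k hk k' h => Relation.ReflTransGen.tail hk h⟩
  induction hk with
  | refl => exact hd
  | tail _ h _ => exact h.2.1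

theorem Sat.cls_subset {X : RCx E} {𝓔 : Set X.ι} (h : Sat X 𝓔) {d : X.ι} (hd : d ∈ 𝓔) :
    cls X d ⊆ 𝓔 := by
  intro k hk
  induction hk with
  | refl => exact hd
  | tail _ h' ih => exact h.2 _ ih _ h'

theorem zmod_cases (b : ZMod 2) : b = 0 ∨ b = 1 := by
  revert b; decide

theorem Box.pi_mem {G : Set E} {V : Set E3} {π : E3 → E} {ψ : E3 → ℝ} {σ : E × ℝ → E3}
    (h : Box G V π ψ σ) {x : E3} (hx : x ∈ V) : π x ∈ G := (h.hom.mapsTo hx).1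

theorem Box.exists_pt {G : Set E} {V : Set E3} {π : E3 → E} {ψ : E3 → ℝ} {σ : E × ℝ → E3}
    (h : Box G V π ψ σ) {u : E} (hu : u ∈ G) {s : ℝ} (h1 : -1 < s) (h2 : s < 1) :
    ∃ x ∈ V, π x = u ∧ ψ x = s := by
  have hm : (u, s) ∈ G ×ˢ Ioo (-1:ℝ) 1 := ⟨hu, h1, h2⟩
  have h3 := h.hom.right_inv hm
  exact ⟨σ (u, s), h.hom.mapsTo_inv hm, congrArg Prod.fst h3, congrArg Prod.snd h3⟩

omit [NormedSpace ℝ E] in
theorem Thin.bounds {G : Set E} {c : ℝ} {η : E → ℝ} (h : Thin G c η) {u : E} (hu : u ∈ G) :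
    -1 < c - η u ∧ c - η u ≤ c + η u ∧ c + η u < 1 := by
  have h1 := h.2 u hu
  have h2 := h.1.2 u hu
  have h3 := le_abs_self c
  have h4 := neg_abs_le c
  exact ⟨by linarith, by linarith, by linarith⟩

/-- a surface with a side function that separates top from bottom -/
theorem sides (hBOX : BOX) {G : Set E} {V S : Set E3} {π : E3 → E} {ψ : E3 → ℝ}
    {σ : E × ℝ → E3} {c : ℝ} {η : E → ℝ} {ζ : E3 → ZMod 2} (hB : Box G V π ψ σ)
    (hη : Thin G c η) (hS : S ⊆ slab V π ψ c η) (hc : ClosedIn S V) (h1 : LocC ζ (V \ S))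
    (h2 : ∀ x ∈ S, Jumps ζ S x) (h3 : ∀ x ∈ V, c + η (π x) ≤ ψ x → ζ x = 0)
    (h4 : ∀ x ∈ V, ψ x ≤ c - η (π x) → ζ x = 1) :
    (∀ u ∈ G, ∃ x ∈ S, π x = u) ∧
    ∃ P M : Set E3, IsOpen P ∧ IsOpen M ∧ Disjoint P M ∧ P ∪ M = V \ S ∧ S ⊆ closure P ∧
      S ⊆ closure M ∧ ∀ x ∈ V, (c + η (π x) ≤ ψ x → x ∈ P) ∧ (ψ x ≤ c - η (π x) → x ∈ M) := by
  have hop : ∀ b, IsOpen {x ∈ V \ S | ζ x = b} := by
    intro b
    refine isOpen_iff_mem_nhds.2 fun x hx => ?_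
    filter_upwards [(hc.isOpen_diff hB.op).mem_nhds hx.1, h1 x hx.1] with y hy hy'
    exact ⟨hy, hy'.trans hx.2⟩
  have hcl : ∀ b, S ⊆ closure {x ∈ V \ S | ζ x = b} := by
    intro b x hx
    refine mem_closure_iff_frequently.2 ?_
    refine ((h2 x hx b).and_eventually (hB.op.mem_nhds (hS hx).1)).mono fun y hy => ?_
    exact ⟨⟨hy.2, hy.1.1⟩, hy.1.2⟩
  refine ⟨fun u hu => ?_, _, _, hop 0, hop 1, ?_, ?_, hcl 0, hcl 1, fun x hx => ⟨fun h => ?_,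
    fun h => ?_⟩⟩
  · by_contra hne
    obtain ⟨b1, b2, b3⟩ := Thin.bounds hη hu
    obtain ⟨x₀, v₀, p₀, q₀⟩ := Box.exists_pt hB hu b1 (b2.trans_lt b3)
    obtain ⟨x₁, v₁, p₁, q₁⟩ := Box.exists_pt hB hu (b1.trans_le b2) b3
    have hA := ((hBOX hB hη).2.2.1 u hu _ _ b1 b2 b3).2
    have h5 := LocC.const h1 hA (fun y hy => ⟨hy.1, fun hyS => hne ⟨y, hyS, hy.2.1⟩⟩)
      (a := x₀) (b := x₁) ⟨v₀, p₀, by rw [q₀]; exact ⟨le_rfl, b2⟩⟩
      ⟨v₁, p₁, by rw [q₁]; exact ⟨b2, le_rfl⟩⟩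
    rw [h4 x₀ v₀ (by rw [p₀, q₀]), h3 x₁ v₁ (by rw [p₁, q₁])] at h5
    exact absurd h5 (by decide)
  · refine disjoint_left.2 fun x h0 h1 => ?_
    have := h0.2.symm.trans h1.2
    exact absurd this (by decide)
  · ext x
    refine ⟨fun h => h.elim (fun h => h.1) fun h => h.1, fun h => ?_⟩
    exact (zmod_cases (ζ x)).imp (fun e => ⟨h, e⟩) fun e => ⟨h, e⟩
  · refine ⟨⟨hx, fun hxS => ?_⟩, h3 x hx h⟩
    have := (abs_lt.1 (hS hxS).2).2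
    linarith
  · refine ⟨⟨hx, fun hxS => ?_⟩, h4 x hx h⟩
    have := (abs_lt.1 (hS hxS).2).1
    linarith

end Aux

open Aux

section

variable [FiniteDimensional ℝ E] {G : Set E} {π : E3 → E} {ψ : E3 → ℝ} {σ : E × ℝ → E3} {c : ℝ}
  {η : E → ℝ} {T : RCx E3} {I : E3 → Set E3} {zp zm : E3 → E3}

omit [FiniteDimensional ℝ E] in
theorem Aux.fin_over (hBOX : BOX) (hNMAN : NMAN)
    (N : Nrm T ψ c I zp zm (slab T.carrier π ψ c η)) (hB : Box G T.carrier π ψ σ)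
    (hη : Thin G c η) (hT : T.Cvx) (hL : Lev T ψ c I zp zm) {D B : Set E} (hD : ConBall 2 D B)
    (hDG : D ⊆ G) : {d | N.X.dim d = 2 ∧ ∀ x ∈ N.X.bd d, π x ∈ D}.Finite := by
  obtain ⟨-, -, lf, -, -, bdW⟩ := hNMAN T N hT hB.op hL
  have hK := ((hBOX hB hη).2.1 D B hD hDG).2.2
  refine (lf.finite_meet hK fun x hx => hx.1).subset fun d hd => ?_
  have hb := N.X.ball d
  rw [hd.1] at hb
  obtain ⟨x, hx⟩ := bd_nonempty hb
  exact ⟨x, N.X.bd_subset d hx, (bdW d hd.1 hx).1, hd.2 x hx, (bdW d hd.1 hx).2.le⟩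

omit [FiniteDimensional ℝ E] in
/-- the approximation properties of the essential part -/
theorem Aux.approx (hBOX : BOX) (hNMAN : NMAN) (hBIG : BIG) (hCOLR : COLR) (hLC : LC)
    (N : Nrm T ψ c I zp zm (slab T.carrier π ψ c η)) (hB : Box G T.carrier π ψ σ)
    (hη : Thin G c η) (hT : T.Cvx) (hL : Lev T ψ c I zp zm) (hG : G.Nonempty)
    {𝓔 : Set N.X.ι} (hsat : Sat N.X 𝓔) {gs ρ r r₁ r₀ rm θ : E → ℝ}
    (hfar : ∀ D B : Set E, Small gs D → ∀ d ∈ 𝓔, ∃ d', Relation.ReflTransGen (Adj N.X) d d' ∧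
      ∃ x ∈ N.X.bd d', π x ∉ D \ B)
    (hden : ∀ u ∈ G, ∃ x ∈ ⋃ d ∈ 𝓔, N.X.cell d, π x = u)
    (hρ : ∀ i, Small ρ (π '' T.cell i)) (l₁ : Lam G (fun u => min (r u) (gs u)) r₁)
    (l₀ : Lam G r₁ r₀) (lm : Lam G r₀ rm) (lθ : Lam G rm θ) (hρm : ∀ u ∈ G, ρ u ≤ rm u) :
    Approx G (⋃ d ∈ 𝓔, N.X.cell d) π θ r := by
  obtain ⟨man, sub, lf, -, -, bdW⟩ := hNMAN T N hT hB.op hL
  have cG : ∀ i, π '' T.cell i ⊆ G := by
    rintro i _ ⟨x, hx, rfl⟩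
    exact Box.pi_mem hB (T.cell_subset_carrier i hx)
  have sm : ∀ i, Small rm (π '' T.cell i) := fun i => (hρ i).of_le fun u hu => hρm u (cG i hu)
  have s₀ : ∀ i, Small r₀ (π '' T.cell i) := fun i => (sm i).of_le fun u hu => lm.le u (cG i hu)
  have s₁ : ∀ i, Small r₁ (π '' T.cell i) := fun i => (s₀ i).of_le fun u hu => l₀.le u (cG i hu)
  have hSV : (⋃ d ∈ 𝓔, N.X.cell d) ⊆ T.carrier :=
    iUnion₂_subset fun d _ => (N.X.cell_subset_carrier d).trans sub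
  have nb : ∀ {D D' B' : Set E} {t : E → ℝ}, (∀ i, Small t (π '' T.cell i)) →
      (∀ A' ⊆ G, Small t A' → (A' ∩ D).Nonempty → A' ⊆ D' \ B') →
      ∀ i, (∃ x ∈ T.cell i, π x ∈ D) → ∀ x ∈ T.cell i, π x ∈ D' \ B' := by
    rintro D D' B' t ht h i ⟨x, hx, hxD⟩ y hy
    exact h _ (cG i) (ht i) ⟨π x, mem_image_of_mem _ hx, hxD⟩ (mem_image_of_mem _ hy)
  have bdx : ∀ d, N.X.dim d = 2 → ∃ x, x ∈ N.X.bd d := by
    intro d hd
    have hb := N.X.ball d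
    rw [hd] at hb
    exact bd_nonempty hb
  refine ⟨fun u hu => ?_, fun x hx y hy hxy => ?_, ?_⟩
  · obtain ⟨x, hx, hxu⟩ := hden u hu
    refine ⟨x, hx, ?_⟩
    rw [hxu, dist_self]
    exact ((l₁.gauge.2 u hu).trans_le (l₁.le u hu)).trans_le (min_le_left _ _)
  · have hxG := Box.pi_mem hB (hSV hx)
    have hyG := Box.pi_mem hB (hSV hy)
    obtain ⟨D₀, B₀, a1, a2, a3, -, a5⟩ := lm.disc {π x, π y}
      (by rintro _ (rfl | rfl) <;> assumption) (insert_nonempty _ _) (lθ.pair _ hxG _ hyG hxy)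
    obtain ⟨D₁, B₁, b1, b2, b3, -, b5⟩ := l₀.disc D₀ a2 a1.nonempty a3
    have b6 : Small (fun u => min (r u) (gs u)) D₁ := b3.of_le fun u hu => l₁.le u (b2 hu)
    obtain ⟨d₀, e₀, hx₀⟩ := mem_iUnion₂.1 hx
    obtain ⟨d₁, e₁, hy₁⟩ := mem_iUnion₂.1 hy
    have key : ∀ d ∈ 𝓔, ∀ z ∈ N.X.cell d, π z ∈ ({π x, π y} : Set E) →
        ∃ z' ∈ N.X.bd d, π z' ∈ D₀ \ B₀ := by
      intro d hd z hz hz'
      obtain ⟨z', h'⟩ := bdx d (hsat.1 d hd)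
      exact ⟨z', h', nb sm a5 _ ⟨z, N.host_cell d hz, hz'⟩ z' (N.host_cell d (N.X.bd_subset d h'))⟩
    obtain ⟨K, k1, k2, k3, k4, k5⟩ := hLC T N 𝓔 d₀ d₁ hB hη hT hL a1 a2 b1 b2 (nb s₀ b5) hsat
      (hfar D₁ B₁ (b6.of_le fun u _ => min_le_right _ _)) e₀ e₁
      (key d₀ e₀ x hx₀ (Or.inl rfl)) (key d₁ e₁ y hy₁ (Or.inr rfl))
    refine ⟨K, k1, k2, k3 hx₀, k4 hy₁, (b6.of_le fun u _ => min_le_left _ _).mono ?_⟩
    rintro _ ⟨z, hz, rfl⟩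
    exact k5 z hz
  · suffices H : ∀ K ⊆ ⋃ d ∈ 𝓔, N.X.cell d, K.Nonempty → IsPreconnected K → Small θ (π '' K) →
        ∃ D B, ConBall 2 D B ∧ D ⊆ (⋃ d ∈ 𝓔, N.X.cell d) ∧ K ⊆ D \ B ∧ Small r (π '' D) by
      intro K hK hK1 hK2
      rcases K.eq_empty_or_nonempty with rfl | hne
      · obtain ⟨u, hu⟩ := hG
        obtain ⟨x, hx, hxu⟩ := hden u hu
        obtain ⟨D, B, h1, h2, -, h4⟩ := H {x} (singleton_subset_iff.2 hx) (singleton_nonempty x)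
          isPreconnected_singleton (by
            rw [image_singleton, hxu]; exact small_singleton (lθ.gauge.2 u hu))
        exact ⟨D, B, h1, h2, empty_subset _, h4⟩
      · exact H K hK hne hK1 hK2
    intro K hK hne hK1 hK2
    have hKG : π '' K ⊆ G := by
      rintro _ ⟨x, hx, rfl⟩
      exact Box.pi_mem hB (hSV (hK hx))
    obtain ⟨D₀, B₀, a1, a2, a3, -, a5⟩ := lm.disc (π '' K) hKG (hne.image π)
      (hK2.of_le fun u hu => lθ.le u (hKG hu))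
    obtain ⟨D₁, B₁, b1, b2, b3, b4, b5⟩ := l₀.disc D₀ a2 a1.nonempty a3
    obtain ⟨D₂, B₂, c1, c2, c3, c4, c5⟩ := l₁.disc D₁ b2 b1.nonempty b3
    have col : ∀ {D B D' B' : Set E}, ConBall 2 D' B' → D' ⊆ G →
        (∀ i, (∃ x ∈ T.cell i, π x ∈ D) → ∀ x ∈ T.cell i, π x ∈ D' \ B') →
        ∀ J, Circ N.X J → (⋃ a ∈ J, N.X.cell a) ⊆ {x | π x ∈ D \ B} → ∃ col, Col N.X J col ∧
          ∀ d, N.X.dim d = 2 → col d ≠ 0 → N.X.bd d ⊆ {x | π x ∈ D' \ B'} := by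
      intro D B D' B' h1 h2 h3 J hJ hJD
      refine hCOLR T N J hB hη hT hL h1 h2 hJ fun a ha => h3 _ ?_
      obtain ⟨x, hx⟩ := N.X.cell_nonempty a
      exact ⟨x, N.host_cell a hx, (hJD (mem_biUnion ha hx)).1⟩
    obtain ⟨𝓘, B, i1, i2, i3, i4⟩ := hBIG N.X 𝓔 (R₀ := {x | π x ∈ D₀ \ B₀})
      (R₁ := {x | π x ∈ D₁ \ B₁}) (R₂ := {x | π x ∈ D₂ \ B₂}) (K := K) man hsat
      (fun x hx => b4 hx.1) (fun x hx => c4 hx.1)
      ((fin_over hBOX hNMAN N hB hη hT hL c1 c2).subset fun d hd =>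
        ⟨hd.1, fun x hx => (hd.2 hx).1⟩)
      (fun d hd => by
        obtain ⟨d', h1, x, h2, h3⟩ := hfar D₂ B₂ (c3.of_le fun u _ => min_le_right _ _) d hd
        exact ⟨d', h1, fun h => h3 (h h2)⟩)
      (col b1 b2 (nb s₀ b5)) (col c1 c2 (nb s₁ c5)) hne hK1 hK (by
        rintro d - ⟨x, hx, hxK⟩ y hy
        exact nb sm a5 _ ⟨x, N.host_cell d hx, mem_image_of_mem _ hxK⟩ y
          (N.host_cell d (N.X.bd_subset d hy)))
    refine ⟨_, B, i3, biUnion_subset_biUnion_left i1, i4,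
      (c3.of_le fun u _ => min_le_left _ _).mono ?_⟩
    rintro _ ⟨z, hz, rfl⟩
    obtain ⟨d, hd, hzd⟩ := mem_iUnion₂.1 hz
    obtain ⟨z', h'⟩ := bdx d (hsat.1 d (i1 hd))
    exact (nb s₁ c5 _ ⟨z', N.host_cell d (N.X.bd_subset d h'), (i2 d hd h').1⟩ z
      (N.host_cell d hzd)).1

omit [FiniteDimensional ℝ E] in
/-- the essential surface for a convex complex with a good level -/
theorem core (hBOX : BOX) (hSIDE : SIDE) (hPAR : PAR) (hNORM : NORM) (hNMAN : NMAN)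
    (hCOMP : COMP) (hBIG : BIG) (hCOLR : COLR) (hLC : LC) (hZETA : ZETA)
    (hB : Box G T.carrier π ψ σ) (hη : Thin G c η) (hT : T.Cvx) (hL : Lev T ψ c I zp zm)
    (hG : G.Nonempty) {gs ρ : E → ℝ} (hgs : Lam G (fun _ => 1) gs)
    (hρ : ∀ i, Small ρ (π '' T.cell i)) (hρg : ∀ u ∈ G, ρ u ≤ gs u)
    (hcell : ∀ i, (∃ z ∈ T.cell i, ψ z = c) → T.cell i ⊆ slab T.carrier π ψ c η) :
    ∃ S P M : Set E3, S ⊆ T.carrier ∧ ClosedIn S T.carrier ∧ PLMan 2 S ∧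
      IsOpen P ∧ IsOpen M ∧ Disjoint P M ∧ P ∪ M = T.carrier \ S ∧ S ⊆ closure P ∧
      S ⊆ closure M ∧
      (∀ x ∈ T.carrier, (c + η (π x) ≤ ψ x → x ∈ P) ∧ (ψ x ≤ c - η (π x) → x ∈ M)) ∧
      (∀ r r₁ r₀ rm θ : E → ℝ, Lam G (fun u => min (r u) (gs u)) r₁ → Lam G r₁ r₀ →
        Lam G r₀ rm → Lam G rm θ → (∀ u ∈ G, ρ u ≤ rm u) → Approx G S π θ r) ∧
      ∀ x ∈ S, x ∈ T.skel 1 → ψ x = c := by
  have hψ : ContinuousOn ψ T.carrier := continuous_snd.comp_continuousOn hB.hom.cont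
  obtain ⟨W, ⟨η', hη', -, rfl⟩, ⟨N⟩⟩ := hNORM T
    {W | ∃ η', Thin G c η' ∧ (∀ u, η' u ≤ η u) ∧ W = slab T.carrier π ψ c η'} hT hB.op hψ hL
    (by
      rintro W ⟨η', h1, -, rfl⟩
      refine ⟨(hBOX hB h1).1, fun x hx => ⟨hx.1, ?_⟩⟩
      rw [hx.2, sub_self, abs_zero]
      exact h1.1.2 _ (Box.pi_mem hB hx.1))
    (by
      intro A h1 h2 h3
      obtain ⟨η', k1, k2, k3⟩ := (hBOX hB hη).2.2.2 A h1 h2 h3
      exact ⟨_, ⟨η', k1, k2, rfl⟩, k3⟩)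
  obtain ⟨man, sub, lf, sk, n1, bdW⟩ := hNMAN T N hT hB.op hL
  have hslab : N.X.carrier ⊆ slab T.carrier π ψ c η := by
    intro x hx
    obtain ⟨i, hi⟩ := T.mem_carrier.1 (sub hx)
    exact hcell i (n1 x hx i hi) hi
  have hun : ∀ 𝓐 : Set N.X.ι, (⋃ d ∈ 𝓐, N.X.cell d) ⊆ N.X.carrier := fun 𝓐 =>
    iUnion₂_subset fun d _ => N.X.cell_subset_carrier d
  have hcl : ∀ 𝓐 : Set N.X.ι, ClosedIn (⋃ d ∈ 𝓐, N.X.cell d) T.carrier := fun 𝓐 =>
    lf.closedIn_of_cover N.X.isClosed_cell fun y hy => by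
      obtain ⟨d, hd, hy'⟩ := mem_iUnion₂.1 hy
      exact ⟨d, hy', subset_biUnion_of_mem (u := fun d => N.X.cell d) hd⟩
  set 𝓔 : Set N.X.ι := {d | N.X.dim d = 2 ∧ ¬ Small gs (π '' ⋃ k ∈ cls N.X d, N.X.bd k)} with h𝓔
  have hsat : Sat N.X 𝓔 := by
    refine ⟨fun d hd => hd.1, fun d hd d' h => ⟨h.2.1, ?_⟩⟩
    rw [cls_eq (Relation.ReflTransGen.single h)]
    exact hd.2
  have hfar : ∀ D B : Set E, Small gs D → ∀ d ∈ 𝓔, ∃ d',
      Relation.ReflTransGen (Adj N.X) d d' ∧ ∃ x ∈ N.X.bd d', π x ∉ D \ B := by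
    intro D B hD d hd
    by_contra hne
    refine hd.2 (hD.mono ?_)
    rintro _ ⟨x, hx, rfl⟩
    obtain ⟨k, hk, hxk⟩ := mem_iUnion₂.1 hx
    by_contra hx'
    exact hne ⟨k, hk, x, hxk, fun h => hx' h.1⟩
  set 𝒞 : Set (Set E3) :=
    {C | ∃ d, N.X.dim d = 2 ∧ d ∉ 𝓔 ∧ C = ⋃ k ∈ cls N.X d, N.X.cell k} with h𝒞
  have hall : (⋃ d ∈ 𝓔, N.X.cell d) ∪ ⋃₀ 𝒞 = N.X.carrier := by
    refine Subset.antisymm (union_subset (hun _) (sUnion_subset ?_)) fun x hx => ?_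
    · rintro C ⟨d, -, -, rfl⟩
      exact hun _
    · rw [(hCOMP N.X 𝓔 man hsat).2.2] at hx
      obtain ⟨d, hd, hxd⟩ := mem_iUnion₂.1 hx
      by_cases he : d ∈ 𝓔
      · exact Or.inl (mem_biUnion he hxd)
      · exact Or.inr ⟨_, ⟨d, hd, he, rfl⟩, mem_biUnion (self_mem_cls _ d) hxd⟩
  have hcl0 : ClosedIn N.X.carrier T.carrier :=
    lf.closedIn_of_cover N.X.isClosed_cell fun y hy => by
      obtain ⟨d, hy'⟩ := N.X.mem_carrier.1 hy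
      exact ⟨d, hy', N.X.cell_subset_carrier d⟩
  obtain ⟨ζ₀, z1, z2, z3⟩ := hSIDE hB hη hslab hcl0 man
  have z4 := hZETA T N hB hη hT hL hcell z1 z2 z3
  have hSm := (hCOMP N.X 𝓔 man hsat).1
  obtain ⟨ζ, y1, y2, y3⟩ := hSIDE hB hη ((hun 𝓔).trans hslab) (hcl 𝓔) hSm
  have y4 := hPAR 𝒞 (ζ₀ := ζ₀) (ζ := ζ) hB hη ((hun 𝓔).trans hslab) (hcl 𝓔) hSm
    (by
      rintro C ⟨d, hd, he, rfl⟩
      have hs := sat_cls hd
      have hA : Small gs (π '' ⋃ k ∈ cls N.X d, N.X.bd k) := by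
        by_contra h
        exact he ⟨hd, h⟩
      have bdx : ∀ k ∈ cls N.X d, ∃ x, x ∈ N.X.bd k := by
        intro k hk
        have hb := N.X.ball k
        rw [hs.1 k hk] at hb
        exact bd_nonempty hb
      have cG : ∀ i, π '' T.cell i ⊆ G := by
        rintro i _ ⟨x, hx, rfl⟩
        exact Box.pi_mem hB (T.cell_subset_carrier i hx)
      obtain ⟨D, B, a1, a2, -, a4, a5⟩ := hgs.disc _ (by
        rintro _ ⟨x, hx, rfl⟩
        obtain ⟨k, -, hxk⟩ := mem_iUnion₂.1 hx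
        exact Box.pi_mem hB (sub (N.X.cell_subset_carrier k (N.X.bd_subset k hxk)))) (by
        obtain ⟨x, hx⟩ := bdx d (self_mem_cls _ d)
        exact ⟨π x, x, mem_biUnion (self_mem_cls _ d) hx, rfl⟩) hA
      have hfin : (cls N.X d).Finite :=
        (fin_over hBOX hNMAN N hB hη' hT hL a1 a2).subset fun k hk =>
          ⟨hs.1 k hk, fun x hx => (a4 ⟨x, mem_biUnion hk hx, rfl⟩).1⟩
      refine ⟨(hun _).trans hslab, hfin.isCompact_biUnion fun k _ => N.X.isCompact_cell k,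
        (hCOMP N.X _ man hs).1, disjoint_left.2 fun x hx hxS => ?_, D, B, a1, a2, fun x hx => ?_⟩
      · obtain ⟨k, hk, hxk⟩ := mem_iUnion₂.1 hx
        have h1 := (hCOMP N.X 𝓔 man hsat).2.1 k (hs.1 k hk) ⟨x, hxk, hxS⟩
        refine he (Sat.cls_subset hsat h1 ?_)
        rw [cls_eq hk]
        exact self_mem_cls _ d
      · obtain ⟨k, hk, hxk⟩ := mem_iUnion₂.1 hx
        obtain ⟨y, hy⟩ := bdx k hk
        exact a5 _ (cG (N.host k)) ((hρ _).of_le fun u hu => hρg u (cG _ hu))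
          ⟨π y, mem_image_of_mem _ (N.host_cell k (N.X.bd_subset k hy)),
            mem_image_of_mem _ (mem_biUnion hk hy)⟩ (mem_image_of_mem _ (N.host_cell k hxk)))
    (by
      rintro C ⟨d, hd, -, rfl⟩ C' ⟨d', hd', -, rfl⟩ hne
      refine disjoint_left.2 fun x hx hx' => hne ?_
      obtain ⟨k, hk, hxk⟩ := mem_iUnion₂.1 hx
      have h1 := (hCOMP N.X _ man (sat_cls hd')).2.1 k ((sat_cls hd).1 k hk) ⟨x, hxk, hx'⟩
      rw [← cls_eq hk, cls_eq h1])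
    (by
      intro x hx
      obtain ⟨U, hU, hf⟩ := lf x hx
      refine ⟨U, hU, ((hf.image fun i => ⋃ k ∈ cls N.X i, N.X.cell k).preimage
        Subtype.val_injective.injOn).subset ?_⟩
      rintro ⟨C, d, hd, he, rfl⟩ ⟨y, hy, hyU⟩
      obtain ⟨k, hk, hyk⟩ := mem_iUnion₂.1 hy
      exact ⟨k, ⟨y, hyk, hyU⟩, by simp only [cls_eq hk]⟩)
    (by rw [hall]; exact z1) (by rw [hall]; exact z2) z3 y1 y2 y3
  obtain ⟨hden, P, M, p1, p2, p3, p4, p5, p6, p7⟩ := sides hBOX hB hη ((hun 𝓔).trans hslab)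
    (hcl 𝓔) y1 y2 y3 fun x hx h => (y4 x hx h).trans (z4 x hx h)
  exact ⟨_, P, M, (hun 𝓔).trans sub, hcl 𝓔, hSm, p1, p2, p3, p4, p5, p6, p7,
    fun r r₁ r₀ rm θ l₁ l₀ lm lθ h =>
      Aux.approx hBOX hNMAN hBIG hCOLR hLC N hB hη' hT hL hG hsat hfar hden hρ l₁ l₀ lm lθ h,
    fun x hx h => sk x (hun 𝓔 hx) h⟩

end

end P073.SF
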