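import Vale.Agent.P073Z.SURF.Comb

/-!
# Small cycles on a surface complex bound discs; big discs
-/

open Set Metric Topology Filter

namespace P073

variable {E : Type} [NormedAddCommGroup E] [NormedSpace ℝ E]

namespace RCx

variable {K : RCx E} [FiniteDimensional ℝ E] (hM : MAN) (hK : PLMan 2 K.carrier)
include hM hK

omit hK in
/-- the fillings of the three cycles of a theta graph -/
theorem exists_theta {𝓕 𝓖 I : Set K.ι} {C W : Set E} (hac : K.Acyc 𝓕) (hfill : K.Fill W 𝓖)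
    (hG : 𝓖 ⊆ 𝓕) (hI : I ⊆ 𝓕) (f : I.Finite) (hb : K.Bds I C) (hC : K.Sub C) (hc : IsCircle C)
    (hCW : C ⊆ W) {D a : K.ι} (hD : K.dim D = 2) (hDW : K.cell D ⊆ W)
    (ha : K.dim a = 1) (haC : K.cell a ⊆ C) (haD : K.cell a ⊆ K.cell D) (hn : ¬ K.bd D ⊆ C) :
    ∃ (p q : E) (β C₁ C₂ : Set E) (b : K.ι) (I₁ I₂ : Set K.ι), IsArc β p q ∧
      K.Sub C₁ ∧ K.Sub C₂ ∧ IsCircle C₁ ∧ IsCircle C₂ ∧ C₁ ⊆ C ∪ K.cell D ∧ C₂ ⊆ C ∪ K.cell D ∧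
      C₁ ∩ C₂ = β ∧ (C₁ ∪ C₂) \ (β \ {p, q}) = C ∧ K.dim b = 1 ∧ K.cell b ⊆ β ∧
      (∀ e, K.dim e = 1 → K.cell e ⊆ β → ¬ K.cell e ⊆ C ∧ K.cell e ⊆ K.cell D) ∧
      (∀ e, K.cell e ⊆ C₁ → K.cell e ⊆ C ∨ K.cell e ⊆ β) ∧
      (∀ e, K.cell e ⊆ C₂ → K.cell e ⊆ C ∨ K.cell e ⊆ β) ∧
      I₁ ⊆ 𝓖 ∧ I₂ ⊆ 𝓖 ∧ I₁.Finite ∧ I₂.Finite ∧ K.Bds I₁ C₁ ∧ K.Bds I₂ C₂ ∧
      ∀ j, j ∈ I ↔ Xor (j ∈ I₁) (j ∈ I₂) := by
  obtain ⟨p, q, β, A₁, A₂, b, hβ, e1, e2, s0, s1, s2, hβB, hβC, e3, e4, hb1, hb2⟩ :=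
    exists_cross hM hC hc hD ha haC haD hn
  have t1 : A₁ ⊆ C := e3 ▸ subset_union_left
  have t2 : A₂ ⊆ C := e3 ▸ subset_union_right
  have hβD : β ⊆ K.cell D := hβB.trans (K.bd_subset D)
  have c1 : IsCircle (A₁ ∪ β) := isCircle_of_arcs e1 hβ fun z hz => hβC ▸ ⟨hz.2, t1 hz.1⟩
  have c2 : IsCircle (A₂ ∪ β) := isCircle_of_arcs e2 hβ fun z hz => hβC ▸ ⟨hz.2, t2 hz.1⟩
  obtain ⟨I₁, i1, f1, b1⟩ := hfill _ (s1.union s0) c1
    (union_subset (t1.trans hCW) (hβD.trans hDW))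
  obtain ⟨I₂, i2, f2, b2⟩ := hfill _ (s2.union s0) c2
    (union_subset (t2.trans hCW) (hβD.trans hDW))
  have hpβ : ({p, q} : Set E) ⊆ β := hβC ▸ inter_subset_left
  have n0 : ∀ e, K.dim e = 1 → K.cell e ⊆ β → ¬ K.cell e ⊆ C := fun e h1 h2 h3 =>
    not_edge_pair h1 p q (hβC ▸ subset_inter h2 h3)
  refine ⟨p, q, β, A₁ ∪ β, A₂ ∪ β, b, I₁, I₂, hβ, s1.union s0, s2.union s0, c1, c2,
    union_subset_union t1 hβD, union_subset_union t2 hβD, ?_, ?_, hb1, hb2,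
    fun e h1 h2 => ⟨n0 e h1 h2, h2.trans hβD⟩,
    fun e h => ((s1.cell_union s0 e).1 h).imp_left fun h => h.trans t1,
    fun e h => ((s2.cell_union s0 e).1 h).imp_left fun h => h.trans t2, i1, i2, f1, f2, b1, b2, ?_⟩
  · rw [← inter_union_distrib_right, e4, union_eq_self_of_subset_left hpβ]
  · rw [union_union_union_comm, e3, union_self]
    ext z
    have h1 : z ∈ β ∧ z ∈ C ↔ z ∈ ({p, q} : Set E) := by rw [← hβC]; rfl
    simp only [Set.mem_sdiff, mem_union]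
    clear * - h1
    tauto
  · have h1 := hac.eq hI (I' := {j | Xor (j ∈ I₁) (j ∈ I₂)})
      (fun j hj => hG (hj.elim (fun k => i1 k.1) fun k => i2 k.1)) f
      ((f1.union f2).subset fun j hj => hj.imp And.left And.left) hb fun e j₁ j₂ k => by
        have k1 := b1 e j₁ j₂ k
        have k2 := b2 e j₁ j₂ k
        rw [s1.cell_union s0] at k1
        rw [s2.cell_union s0] at k2
        have k3 := n0 e k.d
        have k4 : ¬ (K.cell e ⊆ A₁ ∧ K.cell e ⊆ A₂) := fun h =>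
          not_edge_pair k.d p q (e4 ▸ subset_inter h.1 h.2)
        rw [← e3, s1.cell_union s2] at k3 ⊢
        exact xor1 k1 k2 k3 k4
    intro j
    rw [h1]
    rfl

/-- every edge of the boundary lies in a cell of the chain -/
theorem Bds.exists_cell {I : Set K.ι} {C : Set E} (hb : K.Bds I C) {a : K.ι} (ha : K.dim a = 1)
    (h : K.cell a ⊆ C) : ∃ j ∈ I, K.cell a ⊆ K.cell j := by
  obtain ⟨j₁, j₂, h1, -⟩ := exists_adj hM hK ha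
  rcases (hb a j₁ j₂ h1).1 h with h2 | h2
  exacts [⟨j₁, h2.1, h1.s₁⟩, ⟨j₂, h2.1, h1.s₂⟩]

theorem Bds.subset {I : Set K.ι} {C : Set E} (hb : K.Bds I C) (hC : K.Sub C) (hc : IsCircle C) :
    C ⊆ K.un I := fun x hx => by
  obtain ⟨a, h1, h2, h3⟩ := hC.exists_edge hM hc hx
  obtain ⟨j, h4, h5⟩ := hb.exists_cell hM hK h1 h2
  exact subset_un h4 (h5 h3)

omit [FiniteDimensional ℝ E] hM in
theorem mem_bdry {I : Set K.ι} {C : Set E} (h : ConBall 2 (K.un I) C)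
    (hd : ∀ j ∈ I, K.dim j = 2) {j : K.ι} (hj : K.dim j = 2) (hn : j ∉ I) {x : E}
    (hx : x ∈ K.un I) (hxj : x ∈ K.cell j) : x ∈ C := by
  by_contra h1
  have h2 := (hK.ball_nhds_iff h (un_subset I) hx).2 h1
  obtain ⟨w, hw1, hw2⟩ := (mem_closure_iff_nhdsWithin_neBot.1
    ((K.ball j).subset_closure_int hxj)).nonempty_of_mem (inter_mem (nhdsWithin_mono x
      (sdiff_subset.trans (K.cell_subset_carrier j)) h2) self_mem_nhdsWithin)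
  obtain ⟨i, hi, hwi⟩ := mem_un.1 hw1
  exact hn (K.eq_of_subset_of_dim_le (K.cell_subset_of_mem hw2 hwi)
    (by rw [hj, hd i hi]) ▸ hi)

/-- **the filling of a cycle is a disc** -/
theorem disc {𝓕 : Set K.ι} (hd : ∀ j ∈ 𝓕, K.dim j = 2) (hac : K.Acyc 𝓕) {I : Set K.ι}
    {C : Set E} (hI : I ⊆ 𝓕) (f : I.Finite) (hfill : K.Fill (K.un I) 𝓕) (hC : K.Sub C)
    (hc : IsCircle C) (hb : K.Bds I C) : ConBall 2 (K.un I) C := by
  induction hn : I.ncard using Nat.strong_induction_on generalizing I C with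
  | _ n ih =>
  obtain ⟨x, hx⟩ := ((arcs (E := E)).2.2.2.2.2.1 (p := 0) hc).1.nonempty
  obtain ⟨a, ha, haC, -⟩ := hC.exists_edge hM hc hx
  obtain ⟨D, hDI, haD⟩ := hb.exists_cell hM hK ha haC
  have hD := hd D (hI hDI)
  by_cases hsub : K.bd D ⊆ C
  · obtain rfl := (arcs (E := E)).2.2.2.1 (circle_bd hD) hc hsub
    rw [hac.eq hI (singleton_subset_iff.2 (hI hDI)) f (finite_singleton D) hb
      (bds_single hM hK hD), un, biUnion_singleton]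
    exact hD ▸ K.ball D
  have hCI := hb.subset hM hK hC hc
  obtain ⟨p, q, β, C₁, C₂, b, I₁, I₂, hβ, s1, s2, c1, c2, t1, t2, e1, e2, hb1, hb2, n0, n1, n2,
    i1, i2, f1, f2, b1, b2, hx⟩ := exists_theta hM hac hfill Subset.rfl hI f hb hC hc hCI hD
      (subset_un hDI) ha haC haD hsub
  have hY : I₁ ∩ I₂ = ∅ := by
    rcases bds_or hM hK (f1.inter_of_left I₂) (fun j hj => hd j (i1 hj.1)) hC hc
      (fun e j₁ j₂ k h => by
        by_contra h1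
        have k0 := hb e j₁ j₂ k
        have k1 := b1 e j₁ j₂ k
        have k2 := b2 e j₁ j₂ k
        by_cases h2 : K.cell e ⊆ β
        · refine xor2 (mt k0.2 h1) (hx j₁) (hx j₂) ?_ h
          rcases k.two hM hK (n0 e k.d h2).2 hD with rfl | rfl
          exacts [Or.inl hDI, Or.inr hDI]
        · exact xor3 (fun o => (n1 e (k1.2 o)).elim h1 h2) (fun o => (n2 e (k2.2 o)).elim h1 h2)
            h) with h | h
    · exact hac _ (fun j hj => i1 hj.1) (f1.inter_of_left I₂) h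
    · have h1 := hac.eq hI (fun j hj => i1 hj.1) f (f1.inter_of_left I₂) hb h
      have h2 : D ∈ I₁ ∩ I₂ := h1 ▸ hDI
      exact ((hx D).1 hDI).elim (fun k => absurd h2.2 k.2) fun k => absurd h2.1 k.2
  have hdis : ∀ j, j ∈ I₁ → j ∈ I₂ → False := fun j h1 h2 =>
    (hY ▸ ⟨h1, h2⟩ : j ∈ (∅ : Set K.ι))
  have u1 : I₁ ⊆ I := fun j hj => (hx j).2 (Or.inl ⟨hj, hdis j hj⟩)
  have u2 : I₂ ⊆ I := fun j hj => (hx j).2 (Or.inr ⟨hj, fun h => hdis j h hj⟩)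
  have v1 : β ⊆ C₁ := e1 ▸ inter_subset_left
  have v2 : β ⊆ C₂ := e1 ▸ inter_subset_right
  obtain ⟨j₁, m1, -⟩ := b1.exists_cell hM hK hb1 (hb2.trans v1)
  obtain ⟨j₂, m2, -⟩ := b2.exists_cell hM hK hb1 (hb2.trans v2)
  have d1 := ih _ (hn ▸ ncard_lt_ncard ⟨u1, fun h => hdis j₂ (h (u2 m2)) m2⟩ f) i1 f1
    (hfill.mono (un_mono u1) Subset.rfl) s1 c1 b1 rfl
  have d2 := ih _ (hn ▸ ncard_lt_ncard ⟨u2, fun h => hdis j₁ m1 (h (u1 m1))⟩ f) i2 f2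
    (hfill.mono (un_mono u2) Subset.rfl) s2 c2 b2 rfl
  have h3 := uni d1 d2 hβ (Subset.antisymm (fun z hz => by
    obtain ⟨k₁, o1, o2⟩ := mem_un.1 hz.1
    obtain ⟨k₂, o3, o4⟩ := mem_un.1 hz.2
    rw [← e1]
    exact ⟨mem_bdry hK d1 (fun j hj => hd j (i1 hj)) (hd _ (i2 o3)) (fun h => hdis _ h o3) hz.1 o4,
      mem_bdry hK d2 (fun j hj => hd j (i2 hj)) (hd _ (i1 o1)) (hdis _ o1) hz.2 o2⟩)
    (subset_inter (v1.trans d1.1) (v2.trans d2.1))) v1 v2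
  have h4 : I = I₁ ∪ I₂ := Subset.antisymm (fun j hj => ((hx j).1 hj).imp And.left And.left)
    (union_subset u1 u2)
  rwa [e2, ← un_union, ← h4] at h3

/-- **big discs** -/
theorem big {𝓕 𝓖 : Set K.ι} (hd : ∀ j ∈ 𝓕, K.dim j = 2) (hac : K.Acyc 𝓕) (hG : 𝓖 ⊆ 𝓕)
    (fG : 𝓖.Finite) (hfill : K.Fill (K.un 𝓖) 𝓕) {X : Set E} (hX : IsPreconnected X)
    (hne : X.Nonempty) (hXK : X ⊆ K.carrier)
    (hin : ∀ j, K.dim j = 2 → (K.cell j ∩ X).Nonempty → j ∈ 𝓖)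
    (hfill' : K.Fill (K.un {j | K.dim j = 2 ∧ (K.cell j ∩ X).Nonempty}) 𝓖) :
    ∃ I ⊆ 𝓖, ∃ C, ConBall 2 (K.un I) C ∧ X ⊆ K.un I \ C := by
  have hM' := hM K (n := 1) K.sub_carrier hK
  have hcov : ∀ x ∈ X, ∃ j, K.dim j = 2 ∧ x ∈ K.cell j := fun x hx => by
    obtain ⟨i, hi⟩ := K.mem_carrier.1 (hXK hx)
    obtain ⟨j, h1, -, h2⟩ := hM'.2.1 i (K.cell_subset_carrier i)
    exact ⟨j, h2, h1 hi⟩
  set S : Set K.ι := {j | K.dim j = 2 ∧ (K.cell j ∩ X).Nonempty} with hS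
  obtain ⟨x₀, hx₀⟩ := hne
  obtain ⟨D₀, hD₀, hx₀'⟩ := hcov x₀ hx₀
  have hD₀S : D₀ ∈ S := ⟨hD₀, x₀, hx₀', hx₀⟩
  obtain ⟨I, ⟨hI, hI₀, C, hC, hc, hCS, hb⟩, hmax⟩ := Set.Finite.exists_maximal
    (s := {I | I ⊆ 𝓖 ∧ D₀ ∈ I ∧ ∃ C, K.Sub C ∧ IsCircle C ∧ C ⊆ K.un S ∧ K.Bds I C})
    (fG.finite_subsets.subset fun I hI => hI.1)
    ⟨{D₀}, singleton_subset_iff.2 (hin _ hD₀ hD₀S.2), rfl, K.bd D₀, K.sub_bd _, circle_bd hD₀,
      (K.bd_subset _).trans (subset_un hD₀S), bds_single hM hK hD₀⟩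
  have f := fG.subset hI
  have key : ∀ a j D, K.Adj a j D → D ∈ S → j ∈ I → D ∈ I := by
    intro a j D k hD hj
    by_contra hDI
    have haC := (hb a j D k).2 (Or.inl ⟨hj, hDI⟩)
    by_cases hsub : K.bd D ⊆ C
    · obtain rfl := (arcs (E := E)).2.2.2.1 (circle_bd k.d₂) hc hsub
      exact hDI (hac.eq (hI.trans hG) (singleton_subset_iff.2 (hG (hin _ hD.1 hD.2))) f
        (finite_singleton D) hb (bds_single hM hK k.d₂) ▸ rfl)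
    obtain ⟨p, q, β, C₁, C₂, b, I₁, I₂, hβ, s1, s2, c1, c2, t1, t2, e1, e2, hb1, hb2, n0, n1, n2,
      i1, i2, f1, f2, b1, b2, hx⟩ := exists_theta hM hac hfill' hG (hI.trans hG) f hb hC hc hCS
        k.d₂ (subset_un hD) k.d haC k.s₂ hsub
    have w : C ∪ K.cell D ⊆ K.un S := union_subset hCS (subset_un hD)
    have fin : ∀ {I' : Set K.ι} {C' : Set E}, I' ⊆ 𝓖 → K.Sub C' → IsCircle C' →
        C' ⊆ C ∪ K.cell D → K.Bds I' C' → β ⊆ C' → ¬ I ⊆ I' := by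
      intro I' C' o1 o2 o3 o4 o5 o6 o7
      obtain rfl : I = I' := Subset.antisymm o7
        (hmax ⟨o1, o7 hI₀, C', o2, o3, o4.trans w, o5⟩ o7)
      obtain ⟨j₁, j₂, o8, -⟩ := exists_adj hM hK hb1
      exact (n0 b hb1 hb2).1 ((hb b j₁ j₂ o8).2 ((o5 b j₁ j₂ o8).1 (hb2.trans o6)))
    rcases bds_or hM hK (f.inter_of_left I₁) (fun j hj => hd j (hG (hI hj.1))) hC hc
      (fun e j₁ j₂ k' h => by
        by_contra h1
        have k0 := hb e j₁ j₂ k'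
        have k1 := b1 e j₁ j₂ k'
        by_cases h2 : K.cell e ⊆ β
        · refine xor4 (mt k0.2 h1) ?_ h
          rcases k'.two hM hK (n0 e k'.d h2).2 k.d₂ with rfl | rfl
          exacts [Or.inl hDI, Or.inr hDI]
        · exact xor3 (mt k0.2 h1) (fun o => (n1 e (k1.2 o)).elim h1 h2) h) with h | h
    · have h1 := hac _ (fun j hj => hG (hI hj.1)) (f.inter_of_left I₁) h
      refine fin i2 s2 c2 t2 b2 (e1 ▸ inter_subset_right) fun j hj => ?_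
      exact ((hx j).1 hj).elim (fun o => (h1 ▸ ⟨hj, o.1⟩ : j ∈ (∅ : Set K.ι)).elim) And.left
    · have h1 := hac.eq (hI.trans hG) (fun j hj => hG (hI hj.1)) f (f.inter_of_left I₁) hb h
      exact fin i1 s1 c1 t1 b1 (e1 ▸ inter_subset_left) fun j hj => (h1 ▸ hj : j ∈ I ∩ I₁).2
  have loc : ∀ x ∈ X, ∀ j j', x ∈ K.cell j → x ∈ K.cell j' → K.dim j = 2 → K.dim j' = 2 →
      j ∈ I → j' ∈ I := fun x hx j j' h1 h2 h3 h4 =>
    hM'.2.2.2.2 x (hXK hx) (· ∈ I) (fun a k k' o1 o2 o3 o4 _ _ o5 o6 o7 => by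
      by_cases e : k = k'
      · exact e ▸ o7
      · exact key a k k' ⟨o2, o5, o6, e, o3, o4⟩ ⟨o6, x, o4 o1, hx⟩ o7) j j' h1 h2
      (K.cell_subset_carrier _) (K.cell_subset_carrier _) h3 h4
  have hXI : X ⊆ K.un I := by
    rcases isPreconnected_iff_subset_of_disjoint_closed.1 hX _ _ (isClosed_un f)
      (isClosed_un (fG.subset (sdiff_subset (t := I)))) (fun x hx => by
        obtain ⟨j, h1, h2⟩ := hcov x hx
        by_cases h3 : j ∈ I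
        · exact Or.inl (subset_un h3 h2)
        · exact Or.inr (subset_un (I := 𝓖 \ I) ⟨hin j h1 ⟨x, h2, hx⟩, h3⟩ h2))
      (eq_empty_of_forall_notMem fun x hx => by
        obtain ⟨j, h1, h2⟩ := mem_un.1 hx.2.1
        obtain ⟨j', h3, h4⟩ := mem_un.1 hx.2.2
        exact h3.2 (loc x hx.1 j j' h2 h4 (hd _ (hG (hI h1))) (hd _ (hG h3.1)) h1)) with h | h
    · exact h
    · obtain ⟨j', h3, h4⟩ := mem_un.1 (h hx₀)
      exact absurd (loc x₀ hx₀ D₀ j' hx₀' h4 hD₀ (hd _ (hG h3.1)) hI₀) h3.2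
  refine ⟨I, hI, C, disc hM hK hd hac (hI.trans hG) f (hfill.mono (un_mono hI) Subset.rfl) hC hc
    hb, fun x hx => ⟨hXI hx, fun hxC => ?_⟩⟩
  obtain ⟨a, h1, h2, h3⟩ := hC.exists_edge hM hc hxC
  obtain ⟨j₁, j₂, k, -⟩ := exists_adj hM hK h1
  rcases (hb a j₁ j₂ k).1 h2 with o | o
  · exact o.2 (loc x hx j₁ j₂ (k.s₁ h3) (k.s₂ h3) k.d₁ k.d₂ o.1)
  · exact o.2 (loc x hx j₂ j₁ (k.s₂ h3) (k.s₁ h3) k.d₂ k.d₁ o.1)

end RCx

end P073
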