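import Vale.Agent.P073Z.A8a

/-!
# Removing compact components of a two-sided surface
-/

open Set Metric Topology Filter

namespace P073

namespace Sides

theorem int_ev {X : Type} [TopologicalSpace X] {f : X → ℝ} {n : X → ℤ} {x : X}
    (hf : ContinuousAt f x) (h : ∀ᶠ y in 𝓝 x, f y = n y) : ∀ᶠ y in 𝓝 x, n y = n x := by
  filter_upwards [h, Metric.tendsto_nhds.1 hf 1 one_pos] with y h1 h2
  rw [h1, h.self_of_nhds, Real.dist_eq, ← Int.cast_sub, ← Int.cast_abs] at h2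
  have h3 : |n y - n x| < 1 := by exact_mod_cast h2
  exact sub_eq_zero.1 (Int.abs_lt_one_iff.1 h3)

/-- an integer valued function which jumps exactly across `C` -/
theorem exists_jump {F : Type} [NormedAddCommGroup F] [NormedSpace ℝ F] {P₀ M₀ C O W W₂ : Set E3}
    (hP : IsOpen P₀) (hM : IsOpen M₀) (hd : Disjoint P₀ M₀) (hC : IsCompact C) (hO : IsOpen O)
    (hCO : C ⊆ O) (hu : O \ C ⊆ P₀ ∪ M₀) (h1 : C ⊆ interior W) (h2 : IsClosed W)
    (h3 : W ⊆ interior W₂) (h4 : IsPreconnected (W₂ \ W)) {f : E3 → F} {g : F → E3} {K : Set F}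
    (hK : Convex ℝ K) (h5 : HomeoOn f g W₂ K) :
    ∃ k : E3 → ℤ, (∀ x, x ∉ W → k x = 0) ∧ (∀ x, x ∉ C → ∀ᶠ y in 𝓝 x, k y = k x) ∧
      ∀ x ∈ C, ∃ m : ℤ, ∀ᶠ y in 𝓝 x, (y ∈ P₀ → k y = m + 1) ∧ (y ∈ M₀ → k y = m) := by
  classical
  rcases C.eq_empty_or_nonempty with rfl | hne
  · exact ⟨fun _ => 0, fun _ _ => rfl, fun _ _ => Eventually.of_forall fun _ => rfl,
      fun _ h => h.elim⟩
  obtain ⟨η, hη, hsub⟩ := hC.exists_cthickening_subset_open (isOpen_interior.inter hO)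
    (subset_inter h1 hCO)
  set u : E3 → ℝ := fun x => min 1 (infDist x C / η) / 2 with hu'
  have uc : Continuous u := (continuous_const.min ((continuous_infDist_pt C).div_const η)).div_const 2
  set t : E3 → ℝ := fun x => if x ∈ P₀ then 1 / 2 + u x else 1 / 2 - u x with ht
  set e : E3 → ℤ := fun x => if x ∈ P₀ then 1 else 0 with he
  have near : ∀ x, infDist x C ≤ η → x ∈ interior W ∩ O := by
    intro x hx
    obtain ⟨y, hy, h⟩ := hC.exists_infDist_eq_dist hne x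
    exact hsub (mem_cthickening_of_dist_le x y η C hy (h ▸ hx))
  have far : ∀ x, η < infDist x C → t x = e x := by
    intro x hx
    have : u x = 1 / 2 := by
      simp only [hu']
      rw [min_eq_left ((one_le_div hη).2 hx.le)]
    simp only [ht, he, this]
    split_ifs <;> norm_num
  have farev : ∀ x, η < infDist x C → ∀ᶠ y in 𝓝 x, t y = e y := by
    intro x hx
    filter_upwards [(isOpen_lt continuous_const (continuous_infDist_pt C)).mem_nhds hx] with y hy
    exact far y hy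
  have evP : ∀ x ∈ P₀ ∪ M₀, ∀ᶠ y in 𝓝 x, (y ∈ P₀ ↔ x ∈ P₀) := by
    rintro x (hx | hx)
    · filter_upwards [hP.mem_nhds hx] with y hy using iff_of_true hy hx
    · filter_upwards [hM.mem_nhds hx] with y hy
      exact iff_of_false (fun h => hd.notMem_of_mem_left h hy) fun h => hd.notMem_of_mem_left h hx
  have tc : ∀ x, infDist x C ≤ η → ContinuousAt t x := by
    intro x hx
    by_cases hxC : x ∈ C
    · have h0 : u x = 0 := by simp [hu', infDist_zero_of_mem hxC]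
      have h6 : t x = 1 / 2 := by simp [ht, h0]
      rw [ContinuousAt, h6, tendsto_iff_dist_tendsto_zero]
      have h7 : Tendsto (fun y => |u y|) (𝓝 x) (𝓝 0) := by
        simpa [h0] using (uc.abs.tendsto x)
      refine h7.congr fun y => ?_
      simp only [ht, Real.dist_eq]
      split_ifs <;> simp
    · have h6 := evP x (hu ⟨(near x hx).2, hxC⟩)
      by_cases hxP : x ∈ P₀
      · refine ((continuous_const (y := (1 / 2 : ℝ))).add uc).continuousAt.congr (g := t) ?_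
        filter_upwards [h6] with y hy using (if_pos (hy.2 hxP)).symm
      · refine ((continuous_const (y := (1 / 2 : ℝ))).sub uc).continuousAt.congr (g := t) ?_
        filter_upwards [h6] with y hy using (if_neg fun h => hxP (hy.1 h)).symm
  have zint : ∀ n : ℤ, ((n : ℝ) : AddCircle (1 : ℝ)) = 0 := fun n =>
    (AddCircle.coe_eq_zero_iff 1).2 ⟨n, by simp⟩
  have θc : Continuous fun x => ((t x : ℝ) : AddCircle (1 : ℝ)) := by
    rw [continuous_iff_continuousAt]
    intro x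
    rcases le_or_gt (infDist x C) η with hx | hx
    · exact (AddCircle.continuous_mk' 1).continuousAt.comp (tc x hx)
    · refine (continuousAt_const (y := (0 : AddCircle (1 : ℝ)))).congr ?_
      filter_upwards [farev x hx] with y hy
      rw [hy, zint]
  obtain ⟨lam, hl, hl'⟩ := idx hK h5 θc.continuousOn
  have offW : ∀ x, x ∉ W → t x = e x := fun x hx =>
    far x (not_le.1 fun h => hx (interior_subset (near x h).1))
  have hint : ∀ x ∈ W₂, ∃ n : ℤ, lam x - t x = n := by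
    intro x hx
    have h6 : ((lam x - t x : ℝ) : AddCircle (1 : ℝ)) = 0 := by
      rw [AddCircle.coe_sub, hl' x hx, sub_self]
    obtain ⟨n, hn⟩ := (AddCircle.coe_eq_zero_iff 1).1 h6
    exact ⟨n, by simpa using hn.symm⟩
  choose! j hj using hint
  obtain ⟨n₀, hn₀⟩ : ∃ n₀ : ℤ, ∀ x ∈ W₂ \ W, lam x = n₀ := by
    rcases (W₂ \ W).eq_empty_or_nonempty with h | ⟨x₀, hx₀⟩
    · exact ⟨0, by simp [h]⟩
    have h6 : ∀ x ∈ W₂ \ W, lam x = (j x + e x : ℤ) := by
      intro x hx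
      push_cast
      rw [← hj x hx.1, ← offW x hx.2, sub_add_cancel]
    refine ⟨j x₀ + e x₀, fun x hx => ?_⟩
    rw [← h6 x₀ hx₀]
    refine h4.induction₂' (fun a b => lam a = lam b) (fun a ha => ?_)
      (fun _ _ _ _ _ _ h h' => h.trans h') hx hx₀
    filter_upwards [Metric.tendsto_nhds.1 ((hl a ha.1).mono sdiff_subset) 1 one_pos,
      self_mem_nhdsWithin] with y h7 hy
    rw [h6 y hy, h6 a ha, Real.dist_eq, ← Int.cast_sub, ← Int.cast_abs] at h7
    have h8 : |j y + e y - (j a + e a)| < 1 := by exact_mod_cast h7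
    have h9 : lam y = lam a := by
      rw [h6 y hy, h6 a ha, sub_eq_zero.1 (Int.abs_lt_one_iff.1 h8)]
    exact ⟨h9.symm, h9⟩
  set L : E3 → ℝ := fun x => if x ∈ W then lam x - n₀ else 0 with hL
  have Lc : ∀ x, ContinuousAt L x := by
    intro x
    by_cases hx : x ∈ W
    · have h6 : W₂ ∈ 𝓝 x := mem_interior_iff_mem_nhds.1 (h3 hx)
      refine ((hl.continuousAt h6).sub (continuousAt_const (y := (n₀ : ℝ)))).congr ?_
      filter_upwards [h6] with y hy
      by_cases h7 : y ∈ W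
      · exact (if_pos h7).symm
      · simp only [hL, if_neg h7, Pi.sub_apply, hn₀ y ⟨hy, h7⟩, sub_self]
    · refine (continuousAt_const (y := (0 : ℝ))).congr ?_
      filter_upwards [h2.isOpen_compl.mem_nhds hx] with y hy using (if_neg hy).symm
  set k : E3 → ℤ := fun x => if x ∈ W then j x - n₀ + e x else 0 with hk
  have hLk : ∀ x, L x - t x = (k x - e x : ℤ) := by
    intro x
    by_cases hx : x ∈ W
    · simp only [hL, hk, if_pos hx]
      push_cast
      linarith [hj x (interior_subset (h3 hx))]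
    · simp only [hL, hk, if_neg hx, offW x hx]
      push_cast
      rfl
  have ev1 : ∀ x, infDist x C ≤ η → ∀ᶠ y in 𝓝 x, k y - e y = k x - e x := fun x hx =>
    int_ev (n := fun y => k y - e y) ((Lc x).sub (tc x hx)) (Eventually.of_forall hLk)
  refine ⟨k, fun x hx => if_neg hx, fun x hx => ?_, fun x hx => ⟨k x - e x, ?_⟩⟩
  · rcases le_or_gt (infDist x C) η with h6 | h6
    · filter_upwards [ev1 x h6, evP x (hu ⟨(near x h6).2, hx⟩)] with y h7 h8
      have : e y = e x := by simp only [he, h8]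
      linarith
    · refine int_ev (Lc x) ?_
      filter_upwards [farev x h6] with y hy
      have := hLk y
      push_cast at this
      linarith
  · filter_upwards [ev1 x ((infDist_zero_of_mem hx).le.trans hη.le)] with y hy
    constructor
    · intro h
      have : e y = 1 := if_pos h
      linarith
    · intro h
      have : e y = 0 := if_neg fun h' => hd.notMem_of_mem_left h' h
      linarith

end Sides

open Sides in
/-- the two sides of the surface which remains after removing compact components lying in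
boxes -/
theorem sides_thm {F : Type} [NormedAddCommGroup F] [NormedSpace ℝ F] {ι : Type}
    {V S P₀ M₀ : Set E3} (C W W₂ : ι → Set E3) (hV : IsOpen V) (hP : IsOpen P₀) (hM : IsOpen M₀)
    (hd : Disjoint P₀ M₀) (hu : P₀ ∪ M₀ = V \ (S ∪ ⋃ i, C i))
    (hSP : S ∪ ⋃ i, C i ⊆ closure P₀) (hSM : S ⊆ closure M₀)
    (hC : ∀ i, IsCompact (C i) ∧ Disjoint S (C i) ∧ ∃ O, IsOpen O ∧ (S ∪ ⋃ j, C j) ∩ O = C i)
    (hCC : Pairwise fun i j => Disjoint (C i) (C j))
    (hW : ∀ i, C i ⊆ interior (W i) ∧ IsClosed (W i) ∧ W i ⊆ interior (W₂ i) ∧ W i ⊆ V ∧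
      IsPreconnected (W₂ i \ W i) ∧
      ∃ (f : E3 → F) (g : F → E3) (K : Set F), Convex ℝ K ∧ HomeoOn f g (W₂ i) K)
    (hlf : LFIn W V) (hS : S ⊆ V) :
    ∃ P M : Set E3, IsOpen P ∧ IsOpen M ∧ Disjoint P M ∧ P ∪ M = V \ S ∧ S ⊆ closure P ∧
      S ⊆ closure M ∧ ∀ x, (∀ i, x ∉ W i) → (x ∈ P₀ → x ∈ P) ∧ (x ∈ M₀ → x ∈ M) := by
  classical
  have hCV : ∀ i, C i ⊆ V := fun i => ((hW i).1.trans interior_subset).trans (hW i).2.2.2.1
  have hk : ∀ i, ∃ k : E3 → ℤ, (∀ x, x ∉ W i → k x = 0) ∧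
      (∀ x, x ∉ C i → ∀ᶠ y in 𝓝 x, k y = k x) ∧
      ∀ x ∈ C i, ∃ m : ℤ, ∀ᶠ y in 𝓝 x, (y ∈ P₀ → k y = m + 1) ∧ (y ∈ M₀ → k y = m) := by
    intro i
    obtain ⟨c1, -, O, hO, c2⟩ := hC i
    obtain ⟨w1, w2, w3, -, w4, f, g, K, w5, w6⟩ := hW i
    refine exists_jump hP hM hd c1 (hO.inter hV)
      (subset_inter (c2 ▸ inter_subset_right) (hCV i)) ?_ w1 w2 w3 w4 w5 w6
    rintro x ⟨⟨h1, h2⟩, h3⟩
    exact hu ▸ ⟨h2, fun h => h3 (c2 ▸ ⟨h, h1⟩)⟩
  choose k k1 k2 k3 using hk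
  set Z : E3 → ℤ := fun x => ∑ᶠ i, k i x with hZ
  have fin : ∀ x ∈ V, ∃ s : Finset ι, (∀ i, x ∈ W i → i ∈ s) ∧
      ∀ᶠ y in 𝓝 x, Z y = ∑ i ∈ s, k i y := by
    intro x hx
    obtain ⟨U, hU, hf⟩ := hlf x hx
    refine ⟨hf.toFinset, fun i hi => hf.mem_toFinset.2 ⟨x, hi, mem_of_mem_nhds hU⟩, ?_⟩
    filter_upwards [hU] with y hy
    refine finsum_eq_sum_of_support_subset _ fun i hi => ?_
    by_contra h
    exact hi (k1 i y fun h' => h (hf.mem_toFinset.2 ⟨y, h', hy⟩))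
  have A : ∀ x ∈ V, (∀ i, x ∉ C i) → ∀ᶠ y in 𝓝 x, Z y = Z x := by
    intro x hx h
    obtain ⟨s, -, hs⟩ := fin x hx
    filter_upwards [hs, (eventually_all_finset s).2 fun i _ => k2 i x (h i)] with y h1 h2
    rw [h1, hs.self_of_nhds]
    exact Finset.sum_congr rfl h2
  have B : ∀ i, ∀ x ∈ C i, ∃ m : ℤ,
      ∀ᶠ y in 𝓝 x, (y ∈ P₀ → Z y = m + 1) ∧ (y ∈ M₀ → Z y = m) := by
    intro i x hx
    obtain ⟨s, hs, hs'⟩ := fin x (hCV i hx)
    obtain ⟨m, hm⟩ := k3 i x hx
    refine ⟨m + ∑ j ∈ s.erase i, k j x, ?_⟩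
    filter_upwards [hs', hm, (eventually_all_finset (s.erase i)).2 fun j hj => k2 j x fun h =>
      (hCC (Finset.ne_of_mem_erase hj)).notMem_of_mem_left h hx] with y h1 h2 h3
    rw [h1, ← Finset.add_sum_erase s _ (hs i (interior_subset ((hW i).1 hx))),
      Finset.sum_congr rfl h3]
    exact ⟨fun h => by rw [h2.1 h]; ring, fun h => by rw [h2.2 h]⟩
  have hmem : ∀ x ∈ P₀ ∪ M₀, x ∈ V \ S ∧ ∀ i, x ∉ C i := by
    intro x hx
    rw [hu] at hx
    exact ⟨⟨hx.1, fun h => hx.2 (Or.inl h)⟩, fun i h => hx.2 (Or.inr (mem_iUnion.2 ⟨i, h⟩))⟩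
  have hVS : IsOpen (V \ S) := by
    rw [isOpen_iff_mem_nhds]
    intro x hx
    by_cases h : ∃ i, x ∈ C i
    · obtain ⟨i, hi⟩ := h
      obtain ⟨-, c1, O, hO, c2⟩ := hC i
      filter_upwards [hV.mem_nhds hx.1, hO.mem_nhds (c2 ▸ hi : x ∈ (S ∪ ⋃ j, C j) ∩ O).2] with
        y h1 h2
      exact ⟨h1, fun h3 => c1.notMem_of_mem_left h3 (c2 ▸ ⟨Or.inl h3, h2⟩)⟩
    · have h1 : x ∈ P₀ ∪ M₀ := hu ▸ ⟨hx.1, fun h2 => h2.elim hx.2 fun h3 => h (mem_iUnion.1 h3)⟩
      filter_upwards [(hP.union hM).mem_nhds h1] with y hy using (hmem y hy).1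
  set Q : Bool → Set E3 := fun b => {x | x ∈ V \ S ∧ ∀ᶠ y in 𝓝 x,
    (y ∈ P₀ → (Even (Z y) ↔ b)) ∧ (y ∈ M₀ → (Odd (Z y) ↔ b))} with hQ
  have QP : ∀ b : Bool, ∀ x ∈ P₀, (Even (Z x) ↔ b) → x ∈ Q b := by
    intro b x hx h
    refine ⟨(hmem x (Or.inl hx)).1, ?_⟩
    filter_upwards [A x (hmem x (Or.inl hx)).1.1 (hmem x (Or.inl hx)).2, hP.mem_nhds hx] with
      y h1 h2
    exact ⟨fun _ => h1 ▸ h, fun h3 => (hd.notMem_of_mem_left h2 h3).elim⟩
  have QM : ∀ b : Bool, ∀ x ∈ M₀, (Odd (Z x) ↔ b) → x ∈ Q b := by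
    intro b x hx h
    refine ⟨(hmem x (Or.inr hx)).1, ?_⟩
    filter_upwards [A x (hmem x (Or.inr hx)).1.1 (hmem x (Or.inr hx)).2, hM.mem_nhds hx] with
      y h1 h2
    exact ⟨fun h3 => (hd.notMem_of_mem_left h3 h2).elim, fun _ => h1 ▸ h⟩
  have Qo : ∀ b, IsOpen (Q b) := fun b => hVS.inter isOpen_setOfPred_eventually_nhds
  have Qc : ∀ b, S ⊆ closure (Q b) := by
    intro b x hx
    have h1 := A x (hS hx) fun i h => (hC i).2.1.notMem_of_mem_left hx h
    rw [mem_closure_iff_frequently]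
    by_cases h : Even (Z x) ↔ b
    · refine ((mem_closure_iff_frequently.1 (hSP (Or.inl hx))).and_eventually h1).mono ?_
      exact fun y hy => QP b y hy.1 (hy.2 ▸ h)
    · refine ((mem_closure_iff_frequently.1 (hSM hx)).and_eventually h1).mono ?_
      refine fun y hy => QM b y hy.1 ?_
      rw [hy.2, ← Int.not_even_iff_odd]
      tauto
  refine ⟨Q true, Q false, Qo _, Qo _, ?_, ?_, Qc _, Qc _, fun x hx => ?_⟩
  · rw [Set.disjoint_left]
    intro x h1 h2
    have h3 : x ∈ closure (P₀ ∪ M₀) := by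
      by_cases h : x ∈ S ∪ ⋃ i, C i
      · exact closure_mono subset_union_left (hSP h)
      · exact subset_closure (hu ▸ ⟨h1.1.1, h⟩)
    obtain ⟨y, h4, h5, h6⟩ :=
      ((mem_closure_iff_frequently.1 h3).and_eventually (h1.2.and h2.2)).exists
    rcases h4 with h4 | h4
    · simpa using (h5.1 h4).symm.trans (h6.1 h4)
    · simpa using (h5.2 h4).symm.trans (h6.2 h4)
  · refine Subset.antisymm (union_subset (fun x hx => hx.1) fun x hx => hx.1) fun x hx => ?_
    have : ∃ b, x ∈ Q b := by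
      by_cases h : ∃ i, x ∈ C i
      · obtain ⟨i, hi⟩ := h
        obtain ⟨m, hm⟩ := B i x hi
        refine ⟨decide (Odd m), hx, hm.mono fun y hy => ⟨fun h => ?_, fun h => ?_⟩⟩
        · rw [hy.1 h, Int.even_add_one, Int.not_even_iff_odd]
          simp
        · rw [hy.2 h]
          simp
      · rcases (hu ▸ ⟨hx.1, fun h2 => h2.elim hx.2 fun h3 => h (mem_iUnion.1 h3)⟩ :
          x ∈ P₀ ∪ M₀) with h1 | h1
        · exact ⟨decide (Even (Z x)), QP _ x h1 (by simp)⟩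
        · exact ⟨decide (Odd (Z x)), QM _ x h1 (by simp)⟩
    obtain ⟨b, hb⟩ := this
    cases b
    · exact Or.inr hb
    · exact Or.inl hb
  · have h0 : Z x = 0 := by simp only [hZ, fun i => k1 i x (hx i), finsum_zero]
    exact ⟨fun h => QP _ x h (by simp [h0]), fun h => QM _ x h (by simp [h0])⟩

end P073
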