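import Vale.Agent.P073Z.SURF.Nman

/-!
# The normal surface separates the ends of the small arcs
-/

open Set Metric Topology Filter

namespace P073.SF

namespace Nm

theorem const_on {w : E3 → ZMod 2} {X S : Set E3} (h : LocC w X) (hS : IsPreconnected S)
    (hX : S ⊆ X) {x y : E3} (hx : x ∈ S) (hy : y ∈ S) : w x = w y :=
  hS.induction₂' (fun x y => w x = w y)
    (fun x hx => ((h x (hX hx)).filter_mono nhdsWithin_le_nhds).mono fun _ e => ⟨e.symm, e⟩)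
    (fun _ _ _ _ _ _ => Eq.trans) hx hy

/-- three arcs in a row -/
theorem arc3 {E : Type} [NormedAddCommGroup E] [NormedSpace ℝ E] {P A Q X Y B : Set E}
    {p u w q : E} (hP : IsArc P p u) (hA : IsArc A u w) (hQ : IsArc Q w q) (hX : P ⊆ X)
    (hY : Q ⊆ Y) (hd : Disjoint X Y) (hB : X ∪ Y ⊆ B) (hi : A ∩ B = {u, w}) :
    IsArc (P ∪ A ∪ Q) p q := by
  rw [disjoint_left] at hd
  refine (hP.trans hA fun y hy => ?_).trans hQ fun y hy => ?_
  · rcases (hi ▸ ⟨hy.2, hB (Or.inl (hX hy.1))⟩ : y ∈ ({u, w} : Set E)) with o | o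
    · exact o
    · exact absurd (hY hQ.left_mem) (hd (hX (mem_singleton_iff.1 o ▸ hy.1)))
  · rcases hy.1 with o | o
    · exact absurd (hY hy.2) (hd (hX o))
    · rcases (hi ▸ ⟨o, hB (Or.inr (hY hy.2))⟩ : y ∈ ({u, w} : Set E)) with o' | o'
      · exact absurd (hY (o' ▸ hy.2)) (hd (hX hP.right_mem))
      · exact o'

/-- a disc minus a part of its boundary is connected -/
theorem preconn_diff {E : Type} [NormedAddCommGroup E] [NormedSpace ℝ E] {n : ℕ} {D B β : Set E}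
    (h : ConBall n D B) (hβ : β ⊆ B) : IsPreconnected (D \ β) :=
  h.isConnected_int.isPreconnected.subset_closure (sdiff_subset_sdiff_right hβ)
    (sdiff_subset.trans h.subset_closure_int)

variable {T : RCx E3} {ψ : E3 → ℝ} {c : ℝ} {I : E3 → Set E3} {zp zm : E3 → E3} {W : Set E3}
  (N : Nrm T ψ c I zp zm W)

/-- a strip meets the surface in its arc -/
theorem strip_inter (hL : Lev T ψ c I zp zm) {a : N.X.ι} (ha : N.X.dim a = 1) {y : E3}
    (hy : y ∈ N.strip a) (hX : y ∈ N.X.carrier) : y ∈ N.X.cell a := by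
  obtain ⟨i, hi⟩ := N.X.exists_ocell hX
  obtain ⟨B, -, k2, -, k4, -⟩ := strip_data N ha
  have h1 := T.cell_subset_of_mem (N.host_ocell i hi) (k2 hy)
  have h2 := T.dim_le h1
  rw [host2 N ha, N.host_dim] at h2
  rcases (by omega : N.X.dim i = 0 ∨ N.X.dim i = 1) with o | o
  · obtain ⟨y1, y2⟩ := (N.vert y).1 (N.X.cell_subset_skel o.le hi.1)
    obtain ⟨z, o1, o2⟩ := k4 y hy (T.cell_inter_skel (k := 1) (host2 N ha) ▸ ⟨k2 hy, y1⟩)
    obtain ⟨z1, z2⟩ := zero_of_bd N ha o1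
    obtain ⟨e, -, -, -, o3, -⟩ := hL.arc y y1 y2
    have ez : z = y := by_contra fun o4 =>
      disjoint_left.1 (hL.disj z z1 y y1 z2 y2 o4) o2 o3
    exact N.X.bd_subset a (ez ▸ o1)
  · exact strip_eq N o ha (T.eq_of_subset_of_dim_le h1 (by rw [host2 N ha, host2 N o]))
      (cell_sub N o hi.1).2 hy ▸ hi.1

/-- the two halves of a strip -/
theorem strip_halves (hL : Lev T ψ c I zp zm) {a : N.X.ι} (ha : N.X.dim a = 1) :
    ∃ D₁ D₂, D₁ ∪ D₂ = N.strip a ∧ IsPreconnected (D₁ \ N.X.cell a) ∧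
      IsPreconnected (D₂ \ N.X.cell a) ∧
      ∀ z ∈ N.X.bd a, zp z ∈ D₁ \ N.X.cell a ∧ zm z ∈ D₂ \ N.X.cell a := by
  obtain ⟨p, q, h1, h2, h3, h4, -, h6, h7, h8, h9, h10, -, -, h11, h12⟩ := N.arc a ha
  obtain ⟨p1, p2⟩ := zero_of_bd N ha (z := p) (h1 ▸ Or.inl rfl)
  obtain ⟨q1, q2⟩ := zero_of_bd N ha (z := q) (h1 ▸ Or.inr rfl)
  obtain ⟨-, -, -, p3, p4, p5, p6⟩ := hL.arc p p1 p2
  obtain ⟨-, -, -, q3, q4, q5, q6⟩ := hL.arc q q1 q2
  obtain ⟨P₁, P₂, a1, a2, a3, -⟩ := A12.arc_split p3 p4 (fun o => p5.ne (o ▸ p2))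
    fun o => p6.ne' (o ▸ p2)
  obtain ⟨Q₁, Q₂, b1, b2, b3, -⟩ := A12.arc_split q3 q4 (fun o => q5.ne (o ▸ q2))
    fun o => q6.ne' (o ▸ q2)
  have hd := hL.disj p p1 q q1 p2 q2 h2.ne
  have hB : I p ∪ I q ⊆ T.bd (N.host a) := h6 ▸ inter_subset_right
  have u1 := arc3 a2 h7 b2.symm (a3 ▸ subset_union_right) (b3 ▸ subset_union_right) hd hB h9
  have u2 := arc3 a1.symm h8 b1 (a3 ▸ subset_union_left) (b3 ▸ subset_union_left) hd hB h10
  have hu : (P₂ ∪ N.top a ∪ Q₂) ∪ (P₁ ∪ N.bot a ∪ Q₁) = I p ∪ I q ∪ N.top a ∪ N.bot a := by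
    rw [← a3, ← b3]
    ext y
    simp only [mem_union]
    tauto
  obtain ⟨γ, -, -, g3, g4⟩ := ARCS.compl arcs h4.isCircleD u1 (hu ▸ subset_union_left)
  have hi : (P₂ ∪ N.top a ∪ Q₂) ∩ (P₁ ∪ N.bot a ∪ Q₁) = {p, q} := by
    rcases g4 _ u2 (hu ▸ subset_union_right) with o | o
    · refine absurd ?_ (A12.circle_not_subset_arc h4.isCircleD u1)
      rw [← hu, o, union_self]
    · rw [o, g3]
  obtain ⟨D₁, D₂, c1, c2, c3, -⟩ := xc h4 h2 (fun y hy => (h3 hy).2) h12 u1 u2 hu hi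
  have hn : ∀ y ∈ N.top a ∪ N.bot a, y ∉ N.X.cell a := fun y hy o =>
    disjoint_left.1 h11 hy (h3 o).1
  refine ⟨D₁, D₂, c3, preconn_diff c1 subset_union_left, preconn_diff c2 subset_union_left,
    fun z hz => ?_⟩
  have k : zp z ∈ N.top a ∧ zm z ∈ N.bot a := by
    rw [h1] at hz
    rcases hz with rfl | rfl
    exacts [⟨h7.left_mem, h8.left_mem⟩, ⟨h7.right_mem, h8.right_mem⟩]
  exact ⟨⟨c1.1 (Or.inr (Or.inl (Or.inr k.1))), hn _ (Or.inl k.1)⟩,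
    c2.1 (Or.inr (Or.inl (Or.inr k.2))), hn _ (Or.inr k.2)⟩

/-- a value taken on the strip is taken near the arc -/
theorem near_arc (hO : IsOpen T.carrier) {ζ : E3 → ZMod 2}
    (hζ : LocC ζ (T.carrier \ N.X.carrier)) {a : N.X.ι} (ha : N.X.dim a = 1) {b : ZMod 2}
    (hb : ∀ y ∈ N.strip a, y ∉ N.X.cell a → ζ y = b) {x : E3} (hx : x ∈ N.X.ocell a) :
    ∀ᶠ y in 𝓝 x, y ∉ N.X.carrier → ζ y = b := by
  have hF := host2 N ha
  have hxF := N.host_ocell a hx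
  have hU : {y | ((∀ i, y ∈ N.X.cell i → N.X.cell a ⊆ N.X.cell i) ∧
      ∀ j, y ∈ T.cell j → T.cell (N.host a) ⊆ T.cell j) ∧
      (y ∈ T.cell (N.host a) → y ∈ N.strip a)} ∈ 𝓝 x :=
    ((N.X.eventually_coface hx).and (T.eventually_coface hxF)).and (eventually_nhdsWithin_iff.1
      (strip_in N ha hF (cell_sub N ha hx.1).1 hxF (cell_sub N ha hx.1).2).2.1)
  have key : ∀ Q ∈ {Q | T.cell (N.host a) ⊆ T.cell Q}, ∀ᶠ y in 𝓝 x,
      T.dim Q = 3 → y ∈ T.cell Q → y ∉ N.X.carrier → ζ y = b := fun Q hQ => by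
    by_cases h3 : T.dim Q = 3
    · obtain ⟨d, d1, rfl, d3⟩ := N.at_room a Q ha h3 hQ
      refine (N.loc d d1 x (N.X.subset_bd_of_dim_lt d3 (by omega) hx.1) _ hU).mono
        fun y hy _ y1 y2 => ?_
      obtain ⟨K, k1, k2, k3, w, k4, k5⟩ := hy y1 fun o => y2 (N.X.cell_subset_carrier d o)
      have k6 : K ⊆ T.carrier \ N.X.carrier := fun u hu => by
        obtain ⟨⟨u1, u2⟩, u3⟩ := k1 hu
        refine ⟨T.cell_subset_carrier _ u2, fun o => u3 ?_⟩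
        obtain ⟨i, hi⟩ := N.X.exists_ocell o
        have o1 := u1.1.1 i hi.1
        by_cases o2 : N.X.dim i = 2
        · exact cap_eq N o2 d1 (T.eq_of_subset_of_dim_le (T.cell_subset_of_mem
            (N.host_ocell i hi) u2) (by rw [h3, host3 N o2])) (o1 hx.1) (d3 hx.1) ▸ hi.1
        · have o3 := dim_le N hO i
          exact d3 (N.X.eq_of_subset_of_dim_le o1 (by omega) ▸ hi.1)
      obtain ⟨⟨w1, -⟩, w3⟩ := k1 k4
      obtain ⟨j, j1, -, j3⟩ := T.exists_face_bd k5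
      have j4 : N.host a = j := T.eq_of_subset_of_dim_le (w1.1.2 j j1.1) (by omega)
      rw [const_on hζ k2 k6 k3 k4]
      exact hb w (w1.2 (j4 ▸ j1.1)) fun o => w3 (d3 o)
    · exact Eventually.of_forall fun _ o => absurd o h3
  filter_upwards [(eventually_all_finite (T.finite_cofaces _)).2 key, hU,
    hO.mem_nhds (T.cell_subset_carrier _ hxF.1)] with y h1 h2 h3 h4
  obtain ⟨j, hj⟩ := T.mem_carrier.1 h3
  obtain ⟨Q, q1, -, q3⟩ := (man T (n := 2) T.sub_carrier (plMan_open hO)).2.1 j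
    (T.cell_subset_carrier j)
  exact h1 Q ((h2.1.2 j hj).trans q1) q3 (q1 hj) h4

end Nm

theorem zarc : ZARC := by
  intro T ψ c I zp zm W N ζ _ hO hL hζ hJ z z1 z2 he
  obtain ⟨F, h1, h2⟩ := Nm.face_at hO z1
  obtain ⟨a, ha, -, h3⟩ := N.at_face z z1 z2 F h1 h2
  obtain ⟨D₁, D₂, d1, d2, d3, d4⟩ := Nm.strip_halves N hL ha
  obtain ⟨d5, d6⟩ := d4 z (Nm.bd_of_zero N ha h3 z1 z2)
  obtain ⟨B, -, k, -⟩ := Nm.strip_data N ha
  have hs : ∀ D ⊆ N.strip a, D \ N.X.cell a ⊆ T.carrier \ N.X.carrier := fun D hD y hy =>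
    ⟨T.cell_subset_carrier _ (k (hD hy.1)), fun o => hy.2 (Nm.strip_inter N hL ha (hD hy.1) o)⟩
  obtain ⟨x, hx⟩ := N.X.ocell_nonempty a
  have h4 := Nm.near_arc N hO hζ ha (b := ζ (zp z)) (fun y hy o => by
    rcases (d1.symm ▸ hy : y ∈ D₁ ∪ D₂) with o' | o'
    · exact Nm.const_on hζ d2 (hs _ (d1 ▸ subset_union_left)) ⟨o', o⟩ d5
    · exact (Nm.const_on hζ d3 (hs _ (d1 ▸ subset_union_right)) ⟨o', o⟩ d6).trans he.symm) hx
  obtain ⟨y, ⟨y1, y2⟩, y3⟩ :=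
    ((hJ x (N.X.cell_subset_carrier a hx.1) (ζ (zp z) + 1)).and_eventually h4).exists
  rw [y3 y1] at y2
  simp at y2

end P073.SF
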